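import Mathlib

/-!
Definitions for S0025 (Egyptian fractions with `O(log log b)` terms).
See docs row `S0025_PLAN`.
-/

set_option autoImplicit false

namespace Crest.Agent.E25

open Finset

/-- Average of `F` over all lists of length `k` with entries in `S`. -/
noncomputable def avg {α E : Type*} [NormedAddCommGroup E] [NormedSpace ℝ E] (S : Finset α) :
    ℕ → (List α → E) → E
  | 0, F => F []
  | (k + 1), F => avg S k (fun W => (S.card : ℝ)⁻¹ • ∑ a ∈ S, F (a :: W))

/-- size of the alphabet -/
abbrev ZZ : ℕ := 4096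

/-- `A W z = E_{S ⊆ W} z ^ (∏ S)`. -/
noncomputable def A : List ℕ → ℂ → ℂ
  | [], z => z
  | (n :: W), z => (A W z + A W (z ^ n)) / 2

/-- `AA V W z = E_σ A W (z ^ ∏ g_i (σ_i))`. -/
noncomputable def AA : List (Fin ZZ → ℕ) → List ℕ → ℂ → ℂ
  | [], W, z => A W z
  | (g :: V), W, z => (∑ c : Fin ZZ, AA V W (z ^ (g c))) / ZZ

/-- the standard primitive `u`-th root of unity -/
noncomputable def ze (u : ℕ) : ℂ := Complex.exp (2 * Real.pi * Complex.I / u)

/-- `2k`-th moment of `A W` over the `u`-th roots of unity -/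
noncomputable def Mom (u : ℕ) (W : List ℕ) (k : ℕ) : ℝ :=
  (∑ x ∈ range u, ‖A W (ze u ^ x)‖ ^ (2 * k)) / u

/-- the eight products attached to a list of patterns and a list of alphabets -/
def DD : List (Fin 8 → Fin ZZ) → List (Fin ZZ → ℕ) → Fin 8 → ℕ
  | (p :: P), (g :: V) => fun j => g (p j) * DD P V j
  | _, _ => fun _ => 1

def sg (j : Fin 8) : ℤ := if j.val < 4 then 1 else -1

def Del (P : List (Fin 8 → Fin ZZ)) (V : List (Fin ZZ → ℕ)) : ℤ :=
  ∑ j : Fin 8, sg j * (DD P V j : ℤ)

open Classical in
/-- number of injective patterns in a list -/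
noncomputable def ngood : List (Fin 8 → Fin ZZ) → ℕ
  | [] => 0
  | (p :: P) => (if Function.Injective p then 1 else 0) + ngood P

/-- all alphabets with values in `Q` -/
def GG (Q : Finset ℕ) : Finset (Fin ZZ → ℕ) := Fintype.piFinset (fun _ => Q)

/-! ### API for `avg` -/

section avgAPI

variable {α β E : Type*} [NormedAddCommGroup E] [NormedSpace ℝ E]

lemma avg_zero (S : Finset α) (F : List α → E) : avg S 0 F = F [] := rfl

lemma avg_succ (S : Finset α) (k : ℕ) (F : List α → E) :
    avg S (k + 1) F = avg S k (fun W => (S.card : ℝ)⁻¹ • ∑ a ∈ S, F (a :: W)) := rfl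

lemma avg_congr (S : Finset α) (k : ℕ) (F G : List α → E)
    (h : ∀ W : List α, W.length = k → (∀ a ∈ W, a ∈ S) → F W = G W) :
    avg S k F = avg S k G := by
  induction k generalizing F G with
  | zero => exact h [] rfl (by simp)
  | succ k ih =>
    rw [avg_succ, avg_succ]
    apply ih
    intro W hW hWS
    congr 1
    apply Finset.sum_congr rfl
    intro a ha
    apply h
    · simp [hW]
    · intro b hb
      rcases List.mem_cons.mp hb with rfl | hb
      · exact ha
      · exact hWS b hb

lemma avg_add (S : Finset α) (k : ℕ) (F G : List α → E) :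
    avg S k (fun W => F W + G W) = avg S k F + avg S k G := by
  induction k generalizing F G with
  | zero => rfl
  | succ k ih =>
    rw [avg_succ, avg_succ, avg_succ, ← ih]
    congr 1
    funext W
    rw [Finset.sum_add_distrib, smul_add]

lemma avg_smul (S : Finset α) (k : ℕ) (c : ℝ) (F : List α → E) :
    avg S k (fun W => c • F W) = c • avg S k F := by
  induction k generalizing F with
  | zero => rfl
  | succ k ih =>
    rw [avg_succ, avg_succ, ← ih]
    congr 1
    funext W
    rw [← Finset.smul_sum, smul_comm]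

lemma avg_zero_fun (S : Finset α) (k : ℕ) : avg S k (fun _ => (0 : E)) = 0 := by
  induction k with
  | zero => rfl
  | succ k ih => rw [avg_succ]; simpa using ih

lemma avg_sum {ι : Type*} (S : Finset α) (k : ℕ) (T : Finset ι) (F : ι → List α → E) :
    avg S k (fun W => ∑ i ∈ T, F i W) = ∑ i ∈ T, avg S k (F i) := by
  classical
  induction T using Finset.induction_on with
  | empty => simpa using avg_zero_fun S k
  | insert i T hi ih =>
    simp only [Finset.sum_insert hi]
    rw [avg_add, ih]

lemma avg_const (S : Finset α) (hS : S.Nonempty) (k : ℕ) (c : E) :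
    avg S k (fun _ => c) = c := by
  induction k with
  | zero => rfl
  | succ k ih =>
    rw [avg_succ]
    have h : (fun _ : List α => (S.card : ℝ)⁻¹ • ∑ _a ∈ S, c) = fun _ => c := by
      funext _
      rw [Finset.sum_const, ← Nat.cast_smul_eq_nsmul ℝ, smul_smul, inv_mul_cancel₀, one_smul]
      exact_mod_cast hS.card_pos.ne'
    rw [h, ih]

/-- the other order of the recursion -/
lemma avg_succ' (S : Finset α) (k : ℕ) (F : List α → E) :
    avg S (k + 1) F = (S.card : ℝ)⁻¹ • ∑ a ∈ S, avg S k (fun W => F (a :: W)) := by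
  rw [avg_succ, avg_smul, avg_sum]

/-- Fubini -/
lemma avg_comm (S : Finset α) (T : Finset β) (k l : ℕ) (F : List α → List β → E) :
    avg S k (fun W => avg T l (fun V => F W V)) = avg T l (fun V => avg S k (fun W => F W V)) := by
  induction k generalizing F with
  | zero => rfl
  | succ k ih =>
    rw [avg_succ]
    have h1 : (fun W => (S.card : ℝ)⁻¹ • ∑ a ∈ S, avg T l (fun V => F (a :: W) V)) =
        fun W => avg T l (fun V => (S.card : ℝ)⁻¹ • ∑ a ∈ S, F (a :: W) V) := by
      funext W
      rw [avg_smul, avg_sum]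
    rw [h1, ih]
    rfl

lemma avg_mono (S : Finset α) (k : ℕ) (F G : List α → ℝ)
    (h : ∀ W : List α, W.length = k → (∀ a ∈ W, a ∈ S) → F W ≤ G W) :
    avg S k F ≤ avg S k G := by
  induction k generalizing F G with
  | zero => exact h [] rfl (by simp)
  | succ k ih =>
    rw [avg_succ, avg_succ]
    apply ih
    intro W hW hWS
    simp only [smul_eq_mul]
    apply mul_le_mul_of_nonneg_left _ (by positivity)
    apply Finset.sum_le_sum
    intro a ha
    apply h
    · simp [hW]
    · intro b hb
      rcases List.mem_cons.mp hb with rfl | hb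
      · exact ha
      · exact hWS b hb

lemma avg_nonneg (S : Finset α) (k : ℕ) (F : List α → ℝ)
    (h : ∀ W : List α, W.length = k → (∀ a ∈ W, a ∈ S) → 0 ≤ F W) :
    0 ≤ avg S k F := by
  have := avg_mono S k (fun _ => 0) F h
  rwa [avg_zero_fun] at this

lemma norm_avg_le (S : Finset α) (k : ℕ) (F : List α → E) :
    ‖avg S k F‖ ≤ avg S k (fun W => ‖F W‖) := by
  induction k generalizing F with
  | zero => exact le_refl _
  | succ k ih =>
    rw [avg_succ, avg_succ]
    refine (ih _).trans ?_
    apply avg_mono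
    intro W _ _
    rw [norm_smul, smul_eq_mul, norm_inv, Real.norm_natCast]
    apply mul_le_mul_of_nonneg_left (norm_sum_le _ _) (by positivity)

lemma avg_mul_left (S : Finset α) (k : ℕ) (c : ℝ) (F : List α → ℝ) :
    avg S k (fun W => c * F W) = c * avg S k F := by
  simpa [smul_eq_mul] using avg_smul S k c F

lemma avg_const_mul_complex (S : Finset α) (k : ℕ) (c : ℂ) (F : List α → ℂ) :
    avg S k (fun W => c * F W) = c * avg S k F := by
  induction k generalizing F with
  | zero => rfl
  | succ k ih =>
    rw [avg_succ, avg_succ, ← ih]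
    congr 1
    funext W
    rw [← Finset.mul_sum, mul_smul_comm]

/-- some list does at least as well as the average -/
lemma exists_le_avg (S : Finset α) (hS : S.Nonempty) (k : ℕ) (F : List α → ℝ) :
    ∃ W : List α, W.length = k ∧ (∀ a ∈ W, a ∈ S) ∧ F W ≤ avg S k F := by
  induction k generalizing F with
  | zero => exact ⟨[], rfl, by simp, le_refl _⟩
  | succ k ih =>
    obtain ⟨W, hW, hWS, hle⟩ := ih (fun W => (S.card : ℝ)⁻¹ • ∑ a ∈ S, F (a :: W))
    obtain ⟨a, ha, hmin⟩ := Finset.exists_min_image S (fun a => F (a :: W)) hS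
    refine ⟨a :: W, by simp [hW], ?_, ?_⟩
    · intro b hb
      rcases List.mem_cons.mp hb with rfl | hb
      · exact ha
      · exact hWS b hb
    · refine le_trans ?_ hle
      have hc : (0 : ℝ) < S.card := by exact_mod_cast hS.card_pos
      rw [smul_eq_mul, inv_mul_eq_div, le_div_iff₀ hc]
      calc F (a :: W) * S.card = ∑ _b ∈ S, F (a :: W) := by
            rw [Finset.sum_const, nsmul_eq_mul, mul_comm]
        _ ≤ _ := Finset.sum_le_sum (fun b hb => hmin b hb)

/-- comparing averages over `S ⊆ T` of a nonnegative function vanishing off `S`-lists -/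
lemma avg_subset_le (S T : Finset α) (hST : S ⊆ T) (hS : S.Nonempty) (k : ℕ) (F G : List α → ℝ)
    (hG : ∀ W : List α, 0 ≤ G W)
    (h : ∀ W : List α, W.length = k → (∀ a ∈ W, a ∈ S) → F W ≤ G W)
    (h0 : ∀ W : List α, W.length = k → (∃ a ∈ W, a ∉ S) → F W ≤ 0) :
    avg T k F ≤ avg S k G := by
  classical
  induction k generalizing F G with
  | zero => exact h [] rfl (by simp)
  | succ k ih =>
    rw [avg_succ', avg_succ']
    have hc : (0 : ℝ) < S.card := by exact_mod_cast hS.card_pos
    have hcT : (S.card : ℝ) ≤ T.card := by exact_mod_cast Finset.card_le_card hST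
    simp only [smul_eq_mul]
    have hnn : ∀ a ∈ S, 0 ≤ avg S k (fun W => G (a :: W)) := fun a _ =>
      avg_nonneg _ _ _ (fun W _ _ => hG _)
    have h1 : ∑ a ∈ T, avg T k (fun W => F (a :: W)) ≤ ∑ a ∈ S, avg S k (fun W => G (a :: W)) := by
      rw [← Finset.sum_sdiff hST]
      have h2 : ∑ a ∈ T \ S, avg T k (fun W => F (a :: W)) ≤ 0 := by
        apply Finset.sum_nonpos
        intro a ha
        rw [Finset.mem_sdiff] at ha
        have := avg_mono T k (fun W => F (a :: W)) (fun _ => 0)
          (fun W hW _ => h0 _ (by simp [hW]) ⟨a, by simp, ha.2⟩)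
        rwa [avg_zero_fun] at this
      have h3 : ∑ a ∈ S, avg T k (fun W => F (a :: W)) ≤ ∑ a ∈ S, avg S k (fun W => G (a :: W)) := by
        apply Finset.sum_le_sum
        intro a ha
        apply ih
        · exact fun W => hG _
        · intro W hW hWS
          apply h _ (by simp [hW])
          intro b hb
          rcases List.mem_cons.mp hb with rfl | hb
          · exact ha
          · exact hWS b hb
        · rintro W hW ⟨b, hb, hbS⟩
          exact h0 _ (by simp [hW]) ⟨b, by simp [hb], hbS⟩
      linarith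
    have h4 : 0 ≤ ∑ a ∈ S, avg S k (fun W => G (a :: W)) := Finset.sum_nonneg hnn
    calc (T.card : ℝ)⁻¹ * ∑ a ∈ T, avg T k (fun W => F (a :: W))
        ≤ (T.card : ℝ)⁻¹ * ∑ a ∈ S, avg S k (fun W => G (a :: W)) :=
          mul_le_mul_of_nonneg_left h1 (by positivity)
      _ ≤ (S.card : ℝ)⁻¹ * ∑ a ∈ S, avg S k (fun W => G (a :: W)) := by
          apply mul_le_mul_of_nonneg_right _ h4
          exact inv_anti₀ hc hcT

end avgAPI

end Crest.Agent.E25
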