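import Crest.Agent.E25Defs

set_option autoImplicit false

namespace Crest.Agent.E25

open Finset

lemma P10_sum_zero (w : ℕ) (hw : 0 < w) (k : ℤ) (hk : ¬ (w : ℤ) ∣ k) :
    ∑ z ∈ Polynomial.nthRootsFinset w (1 : ℂ), z ^ k = 0 := by
  set ζ : ℂ := Complex.exp (2 * Real.pi * Complex.I / w) with hζ
  have hprim : IsPrimitiveRoot ζ w := Complex.isPrimitiveRoot_exp w hw.ne'
  have hζ0 : ζ ≠ 0 := hprim.ne_zero hw.ne'
  have h1 : ζ ^ k ≠ 1 := fun h => hk ((hprim.zpow_eq_one_iff_dvd k).mp h)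
  have h2 : ∑ z ∈ Polynomial.nthRootsFinset w (1 : ℂ), z ^ k =
      ∑ z ∈ Polynomial.nthRootsFinset w (1 : ℂ), (ζ * z) ^ k := by
    symm
    apply Finset.sum_nbij' (fun z => ζ * z) (fun z => ζ⁻¹ * z)
    · intro z hz
      rw [Polynomial.mem_nthRootsFinset hw] at hz ⊢
      rw [mul_pow, hz, hprim.pow_eq_one, one_mul]
    · intro z hz
      rw [Polynomial.mem_nthRootsFinset hw] at hz ⊢
      rw [mul_pow, hz, inv_pow, hprim.pow_eq_one, inv_one, one_mul]
    · intro z _
      rw [← mul_assoc, inv_mul_cancel₀ hζ0, one_mul]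
    · intro z _
      rw [← mul_assoc, mul_inv_cancel₀ hζ0, one_mul]
    · intro z _
      rfl
  have h3 : ∑ z ∈ Polynomial.nthRootsFinset w (1 : ℂ), (ζ * z) ^ k =
      ζ ^ k * ∑ z ∈ Polynomial.nthRootsFinset w (1 : ℂ), z ^ k := by
    rw [Finset.mul_sum]
    apply Finset.sum_congr rfl
    intro z _
    rw [mul_zpow]
  rw [h3] at h2
  have h4 : (1 - ζ ^ k) * ∑ z ∈ Polynomial.nthRootsFinset w (1 : ℂ), z ^ k = 0 := by
    rw [sub_mul, one_mul, ← h2, sub_self]
  rcases mul_eq_zero.mp h4 with h | h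
  · exact absurd (sub_eq_zero.mp h).symm h1
  · exact h

lemma P10_list_sum (L : List ℕ) (z : ℂ) :
    (L.map (fun d => z ^ d)).sum = ∑ i : Fin L.length, z ^ (L.get i) := by
  rw [← List.sum_ofFn]
  congr 1
  simp

theorem fourier_pos (w I T : ℕ) (hw : 0 < w) (L : Fin T → List ℕ) (hL : ∀ l, L l ≠ [])
    (h : ∑ z ∈ (Polynomial.nthRootsFinset w (1 : ℂ)).erase 1,
        ‖(∑ t ∈ range (2 ^ I), z ^ t) / 2 ^ I‖ * ∏ l, ‖((L l).map (fun d => z ^ d)).sum / (L l).length‖ < 1) (r : ℤ) :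
    ∃ t : ℕ, t < 2 ^ I ∧ ∃ e : Fin T → ℕ, (∀ l, e l ∈ L l) ∧
      (w : ℤ) ∣ ((t : ℤ) + ∑ l, (e l : ℤ)) - r := by
  classical
  by_contra hcon
  push Not at hcon
  -- the total
  have hmem1 : (1 : ℂ) ∈ Polynomial.nthRootsFinset w (1 : ℂ) := by
    rw [Polynomial.mem_nthRootsFinset hw, one_pow]
  set S : ℂ → ℂ := fun z => z ^ (-r) * ((∑ t ∈ range (2 ^ I), z ^ t) *
    ∏ l, ((L l).map (fun d => z ^ d)).sum) with hS
  have hzero : ∑ z ∈ Polynomial.nthRootsFinset w (1 : ℂ), S z = 0 := by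
    have hexp : ∀ z ∈ Polynomial.nthRootsFinset w (1 : ℂ), S z =
        ∑ t ∈ range (2 ^ I), ∑ i : (l : Fin T) → Fin (L l).length,
          z ^ (((t : ℤ) + ∑ l, (((L l).get (i l) : ℕ) : ℤ)) - r) := by
      intro z hz
      have hz0 : z ≠ 0 := by
        rw [Polynomial.mem_nthRootsFinset hw] at hz
        intro h0
        rw [h0, zero_pow hw.ne'] at hz
        exact zero_ne_one hz
      rw [hS]
      simp only [P10_list_sum]
      rw [Finset.prod_univ_sum, Fintype.piFinset_univ, Finset.sum_mul, Finset.mul_sum]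
      apply Finset.sum_congr rfl
      intro t _
      rw [Finset.mul_sum, Finset.mul_sum]
      apply Finset.sum_congr rfl
      intro i _
      rw [sub_eq_neg_add, zpow_add₀ hz0, zpow_add₀ hz0, zpow_natCast]
      congr 2
      rw [Finset.prod_pow_eq_pow_sum, ← zpow_natCast]
      congr 1
      push_cast
      rfl
    rw [Finset.sum_congr rfl hexp, Finset.sum_comm]
    apply Finset.sum_eq_zero
    intro t ht
    rw [Finset.sum_comm]
    apply Finset.sum_eq_zero
    intro i _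
    apply P10_sum_zero w hw
    exact hcon t (Finset.mem_range.mp ht) (fun l => (L l).get (i l)) (fun l => List.get_mem _ _)
  rw [← Finset.add_sum_erase _ _ hmem1] at hzero
  -- value at 1
  have hlen : ∀ l, (0 : ℝ) < ((L l).length : ℝ) := fun l => by
    exact_mod_cast List.length_pos_of_ne_nil (hL l)
  have hone : S 1 = 2 ^ I * ∏ l, ((L l).length : ℂ) := by
    rw [hS]
    simp
  set N : ℝ := 2 ^ I * ∏ l, ((L l).length : ℝ) with hN
  have hNpos : 0 < N := by
    rw [hN]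
    have : 0 < ∏ l, ((L l).length : ℝ) := Finset.prod_pos (fun l _ => hlen l)
    positivity
  have hnormS : ∀ z ∈ (Polynomial.nthRootsFinset w (1 : ℂ)).erase 1, ‖S z‖ =
      N * (‖(∑ t ∈ range (2 ^ I), z ^ t) / 2 ^ I‖ *
        ∏ l, ‖((L l).map (fun d => z ^ d)).sum / (L l).length‖) := by
    intro z hz
    rw [Finset.mem_erase, Polynomial.mem_nthRootsFinset hw] at hz
    have hzn : ‖z‖ = 1 := by
      have := congrArg norm hz.2
      rw [norm_pow, norm_one] at this
      exact (pow_eq_one_iff_of_nonneg (norm_nonneg z) hw.ne').mp this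
    rw [hS]
    simp only [norm_mul, norm_zpow, hzn, one_zpow, one_mul, norm_div, norm_prod,
      Finset.prod_div_distrib, Complex.norm_natCast, norm_pow, Complex.norm_ofNat]
    rw [hN]
    have hprod : ∏ l, ((L l).length : ℝ) ≠ 0 :=
      (Finset.prod_pos (fun l _ => hlen l)).ne'
    field_simp
  have h5 : ‖S 1‖ = N := by
    rw [hone, norm_mul, norm_prod, norm_pow, Complex.norm_ofNat]
    simp only [Complex.norm_natCast]
    rw [hN]
  have h6 : N ≤ ∑ z ∈ (Polynomial.nthRootsFinset w (1 : ℂ)).erase 1, ‖S z‖ := by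
    rw [← h5, eq_neg_of_add_eq_zero_left hzero, norm_neg]
    exact norm_sum_le _ _
  rw [Finset.sum_congr rfl hnormS, ← Finset.mul_sum] at h6
  have h7 := mul_lt_mul_of_pos_left h hNpos
  rw [mul_one] at h7
  exact absurd h6 (not_le.mpr h7)

end Crest.Agent.E25
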