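import Crest.Agent.E25Defs

set_option autoImplicit false

namespace Crest.Agent.E25

open Finset

lemma P11_periods (u : ℕ) (z : ℂ) (hz : IsPrimitiveRoot z u) (hu : 2 ≤ u) (q : ℕ) :
    ∑ t ∈ range (u * q), z ^ t = 0 := by
  induction q with
  | zero => simp
  | succ q ih =>
    rw [mul_add, mul_one, Finset.sum_range_add, ih, zero_add]
    have h1 : ∀ t ∈ range u, z ^ (u * q + t) = z ^ t := by
      intro t _
      rw [pow_add, pow_mul, hz.pow_eq_one, one_pow, one_mul]
    rw [Finset.sum_congr rfl h1]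
    exact hz.geom_sum_eq_zero (by omega)

theorem geom_bound (u : ℕ) (z : ℂ) (hz : IsPrimitiveRoot z u) (hu : 2 ≤ u) (N : ℕ) :
    ‖∑ t ∈ range N, z ^ t‖ ≤ u := by
  have hnorm : ‖z‖ = 1 := hz.norm'_eq_one (by omega)
  have hN : N = u * (N / u) + N % u := (Nat.div_add_mod N u).symm
  rw [hN, Finset.sum_range_add, P11_periods u z hz hu, zero_add]
  refine (norm_sum_le _ _).trans ?_
  simp only [norm_pow, hnorm, one_pow]
  rw [Finset.sum_const, Finset.card_range, nsmul_eq_mul, mul_one]
  exact_mod_cast (Nat.mod_lt N (by omega)).le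

end Crest.Agent.E25
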