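import Crest.Agent.E25Defs

set_option autoImplicit false

namespace Crest.Agent.E25

open Finset

lemma P12_aux (m : ℕ) (hm : 3 ≤ m) : 500 * m ≤ 16 ^ m := by
  induction m, hm using Nat.le_induction with
  | base => norm_num
  | succ m hm ih =>
    rw [pow_succ]
    omega

lemma P12_lcm (N : ℕ) (hN : 1 ≤ N) : 2 ^ N ≤ (N + 1) * N ^ (Nat.primesLE N).card := by
  refine (Chebyshev.two_pow_le_mul_lcmUpto N).trans ?_
  apply Nat.mul_le_mul_left
  rw [Nat.lcmUpto_eq_prod_pow_log]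
  refine (Finset.prod_le_prod' (g := fun _ => N) (fun p _ => Nat.pow_log_le_self p (by omega))).trans ?_
  rw [Finset.prod_const]

lemma P12_card_primeFactors (D : ℕ) (hD : 0 < D) (t : ℕ) (h : D < 2 ^ t) :
    D.primeFactors.card ≤ t := by
  have h2 : 2 ^ D.primeFactors.card ≤ D := by
    calc 2 ^ D.primeFactors.card = ∏ _p ∈ D.primeFactors, 2 := by
          rw [Finset.prod_const]
      _ ≤ ∏ p ∈ D.primeFactors, p :=
          Finset.prod_le_prod' (fun p hp => (Nat.prime_of_mem_primeFactors hp).two_le)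
      _ ≤ D := Nat.le_of_dvd hD (Nat.prod_primeFactors_dvd _)
  exact ((Nat.pow_lt_pow_iff_right (by norm_num)).1 (lt_of_le_of_lt h2 h)).le

theorem exists_primes : ∃ m0 : ℕ, ∀ m ≥ m0, ∀ D : ℕ, 0 < D → D < 2 ^ (2 ^ (10 * m)) → 2 ^ (76 * m) ≤
      ((range (2 ^ (80 * m))).filter (fun p => p.Prime ∧ 2 ^ (40 * m) < p ∧ ¬ p ∣ D)).card := by
  refine ⟨3, ?_⟩
  intro m hm D hD hDlt
  set N := 2 ^ (80 * m) with hN
  have hN1 : 1 ≤ N := Nat.one_le_two_pow
  set P := (Nat.primesLE N).card with hP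
  have h1 := P12_lcm N hN1
  rw [← hP] at h1
  have h2 : (N + 1) * N ^ P ≤ 2 ^ (80 * m + 1 + 80 * m * P) := by
    rw [pow_add, pow_mul, ← hN]
    apply Nat.mul_le_mul_right
    rw [pow_succ, ← hN]
    omega
  have h3 : N ≤ 80 * m + 1 + 80 * m * P :=
    (Nat.pow_le_pow_iff_right (by norm_num)).1 (h1.trans h2)
  -- the filter
  set F := (range N).filter (fun p => p.Prime ∧ 2 ^ (40 * m) < p ∧ ¬ p ∣ D) with hF
  have hsub : Nat.primesLE N ⊆ F ∪ (range (2 ^ (40 * m) + 1) ∪ D.primeFactors) := by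
    intro p hp
    rw [Nat.mem_primesLE] at hp
    rw [Finset.mem_union, Finset.mem_union]
    by_cases h4 : p ≤ 2 ^ (40 * m)
    · right; left
      rw [Finset.mem_range]; omega
    · by_cases h5 : p ∣ D
      · right; right
        rw [Nat.mem_primeFactors]
        exact ⟨hp.2, h5, hD.ne'⟩
      · left
        rw [hF, Finset.mem_filter, Finset.mem_range]
        refine ⟨lt_of_le_of_ne hp.1 ?_, hp.2, by omega, h5⟩
        rintro rfl
        have h6 : ¬ (2 ^ (80 * m)).Prime := Nat.Prime.not_prime_pow (by omega)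
        exact h6 hp.2
  have hcard : P ≤ F.card + (2 ^ (40 * m) + 1 + 2 ^ (10 * m)) := by
    have h4 := Finset.card_le_card hsub
    have h5 := Finset.card_union_le F (range (2 ^ (40 * m) + 1) ∪ D.primeFactors)
    have h6 := Finset.card_union_le (range (2 ^ (40 * m) + 1)) D.primeFactors
    have h7 := P12_card_primeFactors D hD _ hDlt
    rw [Finset.card_range] at h6
    omega
  by_contra hcon
  push Not at hcon
  have e1 : 2 ^ (40 * m) ≤ 2 ^ (76 * m) := Nat.pow_le_pow_right (by norm_num) (by omega)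
  have e2 : 2 ^ (10 * m) ≤ 2 ^ (76 * m) := Nat.pow_le_pow_right (by norm_num) (by omega)
  have e3 : 1 ≤ 2 ^ (76 * m) := Nat.one_le_two_pow
  have e4 : P ≤ 4 * 2 ^ (76 * m) := by omega
  have e5 : N = 2 ^ (76 * m) * 16 ^ m := by
    rw [hN]
    have : (16 : ℕ) = 2 ^ 4 := by norm_num
    rw [this, ← pow_mul, ← pow_add]
    congr 1
    ring
  have e6 := P12_aux m hm
  have e7 : 2 ^ (76 * m) * (500 * m) ≤ N := by
    rw [e5]
    exact Nat.mul_le_mul_left _ e6
  have e8 : 80 * m * P ≤ 80 * m * (4 * 2 ^ (76 * m)) := Nat.mul_le_mul_left _ e4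
  have e9 : 80 * m + 1 ≤ 81 * m * 2 ^ (76 * m) := by
    have : 81 * m * 1 ≤ 81 * m * 2 ^ (76 * m) := Nat.mul_le_mul_left _ e3
    omega
  have e10 : 2 ^ (76 * m) * (500 * m) ≤ 81 * m * 2 ^ (76 * m) + 80 * m * (4 * 2 ^ (76 * m)) := by
    omega
  have e11 : 81 * m * 2 ^ (76 * m) + 80 * m * (4 * 2 ^ (76 * m)) = 2 ^ (76 * m) * (401 * m) := by
    ring
  rw [e11] at e10
  have e12 : 500 * m ≤ 401 * m := Nat.le_of_mul_le_mul_left e10 (by positivity)
  omega

end Crest.Agent.E25
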