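import Crest.Agent.E25P13e

set_option autoImplicit false
set_option maxRecDepth 100000

namespace Crest.Agent.E25

open Finset

lemma P13_choose_i (s i0 : ℕ) (h : 2 ^ (4 * 2 ^ i0) < s) :
    ∃ i, i0 < i ∧ 2 ^ (2 * 2 ^ i) < s ∧ s ≤ 2 ^ (4 * 2 ^ i) := by
  classical
  have hex : ∃ i, s ≤ 2 ^ (4 * 2 ^ i) := by
    refine ⟨s, ?_⟩
    calc s ≤ 2 ^ s := Nat.lt_two_pow_self.le
      _ ≤ 2 ^ (4 * 2 ^ s) := by
          apply Nat.pow_le_pow_right (by norm_num)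
          have : s < 2 ^ s := Nat.lt_two_pow_self
          omega
  have h1 := Nat.find_spec hex
  have h2 : i0 < Nat.find hex := by
    by_contra hcon
    push Not at hcon
    have : 2 ^ (4 * 2 ^ (Nat.find hex)) ≤ 2 ^ (4 * 2 ^ i0) := by
      apply Nat.pow_le_pow_right (by norm_num)
      apply Nat.mul_le_mul_left
      exact Nat.pow_le_pow_right (by norm_num) hcon
    omega
  obtain ⟨i', hi'⟩ : ∃ i', Nat.find hex = i' + 1 := ⟨Nat.find hex - 1, by omega⟩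
  have h3 := Nat.find_min hex (m := i') (by omega)
  refine ⟨Nat.find hex, h2, ?_, h1⟩
  rw [hi', pow_succ, show 2 * (2 ^ i' * 2) = 4 * 2 ^ i' by ring]
  omega

lemma P13_size (m s w R : ℕ) (hm : 1 ≤ m) (hs1 : 2 ^ (2 * m) < s) (hw : w = s / (80 * m) + 1)
    (hR : R ≤ (2 ^ (80 * m)) ^ (JJ * (16 * m) + JJ * (ZZ * (4 * w) + w))) :
    2 ^ (1920 * m + 2) * R ≤ 2 ^ (4000000000 * s) := by
  have hmm : m ^ 2 ≤ s := by
    have h1 : m < 2 ^ m := Nat.lt_two_pow_self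
    have h2 : m ^ 2 ≤ (2 ^ m) ^ 2 := Nat.pow_le_pow_left h1.le 2
    rw [← pow_mul, mul_comm m 2] at h2
    omega
  have hms : m ≤ s := by nlinarith
  have hw2 : 80 * m * w ≤ s + 80 * m := by
    rw [hw, mul_add, mul_one]
    have := Nat.mul_div_le s (80 * m)
    omega
  have hexp : (1920 * m + 2) + 80 * m * (JJ * (16 * m) + JJ * (ZZ * (4 * w) + w)) ≤ 4000000000 * s := by
    have e1 : 80 * m * (JJ * (16 * m) + JJ * (ZZ * (4 * w) + w)) =
        3276800 * m ^ 2 + 41945600 * (80 * m * w) := by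
      show 80 * m * (2560 * (16 * m) + 2560 * (4096 * (4 * w) + w)) = _
      ring
    rw [e1]
    have : 1 ≤ s := by omega
    omega
  calc 2 ^ (1920 * m + 2) * R
      ≤ 2 ^ (1920 * m + 2) * (2 ^ (80 * m)) ^ (JJ * (16 * m) + JJ * (ZZ * (4 * w) + w)) :=
        Nat.mul_le_mul_left _ hR
    _ = 2 ^ ((1920 * m + 2) + 80 * m * (JJ * (16 * m) + JJ * (ZZ * (4 * w) + w))) := by
        rw [← pow_mul, ← pow_add]
    _ ≤ 2 ^ (4000000000 * s) := Nat.pow_le_pow_right (by norm_num) hexp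

theorem SCL : ∃ C : ℕ, ∀ C3 : ℕ, ∃ s0 : ℕ, ∀ s ≥ s0, ∀ D : ℕ, 0 < D → D ≤ 2 ^ (C3 * s) →
    ∃ I R0 : ℕ, Odd R0 ∧ Nat.Coprime R0 D ∧ I ≤ C * Nat.log 2 s ∧ s ^ 2 ≤ 2 ^ I ∧
      2 ^ I * R0 ≤ 2 ^ (C * s) ∧ (∀ p, p.Prime → p ∣ R0 → s ^ 2 < p) ∧
      ∀ w, 0 < w → w ≤ 2 ^ s → Nat.Coprime w R0 → ∀ r : ℤ,
        ∃ F : Finset ℕ, F.Nonempty ∧ F.card ≤ C * Nat.log 2 s ∧
          (∀ d ∈ F, d ∣ 2 ^ I * R0) ∧ (w : ℤ) ∣ (∑ d ∈ F, (d : ℤ)) - r := by
  obtain ⟨m0, hm0⟩ := exists_primes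
  refine ⟨4000000000, fun C3 => ?_⟩
  set i0 := max 5 (max m0 C3) with hi0
  refine ⟨2 ^ (4 * 2 ^ i0) + 1, fun s hs D hD hDs => ?_⟩
  obtain ⟨i, hii, hs1, hs2⟩ := P13_choose_i s i0 (by omega)
  have h5 : 5 ≤ i0 := le_max_left _ _
  have hm0i : m0 ≤ i0 := (le_max_left _ _).trans (le_max_right _ _)
  have hC3i : C3 ≤ i0 := (le_max_right _ _).trans (le_max_right _ _)
  obtain ⟨m, hm⟩ : ∃ m, m = 2 ^ i := ⟨_, rfl⟩
  have him : i < m := by rw [hm]; exact Nat.lt_two_pow_self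
  have hm32 : 32 ≤ m := by
    rw [hm]
    calc 32 = 2 ^ 5 := by norm_num
      _ ≤ 2 ^ i := Nat.pow_le_pow_right (by norm_num) (by omega)
  have hC3 : C3 < 2 ^ m := lt_of_lt_of_le (by omega : C3 < m) Nat.lt_two_pow_self.le
  rw [← hm] at hs1 hs2
  have hDlt : D < 2 ^ (2 ^ (10 * m)) := by
    refine lt_of_le_of_lt hDs (Nat.pow_lt_pow_right (by norm_num) ?_)
    calc C3 * s ≤ C3 * 2 ^ (4 * m) := Nat.mul_le_mul_left _ hs2
      _ ≤ 2 ^ m * 2 ^ (4 * m) := Nat.mul_le_mul_right _ hC3.le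
      _ = 2 ^ (5 * m) := by rw [← pow_add]; congr 1; ring
      _ < 2 ^ (10 * m) := Nat.pow_lt_pow_right (by norm_num) (by omega)
  have hpc := hm0 m (by omega) D hD hDlt
  set P0 := (range (2 ^ (80 * m))).filter (fun p => p.Prime ∧ 2 ^ (40 * m) < p ∧ ¬ p ∣ D) with hP0
  have hP0mem : ∀ p ∈ P0, p < 2 ^ (80 * m) ∧ p.Prime ∧ 2 ^ (40 * m) < p ∧ ¬ p ∣ D := by
    intro p hp
    rw [hP0, Finset.mem_filter, Finset.mem_range] at hp
    exact hp
  obtain ⟨w, hw⟩ : ∃ w, w = s / (80 * m) + 1 := ⟨_, rfl⟩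
  have hcard : 2 ^ (75 * m) + s + JJ * (16 * m) ≤ P0.card := by
    refine le_trans ?_ hpc
    have h1 : s ≤ 2 ^ (75 * m) := hs2.trans (Nat.pow_le_pow_right (by norm_num) (by omega))
    have h2 : JJ * (16 * m) ≤ 2 ^ (75 * m) := by
      have h3 : m < 2 ^ m := Nat.lt_two_pow_self
      calc JJ * (16 * m) = 40960 * m := by show 2560 * (16 * m) = _; ring
        _ ≤ 2 ^ 16 * 2 ^ m := Nat.mul_le_mul (by norm_num) h3.le
        _ = 2 ^ (16 + m) := by rw [pow_add]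
        _ ≤ 2 ^ (75 * m) := Nat.pow_le_pow_right (by norm_num) (by omega)
    have h4 : 2 ^ (75 * m) * 4 ≤ 2 ^ (76 * m) := by
      calc 2 ^ (75 * m) * 4 = 2 ^ (75 * m + 2) := by rw [pow_add]; norm_num
        _ ≤ 2 ^ (76 * m) := Nat.pow_le_pow_right (by norm_num) (by omega)
    omega
  have h40 : s ^ 2 < 2 ^ (40 * m) := by
    calc s ^ 2 ≤ (2 ^ (4 * m)) ^ 2 := Nat.pow_le_pow_left hs2 2
      _ = 2 ^ (8 * m) := by rw [← pow_mul]; congr 1; ring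
      _ < 2 ^ (40 * m) := Nat.pow_lt_pow_right (by norm_num) (by omega)
  obtain ⟨R0, hPF, hR0, hmain⟩ := P13_gen JJ (16 * m) (1920 * m + 2) (2 ^ (640 * m)) s w (2 ^ (80 * m))
    (2 ^ (75 * m) + s) JJ_pos (by omega)
    (by
      push_cast
      rw [← pow_mul, pow_add, show 640 * m * 3 = 1920 * m by ring]
      have : (0 : ℝ) < 2 ^ (1920 * m) := by positivity
      apply le_of_eq
      field_simp
      norm_num)
    P0 (fun n hn => (hP0mem n hn).2.1) (fun n hn => (hP0mem n hn).1.le)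
    (fun n hn => by
      have h1 := (hP0mem n hn).2.2.1
      have h2 : 2 ^ 1 ≤ 2 ^ (40 * m) := Nat.pow_le_pow_right (by norm_num) (by omega)
      omega)
    hcard
    (by
      intro P hP hPc pm
      subst hm
      exact P13_blocks i s hm32 hs1 hs2 P (fun n hn => (hP0mem n (hP hn)).2.1)
        (fun n hn => (hP0mem n (hP hn)).1) hPc w hw pm)
  have hlog : 2 * m ≤ Nat.log 2 s := by
    apply Nat.le_log_of_pow_le (by norm_num) hs1.le
  refine ⟨1920 * m + 2, R0, ?_, ?_, ?_, ?_, ?_, ?_, ?_⟩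
  · rw [← Nat.not_even_iff_odd, even_iff_two_dvd]
    intro h2
    have h3 := (hP0mem 2 (hPF 2 Nat.prime_two h2)).2.2.1
    have h4 : 2 ^ 1 ≤ 2 ^ (40 * m) := Nat.pow_le_pow_right (by norm_num) (by omega)
    omega
  · apply Nat.coprime_of_dvd
    intro k hk hkR hkD
    exact (hP0mem k (hPF k hk hkR)).2.2.2 hkD
  · calc 1920 * m + 2 ≤ 4000000000 * (2 * m) := by omega
      _ ≤ 4000000000 * Nat.log 2 s := Nat.mul_le_mul_left _ hlog
  · exact h40.le.trans (Nat.pow_le_pow_right (by norm_num) (by omega))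
  · exact P13_size m s w R0 (by omega) hs1 hw hR0
  · intro p hp hpR
    exact h40.trans (hP0mem p (hPF p hp hpR)).2.2.1
  · intro v hv hvs hcop r
    obtain ⟨F, h1, h2, h3, h4⟩ := hmain v hv hvs hcop r
    refine ⟨F, h1, h2.trans ?_, h3, h4⟩
    calc 1920 * m + 2 + JJ * (16 * m) = 42880 * m + 2 := by
          show 1920 * m + 2 + 2560 * (16 * m) = _
          ring
      _ ≤ 4000000000 * (2 * m) := by omega
      _ ≤ 4000000000 * Nat.log 2 s := Nat.mul_le_mul_left _ hlog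

end Crest.Agent.E25
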