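import Crest.Agent.E25P15

set_option autoImplicit false
set_option maxRecDepth 100000

namespace Crest.Agent.E25

open Finset

lemma P13_avg_le (P Q : Finset ℕ) (hQP : Q ⊆ P) (hQ : Q.Nonempty) (κ t : ℕ)
    (f : List ℕ → List (Fin ZZ → ℕ) → ℝ) (hf : ∀ W V, 0 ≤ f W V)
    (F : List ℕ → List (Fin ZZ → ℕ) → ℝ)
    (hF1 : ∀ W V, F W V ≤ f W V)
    (hF2 : ∀ W V, (∃ n ∈ W, n ∉ Q) → F W V ≤ 0)
    (hF3 : ∀ W V, (∃ g ∈ V, g ∉ GG Q) → F W V ≤ 0) :
    avg P κ (fun W => avg (GG P) t (fun V => F W V)) ≤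
      avg Q κ (fun W => avg (GG Q) t (fun V => f W V)) := by
  have hGG : GG Q ⊆ GG P := by
    intro g hg
    simp only [GG, Fintype.mem_piFinset] at hg ⊢
    exact fun c => hQP (hg c)
  have hGQ : (GG Q).Nonempty := by
    obtain ⟨q, hq⟩ := hQ
    exact ⟨fun _ => q, by simp [GG, Fintype.mem_piFinset, hq]⟩
  apply avg_subset_le Q P hQP hQ
  · intro W
    exact avg_nonneg _ _ _ (fun V _ _ => hf W V)
  · intro W hW hWQ
    apply avg_subset_le (GG Q) (GG P) hGG hGQ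
    · exact fun V => hf W V
    · intro V _ _
      exact hF1 W V
    · intro V _ hV
      exact hF3 W V hV
  · intro W hW hWQ
    have h1 := avg_mono (GG P) t (fun V => F W V) (fun _ => 0) (fun V _ _ => hF2 W V hWQ)
    rwa [avg_zero_fun] at h1

/-- all prime factors of `N` lie in `S` -/
def PF (S : Finset ℕ) (N : ℕ) : Prop := ∀ p : ℕ, p.Prime → p ∣ N → p ∈ S

lemma PF_mul (S : Finset ℕ) (M N : ℕ) (hM : PF S M) (hN : PF S N) : PF S (M * N) := by
  intro p hp hd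
  rcases (Nat.Prime.dvd_mul hp).mp hd with h | h
  · exact hM p hp h
  · exact hN p hp h

lemma PF_prime (S : Finset ℕ) (n : ℕ) (hn : n.Prime) (h : n ∈ S) : PF S n := by
  intro p hp hd
  rwa [(Nat.prime_dvd_prime_iff_eq hp hn).mp hd]

lemma PF_one (S : Finset ℕ) : PF S 1 := by
  intro p hp hd
  exact absurd (Nat.dvd_one.mp hd) hp.one_lt.ne'

lemma PF_prod {ι : Type*} (S : Finset ℕ) (T : Finset ι) (f : ι → ℕ) (h : ∀ i ∈ T, PF S (f i)) :
    PF S (∏ i ∈ T, f i) := by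
  intro p hp hd
  obtain ⟨i, hi, hd⟩ := (Prime.dvd_finsetProd_iff hp.prime f).mp hd
  exact h i hi p hp hd

lemma PF_list_prod (S : Finset ℕ) (L : List ℕ) (h : ∀ n ∈ L, PF S n) : PF S L.prod := by
  induction L with
  | nil => exact PF_one S
  | cons n L ih =>
    rw [List.prod_cons]
    exact PF_mul S n _ (h n (by simp)) (ih (fun n hn => h n (by simp [hn])))

lemma PF_dvd (S : Finset ℕ) (M N : ℕ) (hd : M ∣ N) (hN : PF S N) : PF S M :=
  fun p hp h => hN p hp (h.trans hd)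

/-- the product of the entries of a block -/
def blk (V : List (Fin ZZ → ℕ)) (W : List ℕ) : ℕ :=
  (V.map (fun g => ∏ c : Fin ZZ, g c)).prod * W.prod

lemma blk_PF (S : Finset ℕ) (hS : ∀ n ∈ S, n.Prime) (V : List (Fin ZZ → ℕ)) (W : List ℕ)
    (hW : ∀ n ∈ W, n ∈ S) (hV : ∀ g ∈ V, g ∈ GG S) : PF S (blk V W) := by
  apply PF_mul
  · apply PF_list_prod
    intro n hn
    rw [List.mem_map] at hn
    obtain ⟨g, hg, rfl⟩ := hn
    apply PF_prod
    intro c _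
    have := hV g hg
    rw [GG, Fintype.mem_piFinset] at this
    exact PF_prime S _ (hS _ (this c)) (this c)
  · apply PF_list_prod
    intro n hn
    exact PF_prime S _ (hS _ (hW n hn)) (hW n hn)

lemma blk_le (Y : ℕ) (V : List (Fin ZZ → ℕ)) (W : List ℕ)
    (hW : ∀ n ∈ W, n ≤ Y) (hV : ∀ g ∈ V, ∀ c, g c ≤ Y) :
    blk V W ≤ Y ^ (ZZ * V.length + W.length) := by
  rw [blk, pow_add]
  apply Nat.mul_le_mul
  · rw [pow_mul]
    have := List.prod_le_pow_card (V.map (fun g => ∏ c : Fin ZZ, g c)) (Y ^ ZZ) (by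
      intro x hx
      rw [List.mem_map] at hx
      obtain ⟨g, hg, rfl⟩ := hx
      calc ∏ c : Fin ZZ, g c ≤ ∏ _c : Fin ZZ, Y := Finset.prod_le_prod' (fun c _ => hV g hg c)
        _ = Y ^ ZZ := by simp)
    simpa using this
  · exact List.prod_le_pow_card W Y hW

lemma blk_mem_dvd_W (V : List (Fin ZZ → ℕ)) (W : List ℕ) (n : ℕ) (hn : n ∈ W) : n ∣ blk V W :=
  (List.dvd_prod hn).trans (Dvd.intro_left _ rfl)

lemma blk_mem_dvd_V (V : List (Fin ZZ → ℕ)) (W : List ℕ) (g : Fin ZZ → ℕ) (hg : g ∈ V) (c : Fin ZZ) :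
    g c ∣ blk V W := by
  have h1 : g c ∣ ∏ c : Fin ZZ, g c := Finset.dvd_prod_of_mem g (Finset.mem_univ c)
  have h2 : (∏ c : Fin ZZ, g c) ∣ (V.map (fun g => ∏ c : Fin ZZ, g c)).prod := by
    apply List.dvd_prod
    exact List.mem_map.mpr ⟨g, hg, rfl⟩
  exact (h1.trans h2).trans (Dvd.intro _ rfl)

end Crest.Agent.E25
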