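import Crest.Agent.E25P13a

set_option autoImplicit false
set_option maxRecDepth 100000

namespace Crest.Agent.E25

open Finset

lemma P13_primes_dvd (P : Finset ℕ) (hP : ∀ n ∈ P, n.Prime) (u s : ℕ) (hu : 0 < u) (hus : u ≤ 2 ^ s) :
    (P.filter (fun n => ¬ n.Coprime u)).card ≤ s := by
  have h1 : P.filter (fun n => ¬ n.Coprime u) ⊆ u.primeFactors := by
    intro n hn
    rw [Finset.mem_filter] at hn
    rw [Nat.mem_primeFactors]
    refine ⟨hP n hn.1, ?_, hu.ne'⟩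
    by_contra h
    exact hn.2 (((hP n hn.1).coprime_iff_not_dvd).mpr h)
  have h2 : 2 ^ (P.filter (fun n => ¬ n.Coprime u)).card ≤ 2 ^ s := by
    calc 2 ^ (P.filter (fun n => ¬ n.Coprime u)).card ≤ 2 ^ u.primeFactors.card :=
          Nat.pow_le_pow_right (by norm_num) (Finset.card_le_card h1)
      _ ≤ ∏ p ∈ u.primeFactors, p := by
          apply Finset.pow_card_le_prod
          intro p hp
          exact (Nat.prime_of_mem_primeFactors hp).two_le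
      _ ≤ u := Nat.le_of_dvd hu (Nat.prod_primeFactors_dvd u)
      _ ≤ 2 ^ s := hus
  exact (Nat.pow_le_pow_iff_right (by norm_num)).mp h2

noncomputable def epsu (u : ℕ) : ℝ := (u : ℝ) ^ (-(4 : ℝ) / JJ)

lemma JJ_pos : 0 < JJ := by unfold JJ; norm_num

lemma epsu_nonneg (u : ℕ) : 0 ≤ epsu u := Real.rpow_nonneg (by positivity) _

lemma epsu_pow (u : ℕ) (hu : 0 < u) : epsu u ^ JJ = ((u : ℝ) ^ 4)⁻¹ := by
  have hJ : (JJ : ℝ) ≠ 0 := by exact_mod_cast JJ_pos.ne'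
  rw [epsu, ← Real.rpow_natCast, ← Real.rpow_mul (by positivity), div_mul_cancel₀ _ hJ,
    Real.rpow_neg (by positivity)]
  norm_cast

lemma P13_ml (i s u : ℕ) (hi : 32 ≤ 2 ^ i) (hs1 : 2 ^ (2 * 2 ^ i) < s) (hs2 : s ≤ 2 ^ (4 * 2 ^ i))
    (hu1 : 2 ^ (640 * 2 ^ i) ≤ u) (hus : u ≤ 2 ^ s)
    (Q : Finset ℕ) (hQp : ∀ n ∈ Q, n.Prime) (hQu : ∀ n ∈ Q, n.Coprime u)
    (hQY : ∀ n ∈ Q, n < 2 ^ (80 * 2 ^ i)) (hQc : 2 ^ (75 * 2 ^ i) ≤ Q.card)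
    (z : ℂ) (hz : IsPrimitiveRoot z u) (w : ℕ) (hw : w = s / (80 * 2 ^ i) + 1) (p : ℕ) (hp : p.Coprime u) :
    16 * ((2 ^ i : ℕ) : ℝ) * avg Q w (fun W => avg (GG Q) (4 * w) (fun V => ‖AA V W (z ^ p)‖ ^ (16 * 2 ^ i)))
      ≤ epsu u := by
  have hu : 0 < u := lt_of_lt_of_le (by positivity) hu1
  have h1 := ML i s u hi hs1 hs2 hu1 hus Q hQp hQu hQY hQc (z ^ p) (hz.pow_of_coprime p hp) w hw
  have hE : 0 ≤ avg Q w (fun W => avg (GG Q) (4 * w) (fun V => ‖AA V W (z ^ p)‖ ^ (16 * 2 ^ i))) :=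
    avg_nonneg _ _ _ (fun W _ _ => avg_nonneg _ _ _ (fun V _ _ => by positivity))
  have hu4 : (0 : ℝ) < (u : ℝ) ^ 4 := by positivity
  have h2 : (16 * ((2 ^ i : ℕ) : ℝ) * avg Q w (fun W => avg (GG Q) (4 * w)
      (fun V => ‖AA V W (z ^ p)‖ ^ (16 * 2 ^ i)))) ^ JJ ≤ epsu u ^ JJ := by
    rw [epsu_pow u hu, ← one_div, le_div_iff₀ hu4]
    exact h1
  exact le_of_pow_le_pow_left₀ JJ_pos.ne' (epsu_nonneg u) h2

end Crest.Agent.E25
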