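import Crest.Agent.E25P13b

set_option autoImplicit false
set_option maxRecDepth 100000

namespace Crest.Agent.E25

open Finset

lemma P13_amgm (n : ℕ) (hn : 0 < n) (x : Fin n → ℝ) (hx : ∀ k, 0 ≤ x k) :
    ∏ k, x k ≤ ∑ k, x k ^ n := by
  have : NeZero n := ⟨hn.ne'⟩
  obtain ⟨k0, -, hk0⟩ := Finset.exists_max_image (univ : Finset (Fin n)) x ⟨0, mem_univ _⟩
  calc ∏ k, x k ≤ ∏ _k : Fin n, x k0 :=
        Finset.prod_le_prod (fun k _ => hx k) (fun k _ => hk0 k (mem_univ _))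
    _ = x k0 ^ n := by simp
    _ ≤ ∑ k, x k ^ n := Finset.single_le_sum (f := fun k => x k ^ n)
        (fun k _ => pow_nonneg (hx k) _) (mem_univ k0)

lemma P13_sum_inv (B N : ℕ) (hB : 4 ≤ B) (S : Finset ℕ) (hS : S ⊆ Ioc B N) :
    ∑ u ∈ S, ((Nat.totient u : ℕ) : ℝ) * ((u : ℝ) ^ 4)⁻¹ ≤ 1 / 4 := by
  have h1 : ∑ u ∈ S, ((Nat.totient u : ℕ) : ℝ) * ((u : ℝ) ^ 4)⁻¹ ≤ ∑ u ∈ Ioc B N, ((u : ℝ) ^ 2)⁻¹ := by
    calc ∑ u ∈ S, ((Nat.totient u : ℕ) : ℝ) * ((u : ℝ) ^ 4)⁻¹ ≤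
        ∑ u ∈ Ioc B N, ((Nat.totient u : ℕ) : ℝ) * ((u : ℝ) ^ 4)⁻¹ :=
          Finset.sum_le_sum_of_subset_of_nonneg hS (fun u _ _ => by positivity)
      _ ≤ ∑ u ∈ Ioc B N, ((u : ℝ) ^ 2)⁻¹ := by
          apply Finset.sum_le_sum
          intro u hu
          rw [Finset.mem_Ioc] at hu
          have hu0 : (1 : ℝ) ≤ (u : ℝ) := by exact_mod_cast (by omega : 1 ≤ u)
          have ht : ((Nat.totient u : ℕ) : ℝ) ≤ u := by exact_mod_cast Nat.totient_le u
          rw [← div_eq_mul_inv, div_le_iff₀ (by positivity)]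
          calc ((Nat.totient u : ℕ) : ℝ) ≤ u := ht
            _ ≤ (u : ℝ) ^ 2 := by nlinarith
            _ = ((u : ℝ) ^ 2)⁻¹ * (u : ℝ) ^ 4 := by field_simp
  refine h1.trans ?_
  rcases le_or_gt B N with hBN | hBN
  · refine (sum_Ioc_inv_sq_le_sub (α := ℝ) (by omega : B ≠ 0) hBN).trans ?_
    have h2 : ((B : ℝ))⁻¹ ≤ 1 / 4 := by
      rw [one_div]
      apply inv_anti₀ (by norm_num)
      exact_mod_cast hB
    have h3 : (0 : ℝ) ≤ ((N : ℝ))⁻¹ := by positivity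
    linarith
  · rw [Finset.Ioc_eq_empty (by omega)]
    simp

lemma P13_blocks (i s : ℕ) (hi : 32 ≤ 2 ^ i) (hs1 : 2 ^ (2 * 2 ^ i) < s) (hs2 : s ≤ 2 ^ (4 * 2 ^ i))
    (P : Finset ℕ) (hPp : ∀ n ∈ P, n.Prime)
    (hPY : ∀ n ∈ P, n < 2 ^ (80 * 2 ^ i)) (hPc : 2 ^ (75 * 2 ^ i) + s ≤ P.card)
    (w : ℕ) (hw : w = s / (80 * 2 ^ i) + 1)
    (pm : Fin JJ → Fin (16 * 2 ^ i) → ℕ) :
    ∃ (Ws : ℕ → List ℕ) (Vs : ℕ → List (Fin ZZ → ℕ)),
      (∀ j < JJ, (Ws j).length = w ∧ (∀ n ∈ Ws j, n ∈ P) ∧ (Vs j).length = 4 * w ∧ ∀ g ∈ Vs j, g ∈ GG P) ∧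
      ∀ S : Finset ℂ, (∀ z ∈ S, 2 ^ (640 * 2 ^ i) < orderOf z ∧ orderOf z ≤ 2 ^ s ∧
          (∀ j k, (pm j k).Coprime (orderOf z)) ∧
          ∀ j < JJ, (∀ n ∈ Ws j, n.Coprime (orderOf z)) ∧ ∀ g ∈ Vs j, ∀ c, (g c).Coprime (orderOf z)) →
        ∑ z ∈ S, ∏ j : Fin JJ, ∏ k : Fin (16 * 2 ^ i), ‖AA (Vs j) (Ws j) (z ^ (pm j k))‖ ≤ 1 / 4 := by
  classical
  have hPne : P.Nonempty := by
    rw [← Finset.card_pos]
    have : 0 < 2 ^ (75 * 2 ^ i) := by positivity
    omega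
  set B := 2 ^ (640 * 2 ^ i) with hB
  have hB4 : 4 ≤ B := by
    calc 4 = 2 ^ 2 := by norm_num
      _ ≤ B := Nat.pow_le_pow_right (by norm_num) (by omega)
  let US : Finset ℕ := (Ioc B (2 ^ s)).filter (fun u => ∀ j k, (pm j k).Coprime u)
  let Zs : Finset ℂ := US.biUnion (fun u => primitiveRoots u ℂ)
  let Q : ℕ → Finset ℕ := fun u => P.filter (fun n => n.Coprime u)
  have hQcard : ∀ u, 0 < u → u ≤ 2 ^ s → 2 ^ (75 * 2 ^ i) ≤ (Q u).card := by
    intro u hu hus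
    have h1 := P13_primes_dvd P hPp u s hu hus
    have h2 := Finset.card_filter_add_card_filter_not (s := P) (fun n => n.Coprime u)
    show 2 ^ (75 * 2 ^ i) ≤ (P.filter (fun n => n.Coprime u)).card
    omega
  let F : ℕ → ℂ → List ℕ → List (Fin ZZ → ℕ) → ℝ := fun j z W V =>
    if (∀ n ∈ W, n ∈ Q (orderOf z)) ∧ (∀ g ∈ V, g ∈ GG (Q (orderOf z))) then
      (∑ k : Fin (16 * 2 ^ i), ‖AA V W (z ^ (pm ⟨j % JJ, Nat.mod_lt _ JJ_pos⟩ k))‖ ^ (16 * 2 ^ i)) else 0
  have hF0 : ∀ j z W V, 0 ≤ F j z W V := by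
    intro j z W V
    simp only [F]
    split_ifs
    · exact Finset.sum_nonneg (fun k _ => by positivity)
    · exact le_refl _
  have hZs : ∀ z ∈ Zs, B < orderOf z ∧ orderOf z ≤ 2 ^ s ∧ (∀ j k, (pm j k).Coprime (orderOf z)) ∧
      IsPrimitiveRoot z (orderOf z) := by
    intro z hz
    simp only [Zs, US, Finset.mem_biUnion, Finset.mem_filter, Finset.mem_Ioc] at hz
    obtain ⟨u, ⟨⟨h1, h2⟩, h3⟩, h4⟩ := hz
    have h5 := isPrimitiveRoot_of_mem_primitiveRoots h4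
    have h6 := h5.eq_orderOf
    rw [← h6]
    exact ⟨h1, h2, h3, h5⟩
  have havg : ∀ j < JJ, ∀ z ∈ Zs, avg P w (fun W => avg (GG P) (4 * w) (fun V => F j z W V)) ≤
      epsu (orderOf z) := by
    intro j hj z hz
    obtain ⟨h1, h2, h3, h4⟩ := hZs z hz
    set u := orderOf z with hu
    have hu0 : 0 < u := by omega
    have hQc := hQcard u hu0 h2
    have hQne : (Q u).Nonempty := by
      rw [← Finset.card_pos]
      exact lt_of_lt_of_le (by positivity) hQc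
    let j' : Fin JJ := ⟨j % JJ, Nat.mod_lt _ JJ_pos⟩
    have hle := P13_avg_le P (Q u) (Finset.filter_subset _ _) hQne w (4 * w)
      (fun W V => ∑ k : Fin (16 * 2 ^ i), ‖AA V W (z ^ (pm j' k))‖ ^ (16 * 2 ^ i))
      (fun W V => Finset.sum_nonneg (fun k _ => by positivity))
      (F j z)
      (by
        intro W V
        simp only [F]
        split_ifs
        · exact le_refl _
        · exact Finset.sum_nonneg (fun k _ => by positivity))
      (by
        rintro W V ⟨n, hn, hnQ⟩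
        simp only [F]
        rw [if_neg]
        rintro ⟨h, -⟩
        exact hnQ (h n hn))
      (by
        rintro W V ⟨g, hg, hgQ⟩
        simp only [F]
        rw [if_neg]
        rintro ⟨-, h⟩
        exact hgQ (h g hg))
    refine hle.trans ?_
    have hsum : avg (Q u) w (fun W => avg (GG (Q u)) (4 * w) (fun V =>
        ∑ k : Fin (16 * 2 ^ i), ‖AA V W (z ^ (pm j' k))‖ ^ (16 * 2 ^ i))) =
        ∑ k : Fin (16 * 2 ^ i), avg (Q u) w (fun W => avg (GG (Q u)) (4 * w) (fun V =>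
          ‖AA V W (z ^ (pm j' k))‖ ^ (16 * 2 ^ i))) := by
      rw [← avg_sum]
      congr 1
      funext W
      rw [avg_sum]
    rw [hsum]
    have hm : (0 : ℝ) < 16 * ((2 ^ i : ℕ) : ℝ) := by positivity
    calc ∑ k : Fin (16 * 2 ^ i), avg (Q u) w (fun W => avg (GG (Q u)) (4 * w) (fun V =>
          ‖AA V W (z ^ (pm j' k))‖ ^ (16 * 2 ^ i)))
        ≤ ∑ _k : Fin (16 * 2 ^ i), epsu u / (16 * ((2 ^ i : ℕ) : ℝ)) := by
          apply Finset.sum_le_sum
          intro k _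
          rw [le_div_iff₀ hm, mul_comm]
          exact P13_ml i s u hi hs1 hs2 h1.le h2 (Q u)
            (fun n hn => hPp n (Finset.mem_filter.mp hn).1)
            (fun n hn => (Finset.mem_filter.mp hn).2)
            (fun n hn => hPY n (Finset.mem_filter.mp hn).1) hQc z h4 w hw (pm j' k) (h3 j' k)
      _ = epsu u := by
          rw [Finset.sum_const, Finset.card_univ, Fintype.card_fin, nsmul_eq_mul]
          push_cast
          field_simp
  obtain ⟨Ws, Vs, hWV, hsum⟩ := exists_blocks Zs P hPne w (4 * w) JJ F hF0 (fun z => epsu (orderOf z))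
    (fun z _ => epsu_nonneg _) havg
  refine ⟨Ws, Vs, hWV, ?_⟩
  intro S hS
  have hSZ : S ⊆ Zs := by
    intro z hz
    obtain ⟨h1, h2, h3, -⟩ := hS z hz
    simp only [Zs, US, Finset.mem_biUnion, Finset.mem_filter, Finset.mem_Ioc]
    refine ⟨orderOf z, ⟨⟨h1, h2⟩, h3⟩, ?_⟩
    rw [mem_primitiveRoots (by omega)]
    exact IsPrimitiveRoot.orderOf z
  calc ∑ z ∈ S, ∏ j : Fin JJ, ∏ k : Fin (16 * 2 ^ i), ‖AA (Vs j) (Ws j) (z ^ (pm j k))‖
      ≤ ∑ z ∈ S, ∏ j ∈ range JJ, F j z (Ws j) (Vs j) := by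
        apply Finset.sum_le_sum
        intro z hz
        rw [Finset.prod_range]
        apply Finset.prod_le_prod
        · intro j _
          exact Finset.prod_nonneg (fun k _ => norm_nonneg _)
        · intro j _
          obtain ⟨-, -, -, h4⟩ := hS z hz
          obtain ⟨h5, h6⟩ := h4 j.val j.isLt
          obtain ⟨-, h7, -, h8⟩ := hWV j.val j.isLt
          simp only [F]
          rw [if_pos]
          · have hj : (⟨j.val % JJ, Nat.mod_lt _ JJ_pos⟩ : Fin JJ) = j := by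
              apply Fin.ext
              exact Nat.mod_eq_of_lt j.isLt
            rw [hj]
            exact P13_amgm (16 * 2 ^ i) (by positivity) _ (fun k => norm_nonneg _)
          · refine ⟨?_, ?_⟩
            · intro n hn
              exact Finset.mem_filter.mpr ⟨h7 n hn, h5 n hn⟩
            · intro g hg
              have h9 := h8 g hg
              rw [GG, Fintype.mem_piFinset] at h9 ⊢
              intro c
              exact Finset.mem_filter.mpr ⟨h9 c, h6 g hg c⟩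
    _ ≤ ∑ z ∈ Zs, ∏ j ∈ range JJ, F j z (Ws j) (Vs j) :=
        Finset.sum_le_sum_of_subset_of_nonneg hSZ
          (fun z _ _ => Finset.prod_nonneg (fun j _ => hF0 _ _ _ _))
    _ ≤ ∑ z ∈ Zs, epsu (orderOf z) ^ JJ := hsum
    _ = ∑ u ∈ US, ∑ z ∈ primitiveRoots u ℂ, epsu (orderOf z) ^ JJ := by
        apply Finset.sum_biUnion
        intro a _ b _ hab
        exact IsPrimitiveRoot.disjoint hab
    _ = ∑ u ∈ US, ((Nat.totient u : ℕ) : ℝ) * ((u : ℝ) ^ 4)⁻¹ := by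
        apply Finset.sum_congr rfl
        intro u hu
        simp only [US, Finset.mem_filter, Finset.mem_Ioc] at hu
        have hu0 : 0 < u := by omega
        calc ∑ z ∈ primitiveRoots u ℂ, epsu (orderOf z) ^ JJ
            = ∑ z ∈ primitiveRoots u ℂ, ((u : ℝ) ^ 4)⁻¹ := by
              apply Finset.sum_congr rfl
              intro z hz
              rw [← (isPrimitiveRoot_of_mem_primitiveRoots hz).eq_orderOf, epsu_pow u hu0]
          _ = _ := by
              rw [Finset.sum_const, Complex.card_primitiveRoots, nsmul_eq_mul]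
    _ ≤ 1 / 4 := P13_sum_inv B (2 ^ s) hB4 US (Finset.filter_subset _ _)

end Crest.Agent.E25
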