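import Crest.Agent.E25P13c

set_option autoImplicit false
set_option maxRecDepth 100000

namespace Crest.Agent.E25

open Finset

lemma P13_small (B : ℕ) (S : Finset ℂ) (hS : ∀ z ∈ S, 2 ≤ orderOf z ∧ orderOf z ≤ B) :
    (S.card : ℝ) ≤ (B : ℝ) ^ 2 := by
  classical
  have h1 : S ⊆ (Icc 1 B).biUnion (fun u => primitiveRoots u ℂ) := by
    intro z hz
    obtain ⟨h1, h2⟩ := hS z hz
    simp only [Finset.mem_biUnion, Finset.mem_Icc]
    refine ⟨orderOf z, ⟨by omega, h2⟩, ?_⟩
    rw [mem_primitiveRoots (by omega)]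
    exact IsPrimitiveRoot.orderOf z
  have h2 : S.card ≤ B ^ 2 := by
    calc S.card ≤ ((Icc 1 B).biUnion (fun u => primitiveRoots u ℂ)).card := Finset.card_le_card h1
      _ ≤ ∑ u ∈ Icc 1 B, (primitiveRoots u ℂ).card := Finset.card_biUnion_le
      _ ≤ ∑ u ∈ Icc 1 B, B := by
          apply Finset.sum_le_sum
          intro u hu
          rw [Complex.card_primitiveRoots]
          rw [Finset.mem_Icc] at hu
          exact (Nat.totient_le u).trans hu.2
      _ = B ^ 2 := by simp [sq]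
  exact_mod_cast h2

/-- the final combinatorial step: from `t` and `e` to a set of divisors -/
lemma P13_final {T : ℕ} (hT : 0 < T) (I R0 : ℕ) (p : Fin T → ℕ) (hp : ∀ l, (p l).Prime) (hp2 : ∀ l, 2 < p l)
    (hinj : Function.Injective p) (d : Fin T → ℕ)
    (hd : ∀ l l', ¬ p l ∣ d l') (hR : ∀ l, p l * d l ∣ R0) (t : ℕ) (ht : t < 2 ^ I) :
    ∃ F : Finset ℕ, F.Nonempty ∧ F.card ≤ I + T ∧ (∀ x ∈ F, x ∣ 2 ^ I * R0) ∧
      ∑ x ∈ F, (x : ℤ) = t + ∑ l, ((p l * d l : ℕ) : ℤ) := by
  classical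
  have hinj2 : Function.Injective (fun l => p l * d l) := by
    intro l l' h
    simp only at h
    have h1 : p l ∣ p l' * d l' := h ▸ Dvd.intro _ rfl
    rcases (hp l).dvd_mul.mp h1 with h2 | h2
    · exact hinj ((Nat.prime_dvd_prime_iff_eq (hp l) (hp l')).mp h2)
    · exact absurd h2 (hd l l')
  set U1 := t.bitIndices.toFinset.image (fun i => 2 ^ i) with hU1
  set U2 := (univ : Finset (Fin T)).image (fun l => p l * d l) with hU2
  have hdisj : Disjoint U1 U2 := by
    rw [Finset.disjoint_left]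
    intro x hx1 hx2
    rw [hU1, Finset.mem_image] at hx1
    rw [hU2, Finset.mem_image] at hx2
    obtain ⟨i, -, rfl⟩ := hx1
    obtain ⟨l, -, hl⟩ := hx2
    have h1 : p l ∣ 2 ^ i := hl ▸ Dvd.intro _ rfl
    have h2 := (hp l).dvd_of_dvd_pow h1
    have h3 := (Nat.prime_dvd_prime_iff_eq (hp l) Nat.prime_two).mp h2
    have h4 := hp2 l
    omega
  have hbits : ∀ i ∈ t.bitIndices.toFinset, i < I := by
    intro i hi
    have h1 := Nat.two_pow_le_of_mem_bitIndices (List.mem_toFinset.mp hi)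
    exact (Nat.pow_lt_pow_iff_right (by norm_num)).mp (lt_of_le_of_lt h1 ht)
  refine ⟨U1 ∪ U2, ?_, ?_, ?_, ?_⟩
  · refine ⟨p ⟨0, hT⟩ * d ⟨0, hT⟩, Finset.mem_union_right _ ?_⟩
    rw [hU2]
    exact Finset.mem_image_of_mem _ (mem_univ _)
  · refine (Finset.card_union_le _ _).trans ?_
    apply Nat.add_le_add
    · refine Finset.card_image_le.trans ?_
      have : t.bitIndices.toFinset ⊆ range I := fun i hi => Finset.mem_range.mpr (hbits i hi)
      simpa using Finset.card_le_card this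
    · refine Finset.card_image_le.trans ?_
      simp
  · intro x hx
    rcases Finset.mem_union.mp hx with hx | hx
    · rw [hU1, Finset.mem_image] at hx
      obtain ⟨i, hi, rfl⟩ := hx
      exact (Nat.pow_dvd_pow 2 (hbits i hi).le).trans (Dvd.intro _ rfl)
    · rw [hU2, Finset.mem_image] at hx
      obtain ⟨l, -, rfl⟩ := hx
      exact (hR l).trans (Dvd.intro_left _ rfl)
  · rw [Finset.sum_union hdisj]
    congr 1
    · have h1 : ∑ x ∈ U1, x = t := by
        rw [hU1, Finset.sum_image (fun a _ b _ h => Nat.pow_right_injective (le_refl 2) h)]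
        exact Finset.sum_toFinset_bitIndices_two_pow t
      have h2 : ((∑ x ∈ U1, x : ℕ) : ℤ) = t := by rw [h1]
      rw [← h2]
      push_cast
      rfl
    · rw [hU2, Finset.sum_image (fun a _ b _ h => hinj2 h)]

end Crest.Agent.E25
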