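import Crest.Agent.E25P13d

set_option autoImplicit false
set_option maxRecDepth 100000

namespace Crest.Agent.E25

open Finset

/-- the Fourier inequality -/
lemma P13_fourier (J M I B s v : ℕ) (hv : 0 < v) (hvs : v ≤ 2 ^ s)
    (hBI : (B : ℝ) ^ 3 / 2 ^ I ≤ 1 / 4)
    (pm : Fin J → Fin M → ℕ) (Ws : ℕ → List ℕ) (Vs : ℕ → List (Fin ZZ → ℕ))
    (hcop1 : ∀ j k, (pm j k).Coprime v)
    (hcop2 : ∀ j < J, (∀ n ∈ Ws j, n.Coprime v) ∧ ∀ g ∈ Vs j, ∀ c, (g c).Coprime v)
    (hblk : ∀ S : Finset ℂ, (∀ z ∈ S, B < orderOf z ∧ orderOf z ≤ 2 ^ s ∧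
          (∀ j k, (pm j k).Coprime (orderOf z)) ∧
          ∀ j < J, (∀ n ∈ Ws j, n.Coprime (orderOf z)) ∧ ∀ g ∈ Vs j, ∀ c, (g c).Coprime (orderOf z)) →
        ∑ z ∈ S, ∏ j : Fin J, ∏ k : Fin M, ‖AA (Vs j) (Ws j) (z ^ (pm j k))‖ ≤ 1 / 4)
    (g : ℂ → ℝ)
    (hg : ∀ z : ℂ, g z = ∏ j : Fin J, ∏ k : Fin M, ‖AA (Vs j) (Ws j) (z ^ (pm j k))‖) :
    ∑ z ∈ (Polynomial.nthRootsFinset v (1 : ℂ)).erase 1,
        ‖(∑ t ∈ range (2 ^ I), z ^ t) / 2 ^ I‖ * g z < 1 := by
  classical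
  set S := (Polynomial.nthRootsFinset v (1 : ℂ)).erase 1 with hS
  have hSz : ∀ z ∈ S, 2 ≤ orderOf z ∧ orderOf z ∣ v ∧ ‖z‖ = 1 := by
    intro z hz
    rw [hS, Finset.mem_erase, Polynomial.mem_nthRootsFinset hv] at hz
    have h1 : orderOf z ∣ v := orderOf_dvd_of_pow_eq_one hz.2
    have h2 : orderOf z ≠ 1 := fun h => hz.1 (orderOf_eq_one_iff.mp h)
    have h3 : 0 < orderOf z := Nat.pos_of_dvd_of_pos h1 hv
    exact ⟨by omega, h1, Complex.norm_eq_one_of_pow_eq_one hz.2 hv.ne'⟩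
  have hg0 : ∀ z : ℂ, 0 ≤ g z := by
    intro z
    rw [hg]
    exact Finset.prod_nonneg (fun j _ => Finset.prod_nonneg (fun k _ => norm_nonneg _))
  have hterm1 : ∀ z ∈ S, g z ≤ 1 := by
    intro z hz
    rw [hg]
    apply Finset.prod_le_one
    · intro j _
      exact Finset.prod_nonneg (fun k _ => norm_nonneg _)
    · intro j _
      apply Finset.prod_le_one
      · intro k _
        exact norm_nonneg _
      · intro k _
        apply norm_AA_le_one
        rw [norm_pow, (hSz z hz).2.2, one_pow]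
  have h2I : (0 : ℝ) < 2 ^ I := by positivity
  have hgeo1 : ∀ z ∈ S, ‖(∑ t ∈ range (2 ^ I), z ^ t) / 2 ^ I‖ ≤ 1 := by
    intro z hz
    rw [norm_div, norm_pow, Complex.norm_ofNat, div_le_one h2I]
    refine (norm_sum_le _ _).trans ?_
    calc ∑ t ∈ range (2 ^ I), ‖z ^ t‖ = ∑ t ∈ range (2 ^ I), (1 : ℝ) := by
          apply Finset.sum_congr rfl
          intro t _
          rw [norm_pow, (hSz z hz).2.2, one_pow]
      _ = 2 ^ I := by simp
      _ ≤ _ := le_refl _
  have hgeo2 : ∀ z ∈ S, ‖(∑ t ∈ range (2 ^ I), z ^ t) / 2 ^ I‖ ≤ (orderOf z : ℝ) / 2 ^ I := by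
    intro z hz
    rw [norm_div, norm_pow, Complex.norm_ofNat]
    apply div_le_div_of_nonneg_right _ h2I.le
    exact geom_bound (orderOf z) z (IsPrimitiveRoot.orderOf z) (hSz z hz).1 (2 ^ I)
  rw [← Finset.sum_filter_add_sum_filter_not S (fun z => orderOf z ≤ B)]
  have hA : ∑ z ∈ S.filter (fun z => orderOf z ≤ B), ‖(∑ t ∈ range (2 ^ I), z ^ t) / 2 ^ I‖ *
      g z ≤ 1 / 4 := by
    have h1 : ∀ z ∈ S.filter (fun z => orderOf z ≤ B), ‖(∑ t ∈ range (2 ^ I), z ^ t) / 2 ^ I‖ *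
      g z ≤ (B : ℝ) / 2 ^ I := by
      intro z hz
      rw [Finset.mem_filter] at hz
      calc _ ≤ ((orderOf z : ℝ) / 2 ^ I) * 1 := by
            apply mul_le_mul (hgeo2 z hz.1) (hterm1 z hz.1) (hg0 z)
            positivity
        _ ≤ (B : ℝ) / 2 ^ I := by
            rw [mul_one]
            apply div_le_div_of_nonneg_right _ h2I.le
            exact_mod_cast hz.2
    refine (Finset.sum_le_sum h1).trans ?_
    rw [Finset.sum_const, nsmul_eq_mul]
    have h2 := P13_small B (S.filter (fun z => orderOf z ≤ B)) (fun z hz => by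
      rw [Finset.mem_filter] at hz
      exact ⟨(hSz z hz.1).1, hz.2⟩)
    calc _ ≤ (B : ℝ) ^ 2 * ((B : ℝ) / 2 ^ I) := by gcongr
      _ = (B : ℝ) ^ 3 / 2 ^ I := by ring
      _ ≤ 1 / 4 := hBI
  have hC : ∑ z ∈ S.filter (fun z => ¬ orderOf z ≤ B), ‖(∑ t ∈ range (2 ^ I), z ^ t) / 2 ^ I‖ *
      g z ≤ 1 / 4 := by
    have h1 := hblk (S.filter (fun z => ¬ orderOf z ≤ B)) (by
      intro z hz
      rw [Finset.mem_filter, not_le] at hz
      obtain ⟨h2, h3, h4⟩ := hSz z hz.1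
      refine ⟨hz.2, (Nat.le_of_dvd hv h3).trans hvs, fun j k =>
        Nat.Coprime.coprime_dvd_right h3 (hcop1 j k), ?_⟩
      intro j hj
      obtain ⟨h5, h6⟩ := hcop2 j hj
      exact ⟨fun n hn => Nat.Coprime.coprime_dvd_right h3 (h5 n hn),
        fun g hg c => Nat.Coprime.coprime_dvd_right h3 (h6 g hg c)⟩)
    refine le_trans ?_ h1
    apply Finset.sum_le_sum
    intro z hz
    rw [Finset.mem_filter] at hz
    rw [← hg z]
    calc _ ≤ 1 * g z := by
          apply mul_le_mul_of_nonneg_right (hgeo1 z hz.1) (hg0 z)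
      _ = _ := one_mul _
  linarith

lemma P13_gen (J M I B s w Y c0 : ℕ) (hJ : 0 < J) (hM : 0 < M)
    (hBI : (B : ℝ) ^ 3 / 2 ^ I ≤ 1 / 4) (P0 : Finset ℕ) (hPp : ∀ n ∈ P0, n.Prime)
    (hPY : ∀ n ∈ P0, n ≤ Y) (hP2 : ∀ n ∈ P0, 2 < n) (hPc : c0 + J * M ≤ P0.card)
    (hblocks : ∀ P : Finset ℕ, P ⊆ P0 → c0 ≤ P.card → ∀ pm : Fin J → Fin M → ℕ,
      ∃ (Ws : ℕ → List ℕ) (Vs : ℕ → List (Fin ZZ → ℕ)),
      (∀ j < J, (Ws j).length = w ∧ (∀ n ∈ Ws j, n ∈ P) ∧ (Vs j).length = 4 * w ∧ ∀ g ∈ Vs j, g ∈ GG P) ∧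
      ∀ S : Finset ℂ, (∀ z ∈ S, B < orderOf z ∧ orderOf z ≤ 2 ^ s ∧
          (∀ j k, (pm j k).Coprime (orderOf z)) ∧
          ∀ j < J, (∀ n ∈ Ws j, n.Coprime (orderOf z)) ∧ ∀ g ∈ Vs j, ∀ c, (g c).Coprime (orderOf z)) →
        ∑ z ∈ S, ∏ j : Fin J, ∏ k : Fin M, ‖AA (Vs j) (Ws j) (z ^ (pm j k))‖ ≤ 1 / 4) :
    ∃ R0 : ℕ, PF P0 R0 ∧ R0 ≤ Y ^ (J * M + J * (ZZ * (4 * w) + w)) ∧
      ∀ v, 0 < v → v ≤ 2 ^ s → Nat.Coprime v R0 → ∀ r : ℤ, ∃ F : Finset ℕ, F.Nonempty ∧
        F.card ≤ I + J * M ∧ (∀ d ∈ F, d ∣ 2 ^ I * R0) ∧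
        (v : ℤ) ∣ (∑ d ∈ F, (d : ℤ)) - r := by
  classical
  -- markers
  have hcard : Fintype.card (Fin J × Fin M) ≤ Fintype.card P0 := by
    rw [Fintype.card_prod, Fintype.card_fin, Fintype.card_fin, Fintype.card_coe]
    omega
  obtain ⟨e⟩ := Function.Embedding.nonempty_of_card_le hcard
  set pm : Fin J → Fin M → ℕ := fun j k => (e (j, k)).1 with hpm
  have hpmP : ∀ j k, pm j k ∈ P0 := fun j k => (e (j, k)).2
  set Mk : Finset ℕ := (univ : Finset (Fin J × Fin M)).image (fun x => (e x).1) with hMk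
  have hMkcard : Mk.card ≤ J * M := by
    refine Finset.card_image_le.trans ?_
    rw [Finset.card_univ, Fintype.card_prod, Fintype.card_fin, Fintype.card_fin]
  have hMkP : Mk ⊆ P0 := by
    intro x hx
    rw [hMk, Finset.mem_image] at hx
    obtain ⟨y, -, rfl⟩ := hx
    exact (e y).2
  set P : Finset ℕ := P0 \ Mk with hP
  have hPcard : c0 ≤ P.card := by
    have := Finset.card_sdiff_of_subset hMkP
    rw [← hP] at this
    omega
  have hPP0 : P ⊆ P0 := Finset.sdiff_subset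
  obtain ⟨Ws, Vs, hWV, hblk⟩ := hblocks P hPP0 hPcard pm
  set Bl : ℕ → ℕ := fun j => blk (Vs j) (Ws j) with hBl
  have hBlPF : ∀ j < J, PF P (Bl j) := fun j hj =>
    blk_PF P (fun n hn => hPp n (hPP0 hn)) _ _ (hWV j hj).2.1 (hWV j hj).2.2.2
  set R0 : ℕ := (∏ x : Fin J × Fin M, (e x).1) * ∏ j ∈ range J, Bl j with hR0
  have hpmdvd : ∀ j k, pm j k ∣ R0 := by
    intro j k
    refine Dvd.dvd.mul_right ?_ _
    exact Finset.dvd_prod_of_mem (fun x => (e x).1) (Finset.mem_univ (j, k))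
  have hBldvd : ∀ j < J, Bl j ∣ R0 := by
    intro j hj
    refine Dvd.dvd.mul_left ?_ _
    exact Finset.dvd_prod_of_mem Bl (Finset.mem_range.mpr hj)
  have hpmBl : ∀ j k, ∀ j' < J, pm j k * Bl j' ∣ R0 := by
    intro j k j' hj'
    apply Nat.mul_dvd_mul
    · exact Finset.dvd_prod_of_mem (fun x => (e x).1) (Finset.mem_univ (j, k))
    · exact Finset.dvd_prod_of_mem Bl (Finset.mem_range.mpr hj')
  refine ⟨R0, ?_, ?_, ?_⟩
  · apply PF_mul
    · apply PF_prod
      intro x _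
      exact PF_prime _ _ (hPp _ (e x).2) (e x).2
    · apply PF_prod
      intro j hj
      have h := hBlPF j (Finset.mem_range.mp hj)
      exact fun p hp hd => hPP0 (h p hp hd)
  · rw [hR0, pow_add]
    apply Nat.mul_le_mul
    · calc ∏ x : Fin J × Fin M, (e x).1
          ≤ ∏ _x : Fin J × Fin M, Y :=
            Finset.prod_le_prod' (fun x _ => (hPY _ (e x).2))
        _ = _ := by rw [Finset.prod_const, Finset.card_univ, Fintype.card_prod, Fintype.card_fin,
                      Fintype.card_fin]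
    · calc ∏ j ∈ range J, Bl j
          ≤ ∏ _j ∈ range J, Y ^ (ZZ * (4 * w) + w) := by
            apply Finset.prod_le_prod'
            intro j hj
            obtain ⟨h1, h2, h3, h4⟩ := hWV j (Finset.mem_range.mp hj)
            have h5 := blk_le Y (Vs j) (Ws j)
              (fun n hn => (hPY n (hPP0 (h2 n hn))))
              (fun g hg c => by
                have h6 := h4 g hg
                rw [GG, Fintype.mem_piFinset] at h6
                exact (hPY _ (hPP0 (h6 c))))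
            rw [h1, h3] at h5
            exact h5
        _ = _ := by rw [Finset.prod_const, Finset.card_range, ← pow_mul, Nat.mul_comm J]
  · intro v hv hvs hcop r
    have hL := fun j : ℕ => AA_expand (Vs j) (Ws j)
    choose L hLne hLd hLA using hL
    -- index equivalence
    let eq := (finProdFinEquiv : Fin J × Fin M ≃ Fin (J * M))
    let pl : Fin (J * M) → ℕ := fun l => pm (eq.symm l).1 (eq.symm l).2
    let LL : Fin (J * M) → List ℕ := fun l =>
      (L (eq.symm l).1.val).map (fun d => pl l * d)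
    have hLLne : ∀ l, LL l ≠ [] := by
      intro l h
      exact hLne _ (List.map_eq_nil_iff.mp h)
    have hAAeq : ∀ (z : ℂ) (l : Fin (J * M)),
        ((LL l).map (fun d => z ^ d)).sum / (LL l).length =
          AA (Vs (eq.symm l).1.val) (Ws (eq.symm l).1.val) (z ^ (pl l)) := by
      intro z l
      rw [hLA]
      simp only [LL, List.map_map, List.length_map]
      congr 3
      funext d
      simp [pow_mul]
    have hprod : ∀ z : ℂ, ∏ l, ‖((LL l).map (fun d => z ^ d)).sum / (LL l).length‖ =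
        ∏ j : Fin J, ∏ k : Fin M, ‖AA (Vs j) (Ws j) (z ^ (pm j k))‖ := by
      intro z
      rw [← Fintype.prod_prod_type' (f := fun (j : Fin J) (k : Fin M) =>
        ‖AA (Vs j) (Ws j) (z ^ (pm j k))‖)]
      symm
      apply Fintype.prod_equiv eq
      rintro ⟨j, k⟩
      rw [hAAeq]
      simp only [pl, Equiv.symm_apply_apply]
    have hcop' : ∀ n, n ∣ R0 → n.Coprime v := fun n hn =>
      Nat.Coprime.coprime_dvd_left hn hcop.symm
    have hfour := P13_fourier J M I B s v hv hvs hBI pm Ws Vs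
      (fun j k => hcop' _ (hpmdvd j k))
      (fun j hj => ⟨fun n hn => hcop' _ ((blk_mem_dvd_W _ _ n hn).trans (hBldvd j hj)),
        fun g hg c => hcop' _ ((blk_mem_dvd_V _ _ g hg c).trans (hBldvd j hj))⟩)
      hblk (fun z => ∏ l, ‖((LL l).map (fun d => z ^ d)).sum / (LL l).length‖) hprod
    obtain ⟨t, ht, e', he', hdvd⟩ := fourier_pos v I (J * M) hv LL hLLne hfour r
    have hed : ∀ l, ∃ d ∈ L (eq.symm l).1.val, pl l * d = e' l := by
      intro l
      have := he' l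
      simp only [LL, List.mem_map] at this
      exact this
    choose d hdL hde using hed
    have hTpos : 0 < J * M := Nat.mul_pos hJ hM
    have hplMk : ∀ l, pl l ∈ Mk := by
      intro l
      rw [hMk, Finset.mem_image]
      exact ⟨eq.symm l, mem_univ _, rfl⟩
    have hplP0 : ∀ l, pl l ∈ P0 := fun l => hMkP (hplMk l)
    obtain ⟨F, hF1, hF2, hF3, hF4⟩ := P13_final hTpos I R0 pl (fun l => hPp _ (hplP0 l))
      (fun l => hP2 _ (hplP0 l))
      (by
        intro l l' h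
        have h1 : (e (eq.symm l)).1 = (e (eq.symm l')).1 := h
        have h2 := e.injective (Subtype.ext h1)
        exact eq.symm.injective h2)
      d
      (by
        intro l l' h
        have h1 := (h.trans (hLd _ _ (hdL l')))
        have h2 := hBlPF (eq.symm l').1.val (eq.symm l').1.isLt (pl l) (hPp _ (hplP0 l)) h1
        rw [hP, Finset.mem_sdiff] at h2
        exact h2.2 (hplMk l))
      (by
        intro l
        exact (Nat.mul_dvd_mul_left _ (hLd _ _ (hdL l))).trans (hpmBl _ _ _ (eq.symm l).1.isLt))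
      t ht
    refine ⟨F, hF1, hF2, hF3, ?_⟩
    rw [hF4]
    convert hdvd using 3
    apply Finset.sum_congr rfl
    intro l _
    rw [hde]

end Crest.Agent.E25
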