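import Crest.Agent.E25Defs

set_option autoImplicit false
set_option maxRecDepth 100000

namespace Crest.Agent.E25

open Finset

lemma P14_GG_nonempty (P : Finset ℕ) (hP : P.Nonempty) : (GG P).Nonempty := by
  obtain ⟨n, hn⟩ := hP
  refine ⟨fun _ => n, ?_⟩
  unfold GG
  rw [Fintype.mem_piFinset]
  intro _
  exact hn

lemma P14_weighted {ι : Type*} (Zs : Finset ι) (P : Finset ℕ) (hP : P.Nonempty) (κ t : ℕ)
    (F : ℕ → ι → List ℕ → List (Fin ZZ → ℕ) → ℝ) (hF : ∀ j z W V, 0 ≤ F j z W V) (ε : ι → ℝ)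
    (hε : ∀ z ∈ Zs, 0 ≤ ε z) (J : ℕ) :
    ∀ (_ : ∀ j < J, ∀ z ∈ Zs, avg P κ (fun W => avg (GG P) t (fun V => F j z W V)) ≤ ε z)
      (c : ι → ℝ) (_ : ∀ z ∈ Zs, 0 ≤ c z),
    ∃ (Ws : ℕ → List ℕ) (Vs : ℕ → List (Fin ZZ → ℕ)),
      (∀ j < J, (Ws j).length = κ ∧ (∀ n ∈ Ws j, n ∈ P) ∧ (Vs j).length = t ∧ ∀ g ∈ Vs j, g ∈ GG P) ∧
      ∑ z ∈ Zs, c z * ∏ j ∈ range J, F j z (Ws j) (Vs j) ≤ ∑ z ∈ Zs, c z * ε z ^ J := by
  induction J with
  | zero =>
    intro _ c _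
    refine ⟨fun _ => [], fun _ => [], ?_, ?_⟩
    · intro j hj
      exact absurd hj (Nat.not_lt_zero _)
    · simp
  | succ J ih =>
    intro h c hc
    -- choose block J
    have hav : avg P κ (fun W => avg (GG P) t (fun V => ∑ z ∈ Zs, (c z * ε z ^ J) * F J z W V)) ≤
        ∑ z ∈ Zs, c z * ε z ^ (J + 1) := by
      have e1 : (fun W => avg (GG P) t (fun V => ∑ z ∈ Zs, (c z * ε z ^ J) * F J z W V)) =
          fun W => ∑ z ∈ Zs, (c z * ε z ^ J) * avg (GG P) t (fun V => F J z W V) := by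
        funext W
        rw [avg_sum]
        apply Finset.sum_congr rfl
        intro z _
        rw [avg_mul_left]
      rw [e1, avg_sum]
      apply Finset.sum_le_sum
      intro z hz
      rw [avg_mul_left, pow_succ, ← mul_assoc]
      exact mul_le_mul_of_nonneg_left (h J (Nat.lt_succ_self _) z hz)
        (mul_nonneg (hc z hz) (pow_nonneg (hε z hz) _))
    obtain ⟨W, hW1, hW2, hW3⟩ := exists_le_avg P hP κ
      (fun W => avg (GG P) t (fun V => ∑ z ∈ Zs, (c z * ε z ^ J) * F J z W V))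
    obtain ⟨V, hV1, hV2, hV3⟩ := exists_le_avg (GG P) (P14_GG_nonempty P hP) t
      (fun V => ∑ z ∈ Zs, (c z * ε z ^ J) * F J z W V)
    obtain ⟨Ws, Vs, h1, h2⟩ := ih (fun j hj => h j (Nat.lt_succ_of_lt hj))
      (fun z => c z * F J z W V) (fun z hz => mul_nonneg (hc z hz) (hF _ _ _ _))
    refine ⟨fun j => if j < J then Ws j else W, fun j => if j < J then Vs j else V, ?_, ?_⟩
    · intro j hj
      by_cases hjJ : j < J
      · simp only [if_pos hjJ]
        exact h1 j hjJ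
      · simp only [if_neg hjJ]
        exact ⟨hW1, hW2, hV1, hV2⟩
    · have e2 : ∀ z ∈ Zs, c z * ∏ j ∈ range (J + 1), F j z (if j < J then Ws j else W)
          (if j < J then Vs j else V) =
          (c z * F J z W V) * ∏ j ∈ range J, F j z (Ws j) (Vs j) := by
        intro z _
        rw [Finset.prod_range_succ, if_neg (lt_irrefl _), if_neg (lt_irrefl _)]
        have e3 : ∏ j ∈ range J, F j z (if j < J then Ws j else W) (if j < J then Vs j else V) =
            ∏ j ∈ range J, F j z (Ws j) (Vs j) := by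
          apply Finset.prod_congr rfl
          intro j hj
          rw [Finset.mem_range] at hj
          rw [if_pos hj, if_pos hj]
        rw [e3]
        ring
      rw [Finset.sum_congr rfl e2]
      refine h2.trans ?_
      have e4 : ∑ z ∈ Zs, (c z * F J z W V) * ε z ^ J = ∑ z ∈ Zs, (c z * ε z ^ J) * F J z W V := by
        apply Finset.sum_congr rfl
        intro z _
        ring
      rw [e4]
      exact hV3.trans (hW3.trans hav)

theorem exists_blocks {ι : Type*} (Zs : Finset ι) (P : Finset ℕ) (hP : P.Nonempty) (κ t J : ℕ)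
    (F : ℕ → ι → List ℕ → List (Fin ZZ → ℕ) → ℝ) (hF : ∀ j z W V, 0 ≤ F j z W V) (ε : ι → ℝ)
    (hε : ∀ z ∈ Zs, 0 ≤ ε z)
    (h : ∀ j < J, ∀ z ∈ Zs, avg P κ (fun W => avg (GG P) t (fun V => F j z W V)) ≤ ε z) :
    ∃ (Ws : ℕ → List ℕ) (Vs : ℕ → List (Fin ZZ → ℕ)),
      (∀ j < J, (Ws j).length = κ ∧ (∀ n ∈ Ws j, n ∈ P) ∧ (Vs j).length = t ∧ ∀ g ∈ Vs j, g ∈ GG P) ∧
      ∑ z ∈ Zs, ∏ j ∈ range J, F j z (Ws j) (Vs j) ≤ ∑ z ∈ Zs, ε z ^ J := by
  obtain ⟨Ws, Vs, h1, h2⟩ := P14_weighted Zs P hP κ t F hF ε hε J h (fun _ => 1)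
    (fun _ _ => zero_le_one)
  refine ⟨Ws, Vs, h1, ?_⟩
  simpa using h2

end Crest.Agent.E25
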