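import Crest.Agent.E25Defs

set_option autoImplicit false
set_option maxRecDepth 100000

namespace Crest.Agent.E25

open Finset

lemma P2_avg_split {α E : Type*} [NormedAddCommGroup E] [NormedSpace ℝ E] (S : Finset α)
    (k l : ℕ) (F : List α → E) :
    avg S (k + l) F = avg S l (fun W' => avg S k (fun W => F (W' ++ W))) := by
  induction l generalizing F with
  | zero => rfl
  | succ l ih =>
    rw [← add_assoc, avg_succ', avg_succ']
    congr 1
    apply Finset.sum_congr rfl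
    intro a _
    rw [ih]
    rfl

lemma P2_avg_smul_const {α E : Type*} [NormedAddCommGroup E] [NormedSpace ℝ E] (S : Finset α)
    (k : ℕ) (c : List α → ℝ) (x : E) :
    avg S k (fun W => c W • x) = (avg S k c) • x := by
  induction k generalizing c with
  | zero => rfl
  | succ k ih =>
    rw [avg_succ, avg_succ, ← ih]
    congr 1
    funext W
    rw [← Finset.sum_smul, smul_smul, smul_eq_mul]

/-- the density of the product of `k` independent elements of `Q` -/
noncomputable def P2p (Q : Finset ℕ) (k v : ℕ) : ℝ :=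
  avg Q k (fun W => if W.prod = v then (1 : ℝ) else 0)

lemma P2_p_nonneg (Q : Finset ℕ) (k v : ℕ) : 0 ≤ P2p Q k v := by
  unfold P2p
  apply avg_nonneg
  intro W _ _
  split_ifs <;> norm_num

lemma P2_p_bound (Q : Finset ℕ) (hQp : ∀ n ∈ Q, n.Prime) (k v : ℕ) :
    P2p Q k v ≤ (k.factorial : ℝ) / (Q.card : ℝ) ^ k := by
  induction k generalizing v with
  | zero =>
    simp only [P2p, avg_zero, Nat.factorial_zero, Nat.cast_one, pow_zero, div_one]
    split_ifs <;> norm_num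
  | succ k ih =>
    by_cases hex : ∃ W : List ℕ, W.length = k + 1 ∧ (∀ a ∈ W, a ∈ Q) ∧ W.prod = v
    · obtain ⟨W₀, hW0, hWQ, hWv⟩ := hex
      unfold P2p
      rw [avg_succ', smul_eq_mul]
      have h1 : ∀ a ∈ Q, avg Q k (fun W => if (a :: W).prod = v then (1 : ℝ) else 0) ≤
          if a ∣ v then (k.factorial : ℝ) / (Q.card : ℝ) ^ k else 0 := by
        intro a ha
        have hapos : 0 < a := (hQp a ha).pos
        split_ifs with hav
        · obtain ⟨v', rfl⟩ := hav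
          have h2 : avg Q k (fun W => if (a :: W).prod = a * v' then (1 : ℝ) else 0) =
              P2p Q k v' := by
            unfold P2p
            congr 1
            funext W
            simp only [List.prod_cons, mul_eq_mul_left_iff, hapos.ne', or_false]
          rw [h2]
          exact ih v'
        · have h2 : avg Q k (fun W => if (a :: W).prod = v then (1 : ℝ) else 0) =
              avg Q k (fun _ => (0 : ℝ)) := by
            congr 1
            funext W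
            rw [if_neg]
            intro h
            exact hav ⟨W.prod, by rw [← h, List.prod_cons]⟩
          rw [h2, avg_zero_fun]
      have h3 : (Q.filter (fun a => a ∣ v)).card ≤ k + 1 := by
        have hsub : Q.filter (fun a => a ∣ v) ⊆ W₀.toFinset := by
          intro a ha
          rw [Finset.mem_filter] at ha
          obtain ⟨haQ, hav⟩ := ha
          rw [← hWv] at hav
          obtain ⟨b, hb, hab⟩ := ((hQp a haQ).prime.dvd_prod_iff).mp hav
          have hbp := hQp b (hWQ b hb)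
          have : a = b := (Nat.prime_dvd_prime_iff_eq (hQp a haQ) hbp).mp hab
          rw [List.mem_toFinset, this]
          exact hb
        calc (Q.filter (fun a => a ∣ v)).card ≤ W₀.toFinset.card := Finset.card_le_card hsub
          _ ≤ W₀.length := List.toFinset_card_le _
          _ = k + 1 := hW0
      have h4 : ∑ a ∈ Q, avg Q k (fun W => if (a :: W).prod = v then (1 : ℝ) else 0) ≤
          (k + 1 : ℝ) * ((k.factorial : ℝ) / (Q.card : ℝ) ^ k) := by
        refine (Finset.sum_le_sum h1).trans ?_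
        rw [← Finset.sum_filter, Finset.sum_const, nsmul_eq_mul]
        apply mul_le_mul_of_nonneg_right _ (by positivity)
        exact_mod_cast h3
      calc (Q.card : ℝ)⁻¹ * ∑ a ∈ Q, avg Q k (fun W => if (a :: W).prod = v then (1 : ℝ) else 0)
          ≤ (Q.card : ℝ)⁻¹ * ((k + 1 : ℝ) * ((k.factorial : ℝ) / (Q.card : ℝ) ^ k)) :=
            mul_le_mul_of_nonneg_left h4 (by positivity)
        _ = ((k + 1).factorial : ℝ) / (Q.card : ℝ) ^ (k + 1) := by
            rw [Nat.factorial_succ, pow_succ]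
            push_cast
            rw [div_eq_mul_inv, div_eq_mul_inv, mul_inv]
            ring
    · have h2 : P2p Q (k + 1) v = 0 := by
        unfold P2p
        rw [avg_congr Q (k + 1) _ (fun _ => (0 : ℝ)), avg_zero_fun]
        intro W hW hWQ
        rw [if_neg]
        intro h
        exact hex ⟨W, hW, hWQ, h⟩
      rw [h2]
      positivity

lemma P2_avg_eq_sum (Q : Finset ℕ) (k u : ℕ)
    (hlt : ∀ W : List ℕ, W.length = k → (∀ a ∈ W, a ∈ Q) → W.prod < u) (f : ℕ → ℂ) :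
    avg Q k (fun W => f W.prod) = ∑ v ∈ range u, (P2p Q k v : ℂ) * f v := by
  have h1 : avg Q k (fun W => f W.prod) =
      avg Q k (fun W => ∑ v ∈ range u, (if W.prod = v then (1 : ℝ) else 0) • f v) := by
    apply avg_congr
    intro W hW hWQ
    rw [Finset.sum_eq_single W.prod]
    · simp
    · intro b _ hb
      rw [if_neg (fun h => hb h.symm)]
      simp
    · intro h
      exact absurd (Finset.mem_range.mpr (hlt W hW hWQ)) h
  rw [h1, avg_sum]
  apply Finset.sum_congr rfl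
  intro v _
  rw [P2_avg_smul_const]
  unfold P2p
  rw [Complex.real_smul]

lemma P2_sum_p (Q : Finset ℕ) (hQ : Q.Nonempty) (k u : ℕ)
    (hlt : ∀ W : List ℕ, W.length = k → (∀ a ∈ W, a ∈ Q) → W.prod < u) :
    ∑ v ∈ range u, P2p Q k v = 1 := by
  have h := P2_avg_eq_sum Q k u hlt (fun _ => 1)
  rw [avg_const Q hQ] at h
  simp only [mul_one] at h
  exact_mod_cast h.symm

lemma P2_geom (u : ℕ) (hu : 0 < u) (z : ℂ) (hz : IsPrimitiveRoot z u) (y y' : ℕ)
    (hy : y < u) (hy' : y' < u) :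
    ∑ x ∈ range u, (z ^ (x * y) * (starRingEnd ℂ) (z ^ (x * y'))) = if y = y' then (u : ℂ) else 0 := by
  have hnorm : ‖z‖ = 1 := hz.norm'_eq_one hu.ne'
  have hconj : (starRingEnd ℂ) z = z⁻¹ := by
    rw [Complex.inv_def]
    simp [Complex.normSq_eq_norm_sq, hnorm]
  have hz0 : z ≠ 0 := hz.ne_zero hu.ne'
  have h1 : ∀ x ∈ range u, (z ^ (x * y) * (starRingEnd ℂ) (z ^ (x * y'))) =
      (z ^ y * (z⁻¹) ^ y') ^ x := by
    intro x _
    rw [map_pow, hconj, mul_pow, ← pow_mul, ← pow_mul, mul_comm x y, mul_comm x y']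
  rw [Finset.sum_congr rfl h1]
  split_ifs with h
  · subst h
    have : z ^ y * z⁻¹ ^ y = 1 := by
      rw [← mul_pow, mul_inv_cancel₀ hz0, one_pow]
    rw [this]
    simp
  · have hne : z ^ y * z⁻¹ ^ y' ≠ 1 := by
      intro h1
      apply h
      apply hz.pow_inj hy hy'
      have h2 : z ^ y * z⁻¹ ^ y' * z ^ y' = z ^ y' := by rw [h1, one_mul]
      rw [mul_assoc, ← mul_pow, inv_mul_cancel₀ hz0, one_pow, mul_one] at h2
      exact h2
    rw [geom_sum_eq hne]
    have : (z ^ y * z⁻¹ ^ y') ^ u = 1 := by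
      rw [mul_pow, ← pow_mul, ← pow_mul, mul_comm y u, mul_comm y' u, pow_mul, pow_mul,
        inv_pow, hz.pow_eq_one]
      simp
    rw [this]
    simp

lemma P2_parseval (u : ℕ) (hu : 0 < u) (z : ℂ) (hz : IsPrimitiveRoot z u) (p : ℕ → ℝ) :
    ∑ x ∈ range u, ‖∑ y ∈ range u, (p y : ℂ) * z ^ (x * y)‖ ^ 2 =
      u * ∑ y ∈ range u, p y ^ 2 := by
  have h1 : ∀ x ∈ range u, ((‖∑ y ∈ range u, (p y : ℂ) * z ^ (x * y)‖ ^ 2 : ℝ) : ℂ) =
      ∑ y ∈ range u, ∑ y' ∈ range u, (p y : ℂ) * (p y' : ℂ) *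
        (z ^ (x * y) * (starRingEnd ℂ) (z ^ (x * y'))) := by
    intro x _
    have : ((‖∑ y ∈ range u, (p y : ℂ) * z ^ (x * y)‖ ^ 2 : ℝ) : ℂ) =
        (∑ y ∈ range u, (p y : ℂ) * z ^ (x * y)) *
          (starRingEnd ℂ) (∑ y ∈ range u, (p y : ℂ) * z ^ (x * y)) := by
      rw [Complex.mul_conj, Complex.normSq_eq_norm_sq]
    rw [this, map_sum, Finset.sum_mul_sum]
    apply Finset.sum_congr rfl
    intro y _
    apply Finset.sum_congr rfl
    intro y' _
    rw [map_mul, Complex.conj_ofReal]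
    ring
  have h2 : ((∑ x ∈ range u, ‖∑ y ∈ range u, (p y : ℂ) * z ^ (x * y)‖ ^ 2 : ℝ) : ℂ) =
      ((u * ∑ y ∈ range u, p y ^ 2 : ℝ) : ℂ) := by
    rw [Complex.ofReal_sum, Finset.sum_congr rfl h1, Finset.sum_comm]
    rw [Complex.ofReal_mul, Complex.ofReal_sum, Finset.mul_sum]
    apply Finset.sum_congr rfl
    intro y hy
    rw [Finset.sum_comm]
    have h3 : ∀ y' ∈ range u, ∑ x ∈ range u, (p y : ℂ) * (p y' : ℂ) *
        (z ^ (x * y) * (starRingEnd ℂ) (z ^ (x * y'))) =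
        if y = y' then (p y : ℂ) * (p y' : ℂ) * u else 0 := by
      intro y' hy'
      rw [← Finset.mul_sum, P2_geom u hu z hz y y' (Finset.mem_range.mp hy)
        (Finset.mem_range.mp hy')]
      split_ifs <;> simp
    rw [Finset.sum_congr rfl h3, Finset.sum_ite_eq, if_pos hy]
    push_cast
    ring
  exact_mod_cast h2

lemma P2_bilinear (Q : Finset ℕ) (hQ : Q.Nonempty) (hQp : ∀ n ∈ Q, n.Prime) (k u : ℕ) (hu : 0 < u)
    (hlt : ∀ W : List ℕ, W.length = k → (∀ a ∈ W, a ∈ Q) → W.prod < u)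
    (z : ℂ) (hz : IsPrimitiveRoot z u) :
    ‖avg Q (k + k) (fun W => z ^ W.prod)‖ ^ 2 ≤
      u * ((k.factorial : ℝ) / (Q.card : ℝ) ^ k) ^ 2 := by
  set M : ℝ := (k.factorial : ℝ) / (Q.card : ℝ) ^ k with hM
  have hM0 : 0 ≤ M := by positivity
  have h1 : avg Q (k + k) (fun W => z ^ W.prod) =
      ∑ x ∈ range u, (P2p Q k x : ℂ) * (∑ y ∈ range u, (P2p Q k y : ℂ) * z ^ (x * y)) := by
    rw [P2_avg_split]
    rw [← P2_avg_eq_sum Q k u hlt (fun x => ∑ y ∈ range u, (P2p Q k y : ℂ) * z ^ (x * y))]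
    congr 1
    funext W'
    rw [← P2_avg_eq_sum Q k u hlt (fun y => z ^ (W'.prod * y))]
    simp only [List.prod_append]
  have hsum := P2_sum_p Q hQ k u hlt
  have hsq : ∑ x ∈ range u, (P2p Q k x) ^ 2 ≤ M := by
    calc ∑ x ∈ range u, (P2p Q k x) ^ 2 ≤ ∑ x ∈ range u, M * P2p Q k x := by
          apply Finset.sum_le_sum
          intro x _
          rw [sq]
          exact mul_le_mul_of_nonneg_right (P2_p_bound Q hQp k x) (P2_p_nonneg Q k x)
      _ = M := by rw [← Finset.mul_sum, hsum, mul_one]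
  have hsq0 : 0 ≤ ∑ x ∈ range u, (P2p Q k x) ^ 2 := Finset.sum_nonneg (fun x _ => sq_nonneg _)
  rw [h1]
  calc ‖∑ x ∈ range u, (P2p Q k x : ℂ) * (∑ y ∈ range u, (P2p Q k y : ℂ) * z ^ (x * y))‖ ^ 2
      ≤ (∑ x ∈ range u, P2p Q k x * ‖∑ y ∈ range u, (P2p Q k y : ℂ) * z ^ (x * y)‖) ^ 2 := by
        apply pow_le_pow_left₀ (norm_nonneg _)
        refine (norm_sum_le _ _).trans (le_of_eq ?_)
        apply Finset.sum_congr rfl
        intro x _
        rw [norm_mul, Complex.norm_real, Real.norm_of_nonneg (P2_p_nonneg Q k x)]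
    _ ≤ (∑ x ∈ range u, (P2p Q k x) ^ 2) *
          (∑ x ∈ range u, ‖∑ y ∈ range u, (P2p Q k y : ℂ) * z ^ (x * y)‖ ^ 2) :=
        Finset.sum_mul_sq_le_sq_mul_sq _ _ _
    _ = (∑ x ∈ range u, (P2p Q k x) ^ 2) * (u * ∑ x ∈ range u, (P2p Q k x) ^ 2) := by
        rw [P2_parseval u hu z hz]
    _ ≤ M * (u * M) := by
        apply mul_le_mul hsq _ (by positivity) hM0
        exact mul_le_mul_of_nonneg_left hsq (by positivity)
    _ = u * M ^ 2 := by ring

lemma P2_prod_lt (Y : ℕ) (Q : Finset ℕ) (hQY : ∀ n ∈ Q, n < Y) (k : ℕ) :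
    ∀ W : List ℕ, W.length = k + 1 → (∀ a ∈ W, a ∈ Q) → W.prod < Y ^ (k + 1) := by
  induction k with
  | zero =>
    intro W hW hWQ
    obtain ⟨a, rfl⟩ := List.length_eq_one_iff.mp hW
    simpa using hQY a (hWQ a (by simp))
  | succ k ih =>
    intro W hW hWQ
    match W, hW with
    | (a :: W), hW =>
      have h1 := ih W (by simpa using hW) (fun b hb => hWQ b (by simp [hb]))
      have h2 := hQY a (hWQ a (by simp))
      rw [List.prod_cons, pow_succ, mul_comm (Y ^ (k + 1))]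
      exact Nat.mul_lt_mul'' h2 h1

lemma P2_coprime_prod (Q : Finset ℕ) (u : ℕ) (hQu : ∀ n ∈ Q, n.Coprime u) (W : List ℕ)
    (hW : ∀ a ∈ W, a ∈ Q) : W.prod.Coprime u := by
  induction W with
  | nil => simp
  | cons a W ih =>
    rw [List.prod_cons]
    exact Nat.Coprime.mul_left (hQu a (hW a (by simp))) (ih (fun b hb => hW b (by simp [hb])))

theorem psi_bound (Y w u r : ℕ) (Q : Finset ℕ) (hY : 2 ≤ Y) (hu : 0 < u) (hw : 1 ≤ w)
    (hQp : ∀ n ∈ Q, n.Prime) (hQu : ∀ n ∈ Q, n.Coprime u) (hQY : ∀ n ∈ Q, n < Y)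
    (huw : u < Y ^ (w + 1)) (hr : 2 * w ≤ r) (hcard : w ^ 8 * Y ^ 7 ≤ Q.card ^ 8)
    (z : ℂ) (hz : IsPrimitiveRoot z u) :
    ‖avg Q r (fun W => z ^ W.prod)‖ ^ 8 * (u : ℝ) ^ 3 ≤ (Y : ℝ) ^ 7 := by
  have hcpos : 0 < Q.card := by
    by_contra h
    have h0 : Q.card = 0 := by omega
    rw [h0] at hcard
    have : 0 < w ^ 8 * Y ^ 7 := by positivity
    simp at hcard
    omega
  have hQ : Q.Nonempty := Finset.card_pos.mp hcpos
  have hcR : (0 : ℝ) < (Q.card : ℝ) := by exact_mod_cast hcpos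
  have hnorm : ‖z‖ = 1 := hz.norm'_eq_one hu.ne'
  have hYR : (2 : ℝ) ≤ (Y : ℝ) := by exact_mod_cast hY
  have huR : (0 : ℝ) < (u : ℝ) := by exact_mod_cast hu
  by_cases huY : u < Y
  · have h1 : ‖avg Q r (fun W => z ^ W.prod)‖ ≤ 1 := by
      refine (norm_avg_le _ _ _).trans ?_
      simp only [norm_pow, hnorm, one_pow]
      rw [avg_const Q hQ]
    have h2 : ‖avg Q r (fun W => z ^ W.prod)‖ ^ 8 ≤ 1 := pow_le_one₀ (norm_nonneg _) h1
    have huY' : (u : ℝ) ≤ Y := by exact_mod_cast huY.le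
    calc ‖avg Q r (fun W => z ^ W.prod)‖ ^ 8 * (u : ℝ) ^ 3 ≤ 1 * (u : ℝ) ^ 3 :=
          mul_le_mul_of_nonneg_right h2 (by positivity)
      _ = (u : ℝ) ^ 3 := one_mul _
      _ ≤ (Y : ℝ) ^ 3 := pow_le_pow_left₀ huR.le huY' 3
      _ ≤ (Y : ℝ) ^ 7 := pow_le_pow_right₀ (by linarith) (by norm_num)
  · push Not at huY
    set k := Nat.log Y u with hk
    have hk1 : Y ^ k ≤ u := Nat.pow_log_le_self Y hu.ne'
    have hk2 : u < Y ^ (k + 1) := Nat.lt_pow_succ_log_self (by omega) u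
    have hkpos : 1 ≤ k := by
      rw [hk]
      exact Nat.log_pos (by omega) huY
    have hkw : k ≤ w := by
      have : Y ^ k < Y ^ (w + 1) := lt_of_le_of_lt hk1 huw
      have := (Nat.pow_lt_pow_iff_right (by omega : 1 < Y)).mp this
      omega
    have hlt : ∀ W : List ℕ, W.length = k → (∀ a ∈ W, a ∈ Q) → W.prod < u := by
      intro W hW hWQ
      obtain ⟨k', hk'⟩ : ∃ k', k = k' + 1 := ⟨k - 1, by omega⟩
      rw [hk'] at hk1 hW
      exact lt_of_lt_of_le (P2_prod_lt Y Q hQY k' W hW hWQ) hk1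
    set M : ℝ := (k.factorial : ℝ) / (Q.card : ℝ) ^ k with hM
    have hM0 : 0 ≤ M := by positivity
    -- bound for all primitive roots
    have hbd : ∀ z' : ℂ, IsPrimitiveRoot z' u →
        ‖avg Q (k + k) (fun W => z' ^ W.prod)‖ ≤ Real.sqrt u * M := by
      intro z' hz'
      have h1 := P2_bilinear Q hQ hQp k u hu hlt z' hz'
      have h2 : (Real.sqrt u * M) ^ 2 = u * M ^ 2 := by
        rw [mul_pow, Real.sq_sqrt huR.le]
      refine le_of_pow_le_pow_left₀ (n := 2) (by norm_num) (by positivity) ?_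
      rw [h2]
      exact h1
    have hmain : ‖avg Q r (fun W => z ^ W.prod)‖ ≤ Real.sqrt u * M := by
      obtain ⟨m, hm⟩ : ∃ m, r = (k + k) + m := ⟨r - (k + k), by omega⟩
      rw [hm, P2_avg_split]
      refine (norm_avg_le _ _ _).trans ?_
      have h3 : avg Q m (fun W' => ‖avg Q (k + k) (fun W => z ^ (W' ++ W).prod)‖) ≤
          avg Q m (fun _ => Real.sqrt u * M) := by
        apply avg_mono
        intro W' hW' hWQ'
        have h4 := hbd (z ^ W'.prod) (hz.pow_of_coprime _ (P2_coprime_prod Q u hQu W' hWQ'))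
        simp only [List.prod_append, pow_mul]
        exact h4
      rw [avg_const Q hQ] at h3
      exact h3
    have hMk : M ≤ ((w : ℝ) / Q.card) ^ k := by
      rw [hM, div_pow]
      apply div_le_div_of_nonneg_right _ (by positivity)
      have h5 : k.factorial ≤ w ^ k :=
        (Nat.factorial_le_pow k).trans (Nat.pow_le_pow_left hkw k)
      exact_mod_cast h5
    have hM8 : M ^ 8 * ((Y : ℝ) ^ 7) ^ k ≤ 1 := by
      calc M ^ 8 * ((Y : ℝ) ^ 7) ^ k ≤ (((w : ℝ) / Q.card) ^ k) ^ 8 * ((Y : ℝ) ^ 7) ^ k := by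
            apply mul_le_mul_of_nonneg_right _ (by positivity)
            exact pow_le_pow_left₀ hM0 hMk 8
        _ = ((w : ℝ) ^ 8 * (Y : ℝ) ^ 7 / (Q.card : ℝ) ^ 8) ^ k := by
            rw [← pow_mul, mul_comm k 8, pow_mul, ← mul_pow, div_pow]
            congr 1
            ring
        _ ≤ 1 := by
            apply pow_le_one₀ (by positivity)
            rw [div_le_one (by positivity)]
            exact_mod_cast hcard
    have hfin : ‖avg Q r (fun W => z ^ W.prod)‖ ^ 8 ≤ (u : ℝ) ^ 4 * M ^ 8 := by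
      calc ‖avg Q r (fun W => z ^ W.prod)‖ ^ 8 ≤ (Real.sqrt u * M) ^ 8 :=
            pow_le_pow_left₀ (norm_nonneg _) hmain 8
        _ = ((Real.sqrt u) ^ 2) ^ 4 * M ^ 8 := by ring
        _ = (u : ℝ) ^ 4 * M ^ 8 := by rw [Real.sq_sqrt huR.le]
    have hYk : (0 : ℝ) < ((Y : ℝ) ^ 7) ^ k := by positivity
    have hu7 : (u : ℝ) ^ 7 ≤ (Y : ℝ) ^ 7 * ((Y : ℝ) ^ 7) ^ k := by
      have h6 : (u : ℝ) ≤ (Y : ℝ) ^ (k + 1) := by exact_mod_cast hk2.le
      calc (u : ℝ) ^ 7 ≤ ((Y : ℝ) ^ (k + 1)) ^ 7 := pow_le_pow_left₀ huR.le h6 7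
        _ = (Y : ℝ) ^ 7 * ((Y : ℝ) ^ 7) ^ k := by
            rw [← pow_mul, ← pow_mul, ← pow_add]
            congr 1
            ring
    have step1 : ‖avg Q r (fun W => z ^ W.prod)‖ ^ 8 * (u : ℝ) ^ 3 ≤ (u : ℝ) ^ 7 * M ^ 8 := by
      calc ‖avg Q r (fun W => z ^ W.prod)‖ ^ 8 * (u : ℝ) ^ 3
          ≤ ((u : ℝ) ^ 4 * M ^ 8) * (u : ℝ) ^ 3 :=
            mul_le_mul_of_nonneg_right hfin (by positivity)
        _ = (u : ℝ) ^ 7 * M ^ 8 := by ring
    refine step1.trans ?_
    calc (u : ℝ) ^ 7 * M ^ 8 ≤ ((Y : ℝ) ^ 7 * ((Y : ℝ) ^ 7) ^ k) * M ^ 8 :=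
          mul_le_mul_of_nonneg_right hu7 (by positivity)
      _ = (Y : ℝ) ^ 7 * (M ^ 8 * ((Y : ℝ) ^ 7) ^ k) := by ring
      _ ≤ (Y : ℝ) ^ 7 * 1 := mul_le_mul_of_nonneg_left hM8 (by positivity)
      _ = (Y : ℝ) ^ 7 := mul_one _

end Crest.Agent.E25
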