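import Crest.Agent.E25Defs

set_option autoImplicit false
set_option maxRecDepth 100000

namespace Crest.Agent.E25

open Finset

noncomputable def P3Psi (Q : Finset ℕ) (r : ℕ) (x : ℂ) : ℂ := avg Q r (fun W => x ^ W.prod)

lemma P3_Psi_succ (Q : Finset ℕ) (r : ℕ) (x : ℂ) :
    P3Psi Q (r + 1) x = (Q.card : ℝ)⁻¹ • ∑ n ∈ Q, P3Psi Q r (x ^ n) := by
  unfold P3Psi
  rw [avg_succ']
  simp only [List.prod_cons, pow_mul]

lemma P3_prod_avg_gen {ι κ : Type*} [Fintype ι] [DecidableEq ι] [Fintype κ] [DecidableEq κ]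
    (Q : Finset ℕ) (hQ : Q.Nonempty) (p : κ → ι)
    (hp : Function.Injective p) (F : κ → ℕ → ℂ) :
    ((Fintype.piFinset (fun _ : ι => Q)).card : ℝ)⁻¹ •
      ∑ g ∈ Fintype.piFinset (fun _ : ι => Q), ∏ j, F j (g (p j)) =
      ∏ j, ((Q.card : ℝ)⁻¹ • ∑ n ∈ Q, F j n) := by
  have h1 : ∀ g : ι → ℕ, ∏ j, F j (g (p j)) =
      ∏ c : ι, ∏ j ∈ univ.filter (fun j => p j = c), F j (g c) := by
    intro g
    rw [← Finset.prod_fiberwise univ p]
    apply Finset.prod_congr rfl
    intro c _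
    apply Finset.prod_congr rfl
    intro j hj
    rw [Finset.mem_filter] at hj
    rw [hj.2]
  have h2 : ∑ g ∈ Fintype.piFinset (fun _ : ι => Q), ∏ j, F j (g (p j)) =
      ∏ c : ι, ∑ n ∈ Q, ∏ j ∈ univ.filter (fun j => p j = c), F j n := by
    rw [Finset.prod_univ_sum]
    apply Finset.sum_congr rfl
    intro g _
    exact h1 g
  have hc : (Q.card : ℝ) ≠ 0 := by exact_mod_cast hQ.card_pos.ne'
  have h3 : ((Fintype.piFinset (fun _ : ι => Q)).card : ℝ) = ∏ _c : ι, (Q.card : ℝ) := by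
    rw [Fintype.card_piFinset]
    push_cast
    rfl
  have h4 : ((Fintype.piFinset (fun _ : ι => Q)).card : ℝ)⁻¹ •
        ∑ g ∈ Fintype.piFinset (fun _ : ι => Q), ∏ j, F j (g (p j)) =
      ∏ c : ι, ((Q.card : ℝ)⁻¹ •
        ∑ n ∈ Q, ∏ j ∈ univ.filter (fun j => p j = c), F j n) := by
    rw [h2, h3]
    simp only [Complex.real_smul]
    rw [Finset.prod_mul_distrib]
    congr 1
    push_cast
    rw [Finset.prod_inv_distrib]
  rw [h4, ← Finset.prod_fiberwise univ p]
  apply Finset.prod_congr rfl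
  intro c _
  by_cases hcp : ∃ j, p j = c
  · obtain ⟨j, rfl⟩ := hcp
    have : univ.filter (fun j' => p j' = p j) = {j} := by
      ext j'
      simp only [Finset.mem_filter, Finset.mem_univ, true_and, Finset.mem_singleton]
      exact ⟨fun h => hp h, fun h => by rw [h]⟩
    rw [this]
    simp
  · have : univ.filter (fun j' => p j' = c) = ∅ := by
      ext j'
      simp only [Finset.mem_filter, Finset.mem_univ, true_and, Finset.notMem_empty, iff_false]
      exact fun h => hcp ⟨j', h⟩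
    rw [this]
    simp only [Finset.prod_empty, Finset.sum_const, nsmul_eq_mul, mul_one, Complex.real_smul]
    push_cast
    rw [inv_mul_cancel₀]
    exact_mod_cast hc

lemma P3_prod_avg (Q : Finset ℕ) (hQ : Q.Nonempty) (p : Fin 8 → Fin ZZ)
    (hp : Function.Injective p) (F : Fin 8 → ℕ → ℂ) :
    ((GG Q).card : ℝ)⁻¹ • ∑ g ∈ GG Q, ∏ j, F j (g (p j)) =
      ∏ j, ((Q.card : ℝ)⁻¹ • ∑ n ∈ Q, F j n) :=
  P3_prod_avg_gen Q hQ p hp F

lemma P3_GG_nonempty (Q : Finset ℕ) (hQ : Q.Nonempty) : (GG Q).Nonempty :=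
  Fintype.piFinset_nonempty.mpr (fun _ => hQ)

lemma P3_mem_GG (Q : Finset ℕ) (g : Fin ZZ → ℕ) (hg : g ∈ GG Q) (i : Fin ZZ) : g i ∈ Q :=
  Fintype.mem_piFinset.mp hg i

lemma P3_DD_cons (p : Fin 8 → Fin ZZ) (P : List (Fin 8 → Fin ZZ)) (g : Fin ZZ → ℕ)
    (V : List (Fin ZZ → ℕ)) (j : Fin 8) : DD (p :: P) (g :: V) j = g (p j) * DD P V j := rfl

lemma P3_main (Q : Finset ℕ) (u t : ℕ) (c : ℝ) (hc : 0 ≤ c)
    (hQu : ∀ n ∈ Q, n.Coprime u) (hQ : Q.Nonempty)
    (hpsi : ∀ r, t ≤ r → ∀ z : ℂ, IsPrimitiveRoot z u → ‖avg Q r (fun W => z ^ W.prod)‖ ^ 8 ≤ c)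
    (P : List (Fin 8 → Fin ZZ)) :
    ∀ (r : ℕ) (x : Fin 8 → ℂ), (∀ j, IsPrimitiveRoot (x j) u) → t ≤ r + ngood P →
      ‖avg (GG Q) P.length (fun V => ∏ j, P3Psi Q r ((x j) ^ (DD P V j)))‖ ≤ c := by
  classical
  induction P with
  | nil =>
    intro r x hx ht
    simp only [List.length_nil, avg_zero, DD, pow_one]
    simp only [ngood, add_zero] at ht
    rw [norm_prod]
    have h1 : ∀ j, ‖P3Psi Q r (x j)‖ ^ 8 ≤ c := fun j => hpsi r ht (x j) (hx j)
    refine le_of_pow_le_pow_left₀ (n := 8) (by norm_num) hc ?_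
    rw [← Finset.prod_pow]
    calc ∏ j : Fin 8, ‖P3Psi Q r (x j)‖ ^ 8 ≤ ∏ _j : Fin 8, c :=
          Finset.prod_le_prod (fun j _ => by positivity) (fun j _ => h1 j)
      _ = c ^ 8 := by simp
  | cons p P ih =>
    intro r x hx ht
    by_cases hp : Function.Injective p
    · have ht' : t ≤ (r + 1) + ngood P := by
        simp only [ngood, hp, if_true] at ht
        omega
      have key := ih (r + 1) x hx ht'
      rw [List.length_cons, avg_succ]
      have h1 : ∀ V : List (Fin ZZ → ℕ), ((GG Q).card : ℝ)⁻¹ • ∑ a ∈ GG Q,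
          ∏ j, P3Psi Q r ((x j) ^ (DD (p :: P) (a :: V) j)) =
          ∏ j, P3Psi Q (r + 1) ((x j) ^ (DD P V j)) := by
        intro V
        have h2 := P3_prod_avg Q hQ p hp (fun j n => P3Psi Q r (((x j) ^ (DD P V j)) ^ n))
        have h3 : ∏ j, P3Psi Q (r + 1) ((x j) ^ (DD P V j)) =
            ∏ j, ((Q.card : ℝ)⁻¹ • ∑ n ∈ Q, P3Psi Q r (((x j) ^ (DD P V j)) ^ n)) :=
          Finset.prod_congr rfl (fun j _ => P3_Psi_succ Q r _)
        rw [h3, ← h2]
        refine congrArg (fun s : ℂ => ((GG Q).card : ℝ)⁻¹ • s) ?_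
        apply Finset.sum_congr rfl
        intro g _
        apply Finset.prod_congr rfl
        intro j _
        rw [P3_DD_cons, mul_comm, pow_mul]
      simp only [h1]
      exact key
    · have ht' : t ≤ r + ngood P := by
        simp only [ngood, hp, if_false] at ht
        omega
      rw [List.length_cons, avg_succ']
      have hcard : (0 : ℝ) < ((GG Q).card : ℝ) := by
        exact_mod_cast (P3_GG_nonempty Q hQ).card_pos
      rw [norm_smul, norm_inv, Real.norm_natCast, inv_mul_eq_div, div_le_iff₀ hcard]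
      refine (norm_sum_le _ _).trans ?_
      have h5 : ∀ g ∈ GG Q, ‖avg (GG Q) P.length
            (fun W => ∏ j, P3Psi Q r ((x j) ^ (DD (p :: P) (g :: W) j)))‖ ≤ c := by
        intro g hg
        have h6 : ∀ j, IsPrimitiveRoot ((x j) ^ (g (p j))) u := fun j =>
          (hx j).pow_of_coprime (g (p j)) (hQu (g (p j)) (P3_mem_GG Q g hg (p j)))
        have := ih r (fun j => (x j) ^ (g (p j))) h6 ht'
        simp only [← pow_mul] at this
        simp only [P3_DD_cons]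
        exact this
      refine (Finset.sum_le_sum h5).trans ?_
      rw [Finset.sum_const, nsmul_eq_mul, mul_comm]

theorem pattern_bound (Q : Finset ℕ) (u t : ℕ) (c : ℝ) (hc : 0 ≤ c) (hu : 0 < u)
    (hQu : ∀ n ∈ Q, n.Coprime u) (hQ : Q.Nonempty)
    (hpsi : ∀ r, t ≤ r → ∀ z : ℂ, IsPrimitiveRoot z u → ‖avg Q r (fun W => z ^ W.prod)‖ ^ 8 ≤ c)
    (P : List (Fin 8 → Fin ZZ)) (hP : t ≤ ngood P) (z : ℂ) (hz : IsPrimitiveRoot z u) :
    ‖avg (GG Q) P.length (fun V => z ^ (Del P V))‖ ≤ c := by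
  have hz0 : z ≠ 0 := hz.ne_zero hu.ne'
  have key := P3_main Q u t c hc hQu hQ hpsi P 0 (fun j => z ^ (sg j))
    (by
      intro j
      show IsPrimitiveRoot (z ^ (sg j)) u
      unfold sg
      split_ifs
      · simpa using hz
      · simpa using hz.inv) (by simpa using hP)
  have h2 : ∀ (V : List (Fin ZZ → ℕ)) (s : Finset (Fin 8)), ∏ j ∈ s, (z ^ (sg j)) ^ (DD P V j) =
      z ^ (∑ j ∈ s, sg j * (DD P V j : ℤ)) := by
    intro V s
    classical
    induction s using Finset.induction_on with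
    | empty => simp
    | insert j s hj ih =>
      rw [Finset.prod_insert hj, Finset.sum_insert hj, zpow_add₀ hz0, ih, zpow_mul,
        zpow_natCast]
  have h1 : ∀ V : List (Fin ZZ → ℕ), ∏ j, P3Psi Q 0 ((z ^ (sg j)) ^ (DD P V j)) =
      z ^ (Del P V) := by
    intro V
    simp only [P3Psi, avg_zero, List.prod_nil, pow_one]
    exact h2 V univ
  simp only [h1] at key
  exact key

end Crest.Agent.E25
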