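import Crest.Agent.E25Defs

set_option autoImplicit false
set_option maxRecDepth 100000

namespace Crest.Agent.E25

open Finset

lemma P6_AA_cons_V (g : Fin ZZ → ℕ) (V : List (Fin ZZ → ℕ)) (W : List ℕ) (z : ℂ) :
    AA (g :: V) W z = (∑ c : Fin ZZ, AA V W (z ^ (g c))) / ZZ := rfl

lemma P6_A_cons (n : ℕ) (W : List ℕ) (z : ℂ) : A (n :: W) z = (A W z + A W (z ^ n)) / 2 := rfl

theorem AA_cons_W (V : List (Fin ZZ → ℕ)) (n : ℕ) (W : List ℕ) (z : ℂ) :
    AA V (n :: W) z = (AA V W z + AA V W (z ^ n)) / 2 := by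
  induction V generalizing z with
  | nil => rfl
  | cons g V ih =>
    rw [P6_AA_cons_V, P6_AA_cons_V, P6_AA_cons_V]
    have h1 : ∀ c : Fin ZZ, AA V (n :: W) (z ^ (g c)) =
        (AA V W (z ^ (g c)) + AA V W ((z ^ n) ^ (g c))) / 2 := by
      intro c
      rw [ih, ← pow_mul, ← pow_mul, mul_comm n (g c)]
    rw [Finset.sum_congr rfl (fun c _ => h1 c), ← Finset.sum_div, Finset.sum_add_distrib]
    rw [← add_div, div_right_comm]

lemma P6_norm_A_le_one (W : List ℕ) (z : ℂ) (hz : ‖z‖ = 1) : ‖A W z‖ ≤ 1 := by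
  induction W generalizing z with
  | nil => exact hz.le
  | cons n W ih =>
    rw [P6_A_cons, norm_div]
    have h1 := ih z hz
    have h2 := ih (z ^ n) (by rw [norm_pow, hz, one_pow])
    have h3 := norm_add_le (A W z) (A W (z ^ n))
    rw [Complex.norm_ofNat, div_le_one (by norm_num)]
    linarith

theorem norm_AA_le_one (V : List (Fin ZZ → ℕ)) (W : List ℕ) (z : ℂ) (hz : ‖z‖ = 1) :
    ‖AA V W z‖ ≤ 1 := by
  induction V generalizing z with
  | nil => exact P6_norm_A_le_one W z hz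
  | cons g V ih =>
    rw [P6_AA_cons_V, norm_div]
    have h1 : ∀ c : Fin ZZ, ‖AA V W (z ^ (g c))‖ ≤ 1 :=
      fun c => ih (z ^ (g c)) (by rw [norm_pow, hz, one_pow])
    have h2 : ‖∑ c : Fin ZZ, AA V W (z ^ (g c))‖ ≤ ZZ := by
      refine (norm_sum_le _ _).trans ?_
      refine (Finset.sum_le_sum (fun c _ => h1 c)).trans ?_
      rw [Finset.sum_const, Finset.card_univ, Fintype.card_fin, nsmul_eq_mul, mul_one]
    have h3 : (0 : ℝ) < ‖((ZZ : ℕ) : ℂ)‖ := by
      rw [Complex.norm_natCast]; norm_num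
    rw [div_le_one h3, Complex.norm_natCast]
    exact h2

lemma P6_conv (a b : ℝ) (ha : 0 ≤ a) (hb : 0 ≤ b) (p : ℕ) :
    ((a + b) / 2) ^ p ≤ (a ^ p + b ^ p) / 2 := by
  cases p with
  | zero => norm_num
  | succ p =>
    have h := add_pow_le ha hb (p + 1)
    rw [Nat.add_sub_cancel] at h
    rw [div_pow, div_le_div_iff₀ (by positivity) (by norm_num), pow_succ (2 : ℝ) p]
    nlinarith [h]

lemma P6_step (V : List (Fin ZZ → ℕ)) (n : ℕ) (W : List ℕ) (z : ℂ) (p : ℕ) :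
    ‖AA V (n :: W) z‖ ^ p ≤ (‖AA V W z‖ ^ p + ‖AA V W (z ^ n)‖ ^ p) / 2 := by
  rw [AA_cons_W]
  refine le_trans ?_ (P6_conv _ _ (norm_nonneg (AA V W z)) (norm_nonneg (AA V W (z ^ n))) p)
  apply pow_le_pow_left₀ (norm_nonneg _)
  rw [norm_div, Complex.norm_ofNat]
  exact div_le_div_of_nonneg_right (norm_add_le _ _) (by norm_num)

theorem ml_mono_W (u : ℕ) (hu : 0 < u) (Q : Finset ℕ) (hQu : ∀ n ∈ Q, n.Coprime u) (hQ : Q.Nonempty)
    (p w κ κ' : ℕ) (hκ : κ ≤ κ') (ε : ℝ)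
    (h : ∀ z : ℂ, IsPrimitiveRoot z u → avg Q κ (fun W => avg (GG Q) w (fun V => ‖AA V W z‖ ^ p)) ≤ ε) :
    ∀ z : ℂ, IsPrimitiveRoot z u → avg Q κ' (fun W => avg (GG Q) w (fun V => ‖AA V W z‖ ^ p)) ≤ ε := by
  have _ := hu
  induction κ', hκ using Nat.le_induction with
  | base => exact h
  | succ k _ ih =>
    intro z hz
    rw [avg_succ', smul_eq_mul]
    have hc : (0 : ℝ) < (Q.card : ℝ) := by exact_mod_cast hQ.card_pos
    have h1 : ∀ n ∈ Q, avg Q k (fun W => avg (GG Q) w (fun V => ‖AA V (n :: W) z‖ ^ p)) ≤ ε := by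
      intro n hn
      have hz1 := ih z hz
      have hz2 := ih (z ^ n) (hz.pow_of_coprime n (hQu n hn))
      have h2 : avg Q k (fun W => avg (GG Q) w (fun V => ‖AA V (n :: W) z‖ ^ p)) ≤
          avg Q k (fun W => (1 / 2 : ℝ) * (avg (GG Q) w (fun V => ‖AA V W z‖ ^ p) +
            avg (GG Q) w (fun V => ‖AA V W (z ^ n)‖ ^ p))) := by
        apply avg_mono
        intro W _ _
        rw [← avg_add, ← avg_mul_left]
        apply avg_mono
        intro V _ _
        have := P6_step V n W z p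
        linarith
      rw [avg_mul_left, avg_add] at h2
      linarith
    rw [inv_mul_eq_div, div_le_iff₀ hc]
    refine (Finset.sum_le_sum h1).trans ?_
    rw [Finset.sum_const, nsmul_eq_mul, mul_comm]

end Crest.Agent.E25
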