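import Crest.Agent.E25Defs

set_option autoImplicit false
set_option maxRecDepth 100000

namespace Crest.Agent.E25

open Finset

open Classical in
/-- number of non-injective patterns -/
noncomputable def P4bad {n : ℕ} : List (Fin 8 → Fin n) → ℕ
  | [] => 0
  | (p :: P) => (if Function.Injective p then 0 else 1) + P4bad P

lemma P4_good_add_bad (P : List (Fin 8 → Fin ZZ)) : ngood P + P4bad P = P.length := by
  induction P with
  | nil => rfl
  | cons p P ih =>
    simp only [ngood, P4bad, List.length_cons]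
    split_ifs <;> omega

lemma P4_card_inj (n : ℕ) [DecidablePred (fun p : Fin 8 → Fin n => Function.Injective p)] :
    ((univ : Finset (Fin 8 → Fin n)).filter (fun p => Function.Injective p)).card =
      n.descFactorial 8 := by
  have h := Fintype.card_embedding_eq (α := Fin 8) (β := Fin n)
  rw [Fintype.card_fin, Fintype.card_fin] at h
  rw [← h, ← Fintype.card_subtype]
  exact Fintype.card_congr (Equiv.subtypeInjectiveEquivEmbedding (Fin 8) (Fin n))

open Classical in
lemma P4_mean (n : ℕ) (hn : n = 4096) :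
    ((univ : Finset (Fin 8 → Fin n)).card : ℝ)⁻¹ *
      ∑ p : Fin 8 → Fin n, (if Function.Injective p then (1 : ℝ) else 128) ≤ 2 := by
  have hc : (univ : Finset (Fin 8 → Fin n)).card = n ^ 8 := by
    rw [Finset.card_univ, Fintype.card_fun, Fintype.card_fin, Fintype.card_fin]
  have h1 : ∑ p : Fin 8 → Fin n, (if Function.Injective p then (1 : ℝ) else 128) =
      128 * (n : ℝ) ^ 8 - 127 * (n.descFactorial 8 : ℕ) := by
    have h2 : ∀ p : Fin 8 → Fin n, (if Function.Injective p then (1 : ℝ) else 128) =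
        128 - (if Function.Injective p then (127 : ℝ) else 0) := by
      intro p
      split_ifs <;> norm_num
    simp only [h2]
    rw [Finset.sum_sub_distrib, Finset.sum_const, hc, nsmul_eq_mul, ← Finset.sum_filter,
      Finset.sum_const, P4_card_inj, nsmul_eq_mul]
    push_cast
    ring
  rw [h1, hc, hn]
  norm_num [Nat.descFactorial]

lemma P4_avg_bad (n : ℕ) (hn : n = 4096) (k : ℕ) :
    avg (univ : Finset (Fin 8 → Fin n)) k (fun P => (128 : ℝ) ^ (P4bad P)) ≤ 2 ^ k := by
  classical
  induction k with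
  | zero => simp [avg_zero, P4bad]
  | succ k ih =>
    rw [avg_succ', smul_eq_mul]
    have h1 : ∀ p : Fin 8 → Fin n, avg (univ : Finset (Fin 8 → Fin n)) k
        (fun P => (128 : ℝ) ^ (P4bad (p :: P))) =
        (if Function.Injective p then (1 : ℝ) else 128) *
          avg (univ : Finset (Fin 8 → Fin n)) k (fun P => (128 : ℝ) ^ (P4bad P)) := by
      intro p
      rw [← avg_mul_left]
      congr 1
      funext P
      simp only [P4bad]
      split_ifs
      · simp
      · rw [pow_add]; norm_num
    simp only [h1]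
    rw [← Finset.sum_mul, ← mul_assoc, pow_succ, mul_comm ((2 : ℝ) ^ k)]
    apply mul_le_mul (P4_mean n hn) ih _ (by norm_num)
    apply avg_nonneg
    intro W _ _
    positivity

theorem deg_bound (w : ℕ) :
    avg (univ : Finset (Fin 8 → Fin ZZ)) (4 * w) (fun P => if ngood P < 2 * w then (1:ℝ) else 0) ≤
      (1 / 2 : ℝ) ^ (10 * w) := by
  have h1 : avg (univ : Finset (Fin 8 → Fin ZZ)) (4 * w)
      (fun P => if ngood P < 2 * w then (1:ℝ) else 0) ≤
      avg (univ : Finset (Fin 8 → Fin ZZ)) (4 * w)
        (fun P => (1 / 128 : ℝ) ^ (2 * w) * (128 : ℝ) ^ (P4bad P)) := by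
    apply avg_mono
    intro P hP _
    have h2 := P4_good_add_bad P
    split_ifs with h
    · have h3 : 2 * w ≤ P4bad P := by omega
      calc (1 : ℝ) = (1 / 128 : ℝ) ^ (2 * w) * (128 : ℝ) ^ (2 * w) := by
            rw [← mul_pow]; norm_num
        _ ≤ (1 / 128 : ℝ) ^ (2 * w) * (128 : ℝ) ^ (P4bad P) :=
            mul_le_mul_of_nonneg_left (pow_le_pow_right₀ (by norm_num) h3) (by positivity)
    · positivity
  refine h1.trans ?_
  rw [avg_mul_left]
  calc (1 / 128 : ℝ) ^ (2 * w) * avg (univ : Finset (Fin 8 → Fin ZZ)) (4 * w)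
        (fun P => (128 : ℝ) ^ (P4bad P)) ≤ (1 / 128 : ℝ) ^ (2 * w) * 2 ^ (4 * w) :=
        mul_le_mul_of_nonneg_left (P4_avg_bad ZZ rfl (4 * w)) (by positivity)
    _ = (1 / 2 : ℝ) ^ (10 * w) := by
        rw [show (2 : ℝ) ^ (4 * w) = 16 ^ w by rw [pow_mul]; norm_num, pow_mul, pow_mul, ← mul_pow]
        norm_num

end Crest.Agent.E25
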