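import Crest.Agent.E25Defs
import Crest.Agent.E25P6

set_option autoImplicit false
set_option maxRecDepth 100000

namespace Crest.Agent.E25

open Finset

lemma P5_DD_nil (V : List (Fin ZZ → ℕ)) (j : Fin 8) : DD [] V j = 1 := rfl

lemma P5_DD_cons (p : Fin 8 → Fin ZZ) (P : List (Fin 8 → Fin ZZ)) (g : Fin ZZ → ℕ)
    (V : List (Fin ZZ → ℕ)) (j : Fin 8) : DD (p :: P) (g :: V) j = g (p j) * DD P V j := rfl

lemma P5_prod_avg_gen (n : ℕ) (H : Fin 8 → Fin n → ℂ) :
    ∏ j : Fin 8, ((∑ c : Fin n, H j c) / (n : ℂ)) =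
      ((univ : Finset (Fin 8 → Fin n)).card : ℝ)⁻¹ • ∑ p : Fin 8 → Fin n, ∏ j, H j (p j) := by
  rw [Finset.prod_div_distrib, Finset.prod_univ_sum, Fintype.piFinset_univ]
  rw [Finset.card_univ, Fintype.card_fun, Fintype.card_fin, Fintype.card_fin,
    Complex.real_smul, Finset.prod_const, Finset.card_univ, Fintype.card_fin, div_eq_inv_mul]
  push_cast
  rfl

lemma P5_general (V : List (Fin ZZ → ℕ)) (x : Fin 8 → ℂ) :
    ∏ j, AA V [] (x j) =
      avg (univ : Finset (Fin 8 → Fin ZZ)) V.length (fun P => ∏ j, (x j) ^ (DD P V j)) := by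
  induction V generalizing x with
  | nil =>
    simp only [List.length_nil, avg_zero, P5_DD_nil, pow_one]
    rfl
  | cons g V ih =>
    rw [List.length_cons, avg_succ']
    have h1 : ∏ j, AA (g :: V) [] (x j) =
        ∏ j : Fin 8, ((∑ c : Fin ZZ, AA V [] ((x j) ^ (g c))) / ((ZZ : ℕ) : ℂ)) := rfl
    rw [h1, P5_prod_avg_gen ZZ (fun j c => AA V [] ((x j) ^ (g c)))]
    have h2 : ∀ p : Fin 8 → Fin ZZ, ∏ j, AA V [] ((x j) ^ (g (p j))) =
        avg (univ : Finset (Fin 8 → Fin ZZ)) V.length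
          (fun P => ∏ j, (x j) ^ (DD (p :: P) (g :: V) j)) := by
      intro p
      rw [ih (fun j => (x j) ^ (g (p j)))]
      simp only [P5_DD_cons, pow_mul]
    rw [Finset.sum_congr rfl (fun p _ => h2 p)]

lemma P5_conj (V : List (Fin ZZ → ℕ)) (z : ℂ) :
    (starRingEnd ℂ) (AA V [] z) = AA V [] ((starRingEnd ℂ) z) := by
  induction V generalizing z with
  | nil => rfl
  | cons g V ih =>
    rw [P6_AA_cons_V, P6_AA_cons_V, map_div₀, map_sum, Complex.conj_natCast]
    congr 1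
    apply Finset.sum_congr rfl
    intro c _
    rw [ih, map_pow]

lemma P5_prod_sg (z : ℂ) (hz : ‖z‖ = 1) (P : List (Fin 8 → Fin ZZ)) (V : List (Fin ZZ → ℕ)) :
    ∏ j, (z ^ (sg j)) ^ (DD P V j) = z ^ (Del P V) := by
  have hz0 : z ≠ 0 := by
    intro h
    rw [h, norm_zero] at hz
    exact zero_ne_one hz
  have h2 : ∀ (s : Finset (Fin 8)), ∏ j ∈ s, (z ^ (sg j)) ^ (DD P V j) =
      z ^ (∑ j ∈ s, sg j * (DD P V j : ℤ)) := by
    intro s
    classical
    induction s using Finset.induction_on with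
    | empty => simp
    | insert j s hj ih =>
      rw [Finset.prod_insert hj, Finset.sum_insert hj, zpow_add₀ hz0, ih, zpow_mul,
        zpow_natCast]
  exact h2 univ

theorem holder_base (V : List (Fin ZZ → ℕ)) (z : ℂ) (hz : ‖z‖ = 1) :
    ((‖AA V [] z‖ ^ 8 : ℝ) : ℂ) =
      avg (univ : Finset (Fin 8 → Fin ZZ)) V.length (fun P => z ^ (Del P V)) := by
  have hconj : (starRingEnd ℂ) z = z⁻¹ := by
    rw [Complex.inv_def]
    simp [Complex.normSq_eq_norm_sq, hz]
  have h1 := P5_general V (fun j => z ^ (sg j))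
  simp only [P5_prod_sg z hz] at h1
  rw [← h1]
  have h2 : ((‖AA V [] z‖ ^ 8 : ℝ) : ℂ) =
      (AA V [] z * (starRingEnd ℂ) (AA V [] z)) ^ 4 := by
    rw [Complex.mul_conj, Complex.normSq_eq_norm_sq]
    push_cast
    ring
  rw [h2, P5_conj, hconj]
  have h3 : ∀ j : Fin 8, AA V [] (z ^ (sg j)) = if j.val < 4 then AA V [] z else AA V [] z⁻¹ := by
    intro j
    unfold sg
    split_ifs <;> simp
  rw [Finset.prod_congr rfl (fun j _ => h3 j)]
  simp only [Fin.prod_univ_eight]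
  norm_num
  ring

lemma P5_re (α : Type*) (S : Finset α) (k : ℕ) (F : List α → ℂ) :
    (avg S k F).re = avg S k (fun W => (F W).re) := by
  induction k generalizing F with
  | zero => rfl
  | succ k ih =>
    rw [avg_succ, avg_succ, ih]
    congr 1
    funext W
    rw [Complex.smul_re, Complex.re_sum]

lemma P5_A_pow_zpow (W : List ℕ) (n : ℕ) (z : ℂ) (k : ℤ) :
    A (n :: W) (z ^ k) = (A W (z ^ k) + A W ((z ^ n) ^ k)) / 2 := by
  rw [P6_A_cons]
  congr 3
  rw [← zpow_natCast, ← zpow_natCast, ← zpow_mul, ← zpow_mul, mul_comm]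

lemma P5_holder_re (V : List (Fin ZZ → ℕ)) (W : List ℕ) (z : ℂ) (hz : ‖z‖ = 1) :
    ‖AA V W z‖ ^ 8 ≤
      (avg (univ : Finset (Fin 8 → Fin ZZ)) V.length (fun P => A W (z ^ (Del P V)))).re := by
  induction W generalizing z with
  | nil =>
    have h := holder_base V z hz
    have h2 : avg (univ : Finset (Fin 8 → Fin ZZ)) V.length (fun P => A [] (z ^ (Del P V))) =
        avg (univ : Finset (Fin 8 → Fin ZZ)) V.length (fun P => z ^ (Del P V)) := rfl
    rw [h2, ← h, Complex.ofReal_re]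
  | cons n W ih =>
    have h1 := ih z hz
    have h2 := ih (z ^ n) (by rw [norm_pow, hz, one_pow])
    have h3 := P6_step V n W z 8
    have h4 : (avg (univ : Finset (Fin 8 → Fin ZZ)) V.length
        (fun P => A (n :: W) (z ^ (Del P V)))).re =
        ((avg (univ : Finset (Fin 8 → Fin ZZ)) V.length (fun P => A W (z ^ (Del P V)))).re +
        (avg (univ : Finset (Fin 8 → Fin ZZ)) V.length (fun P => A W ((z ^ n) ^ (Del P V)))).re) / 2 := by
      rw [P5_re, P5_re, P5_re, ← avg_add]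
      have h5 : ∀ P, (A (n :: W) (z ^ (Del P V))).re = (1 / 2 : ℝ) *
          ((A W (z ^ (Del P V))).re + (A W ((z ^ n) ^ (Del P V))).re) := by
        intro P
        rw [P5_A_pow_zpow]
        have : (A W (z ^ (Del P V)) + A W ((z ^ n) ^ (Del P V))) / 2 =
            ((1 / 2 : ℝ) : ℂ) * (A W (z ^ (Del P V)) + A W ((z ^ n) ^ (Del P V))) := by
          push_cast; ring
        rw [this, Complex.re_ofReal_mul, Complex.add_re]
      simp only [h5]
      rw [avg_mul_left]
      ring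
    rw [h4]
    linarith

theorem holder (V : List (Fin ZZ → ℕ)) (W : List ℕ) (z : ℂ) (hz : ‖z‖ = 1) :
    ‖AA V W z‖ ^ 8 ≤ avg (univ : Finset (Fin 8 → Fin ZZ)) V.length
      (fun P => ‖A W (z ^ (Del P V))‖) :=
  (P5_holder_re V W z hz).trans ((Complex.re_le_norm _).trans (norm_avg_le _ _ _))

end Crest.Agent.E25
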