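import Crest.Agent.E25Defs
import Crest.Agent.E25P4
import Crest.Agent.E25P5

set_option autoImplicit false
set_option maxRecDepth 100000

namespace Crest.Agent.E25

open Finset

lemma P7_avg_ofReal {α : Type*} (S : Finset α) (k : ℕ) (F : List α → ℝ) :
    avg S k (fun W => ((F W : ℝ) : ℂ)) = ((avg S k F : ℝ) : ℂ) := by
  induction k generalizing F with
  | zero => rfl
  | succ k ih =>
    rw [avg_succ, avg_succ, ← ih]
    congr 1
    funext W
    rw [Complex.real_smul, smul_eq_mul]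
    push_cast
    rfl

lemma P7_univ_nonempty : (univ : Finset (Fin 8 → Fin ZZ)).Nonempty :=
  ⟨fun _ => ⟨0, by norm_num⟩, Finset.mem_univ _⟩

lemma P7_GG_nonempty (Q : Finset ℕ) (hQ : Q.Nonempty) : (GG Q).Nonempty :=
  Fintype.piFinset_nonempty.mpr (fun _ => hQ)

theorem ml_small (u w : ℕ) (Q : Finset ℕ) (hu : 0 < u) (c : ℝ) (hc : 0 ≤ c)
    (hpat : ∀ P : List (Fin 8 → Fin ZZ), 2 * w ≤ ngood P → P.length = 4 * w →
      ∀ z : ℂ, IsPrimitiveRoot z u → ‖avg (GG Q) (4 * w) (fun V => z ^ (Del P V))‖ ≤ c)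
    (hQ : Q.Nonempty) (z : ℂ) (hz : IsPrimitiveRoot z u) :
    avg (GG Q) (4 * w) (fun V => ‖AA V [] z‖ ^ 8) ≤ (1 / 2 : ℝ) ^ (10 * w) + c := by
  have hnorm : ‖z‖ = 1 := hz.norm'_eq_one hu.ne'
  have h1 : ((avg (GG Q) (4 * w) (fun V => ‖AA V [] z‖ ^ 8) : ℝ) : ℂ) =
      avg (univ : Finset (Fin 8 → Fin ZZ)) (4 * w)
        (fun P => avg (GG Q) (4 * w) (fun V => z ^ (Del P V))) := by
    rw [← avg_comm, ← P7_avg_ofReal]
    apply avg_congr
    intro V hV _
    rw [holder_base V z hnorm, hV]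
  have h0 : 0 ≤ avg (GG Q) (4 * w) (fun V => ‖AA V [] z‖ ^ 8) :=
    avg_nonneg _ _ _ (fun V _ _ => by positivity)
  have h2 : avg (GG Q) (4 * w) (fun V => ‖AA V [] z‖ ^ 8) ≤
      avg (univ : Finset (Fin 8 → Fin ZZ)) (4 * w)
        (fun P => ‖avg (GG Q) (4 * w) (fun V => z ^ (Del P V))‖) := by
    calc avg (GG Q) (4 * w) (fun V => ‖AA V [] z‖ ^ 8)
        = ‖((avg (GG Q) (4 * w) (fun V => ‖AA V [] z‖ ^ 8) : ℝ) : ℂ)‖ := by
          rw [Complex.norm_real, Real.norm_of_nonneg h0]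
      _ ≤ _ := by
          rw [h1]
          exact norm_avg_le _ _ _
  refine h2.trans ?_
  have h3 : avg (univ : Finset (Fin 8 → Fin ZZ)) (4 * w)
        (fun P => ‖avg (GG Q) (4 * w) (fun V => z ^ (Del P V))‖) ≤
      avg (univ : Finset (Fin 8 → Fin ZZ)) (4 * w)
        (fun P => (if ngood P < 2 * w then (1:ℝ) else 0) + c) := by
    apply avg_mono
    intro P hP _
    split_ifs with h
    · have h4 : ‖avg (GG Q) (4 * w) (fun V => z ^ (Del P V))‖ ≤ 1 := by
        refine (norm_avg_le _ _ _).trans ?_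
        simp only [norm_zpow, hnorm, one_zpow]
        rw [avg_const _ (P7_GG_nonempty Q hQ)]
      linarith
    · rw [zero_add]
      exact hpat P (by omega) hP z hz
  refine h3.trans ?_
  rw [avg_add, avg_const _ P7_univ_nonempty]
  have := deg_bound w
  linarith

end Crest.Agent.E25
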