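import Crest.Agent.E25Defs
import Crest.Agent.E25P2
import Crest.Agent.E25P4
import Crest.Agent.E25P5
import Crest.Agent.E25P7

set_option autoImplicit false
set_option maxRecDepth 100000

namespace Crest.Agent.E25

open Finset

lemma P8_ze (u : ℕ) (hu : 0 < u) : IsPrimitiveRoot (ze u) u :=
  Complex.isPrimitiveRoot_exp u hu.ne'

/-- Jensen for `avg`. -/
lemma P8_jensen {α : Type*} (S : Finset α) (hS : S.Nonempty) (k n : ℕ) (F : List α → ℝ)
    (hF : ∀ W, 0 ≤ F W) : (avg S k F) ^ n ≤ avg S k (fun W => F W ^ n) := by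
  have hc : (0 : ℝ) < (S.card : ℝ) := by exact_mod_cast hS.card_pos
  induction k generalizing F with
  | zero => exact le_refl _
  | succ k ih =>
    rw [avg_succ, avg_succ]
    refine (ih _ ?_).trans ?_
    · intro W
      rw [smul_eq_mul]
      exact mul_nonneg (by positivity) (Finset.sum_nonneg (fun a _ => hF _))
    · apply avg_mono
      intro W _ _
      rw [smul_eq_mul, smul_eq_mul, Finset.mul_sum, Finset.mul_sum]
      apply Real.pow_arith_mean_le_arith_mean_pow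
      · intro a _; positivity
      · rw [Finset.sum_const, nsmul_eq_mul, mul_inv_cancel₀ hc.ne']
      · intro a _; exact hF _

lemma P8_fourier (u : ℕ) (hu : 0 < u) (G : ℂ → ℝ) (hG : ∀ y, 0 ≤ G y) :
    ∃ Gh : ℕ → ℂ, (∀ h, ‖Gh h‖ ≤ (∑ x ∈ range u, G (ze u ^ x)) / u) ∧
      ∀ y : ℂ, y ^ u = 1 → ((G y : ℝ) : ℂ) = ∑ h ∈ range u, Gh h * y ^ h := by
  have hze := P8_ze u hu
  have hnorm : ‖ze u‖ = 1 := hze.norm'_eq_one hu.ne'
  have huR : (0 : ℝ) < u := by exact_mod_cast hu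
  have huC : (u : ℂ) ≠ 0 := by exact_mod_cast hu.ne'
  refine ⟨fun h => (∑ x ∈ range u, (G (ze u ^ x) : ℂ) * (starRingEnd ℂ) (ze u ^ (h * x))) / u,
    ?_, ?_⟩
  · intro h
    rw [norm_div, Complex.norm_natCast]
    apply div_le_div_of_nonneg_right _ huR.le
    refine (norm_sum_le _ _).trans (le_of_eq ?_)
    apply Finset.sum_congr rfl
    intro x _
    rw [norm_mul, Complex.norm_real, Real.norm_of_nonneg (hG _), RCLike.norm_conj, norm_pow,
      hnorm, one_pow, mul_one]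
  · intro y hy
    haveI : NeZero u := ⟨hu.ne'⟩
    obtain ⟨a, ha, rfl⟩ := hze.eq_pow_of_pow_eq_one hy
    have h1 : ∀ h ∈ range u,
        (∑ x ∈ range u, (G (ze u ^ x) : ℂ) * (starRingEnd ℂ) (ze u ^ (h * x))) / u * (ze u ^ a) ^ h =
        ∑ x ∈ range u, (G (ze u ^ x) : ℂ) / u *
          (ze u ^ (h * a) * (starRingEnd ℂ) (ze u ^ (h * x))) := by
      intro h _
      rw [← pow_mul, mul_comm a h, Finset.sum_div, Finset.sum_mul]
      apply Finset.sum_congr rfl
      intro x _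
      ring
    rw [Finset.sum_congr rfl h1, Finset.sum_comm]
    have h2 : ∀ x ∈ range u, ∑ h ∈ range u, (G (ze u ^ x) : ℂ) / u *
          (ze u ^ (h * a) * (starRingEnd ℂ) (ze u ^ (h * x))) =
          if a = x then (G (ze u ^ x) : ℂ) else 0 := by
      intro x hx
      rw [← Finset.mul_sum, P2_geom u hu (ze u) hze a x ha (Finset.mem_range.mp hx)]
      split_ifs
      · field_simp
      · simp
    rw [Finset.sum_congr rfl h2, Finset.sum_ite_eq, if_pos (Finset.mem_range.mpr ha)]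

lemma P8_sum_inv_sq (u : ℕ) (hu : 0 < u) :
    ∑ d ∈ Icc 1 u, ((d : ℝ) ^ 2)⁻¹ ≤ 2 - (u : ℝ)⁻¹ := by
  induction u, hu using Nat.le_induction with
  | base => norm_num
  | succ n hn ih =>
    rw [Finset.sum_Icc_succ_top (by omega)]
    have hn' : (0 : ℝ) < n := by exact_mod_cast hn
    have h1 : (((n + 1 : ℕ) : ℝ) ^ 2)⁻¹ ≤ (n : ℝ)⁻¹ - ((n + 1 : ℕ) : ℝ)⁻¹ := by
      push_cast
      rw [inv_sub_inv hn'.ne' (by positivity), inv_eq_one_div,
        div_le_div_iff₀ (by positivity) (by positivity)]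
      nlinarith
    linarith

lemma P8_fiber (u : ℕ) (z : ℂ) (hz : IsPrimitiveRoot z u) (d : ℕ) (hd : 0 < d) :
    ((range u).filter (fun h => orderOf (z ^ h) = d)).card ≤ d := by
  classical
  have h1 : ((range u).filter (fun h => orderOf (z ^ h) = d)).card ≤
      (Polynomial.nthRootsFinset d (1 : ℂ)).card := by
    apply Finset.card_le_card_of_injOn (fun h => z ^ h)
    · intro h hh
      rw [Finset.mem_coe, Finset.mem_filter] at hh
      rw [Finset.mem_coe, Polynomial.mem_nthRootsFinset hd]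
      show (z ^ h) ^ d = 1
      rw [← hh.2]
      exact pow_orderOf_eq_one _
    · intro h hh h' hh' heq
      rw [Finset.mem_coe, Finset.mem_filter, Finset.mem_range] at hh hh'
      exact hz.pow_inj hh.1 hh'.1 heq
  refine h1.trans ?_
  unfold Polynomial.nthRootsFinset
  exact (Multiset.toFinset_card_le _).trans (Polynomial.card_nthRoots d 1)

lemma P8_order_sum (u : ℕ) (hu : 0 < u) (z : ℂ) (hz : IsPrimitiveRoot z u) :
    ∑ h ∈ range u, ((orderOf (z ^ h) : ℝ) ^ 3)⁻¹ ≤ 2 := by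
  classical
  have hmem : ∀ h ∈ range u, orderOf (z ^ h) ∈ Icc 1 u := by
    intro h _
    have h1 : orderOf (z ^ h) ∣ u := orderOf_dvd_of_pow_eq_one (by
      rw [← pow_mul, mul_comm, pow_mul, hz.pow_eq_one, one_pow])
    rw [Finset.mem_Icc]
    exact ⟨Nat.pos_of_dvd_of_pos h1 hu, Nat.le_of_dvd hu h1⟩
  rw [← Finset.sum_fiberwise_of_maps_to hmem]
  have h2 : ∀ d ∈ Icc 1 u, ∑ h ∈ (range u).filter (fun h => orderOf (z ^ h) = d),
      ((orderOf (z ^ h) : ℝ) ^ 3)⁻¹ ≤ ((d : ℝ) ^ 2)⁻¹ := by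
    intro d hd
    rw [Finset.mem_Icc] at hd
    have hd0 : (0 : ℝ) < d := by exact_mod_cast hd.1
    have h3 : ∑ h ∈ (range u).filter (fun h => orderOf (z ^ h) = d),
        ((orderOf (z ^ h) : ℝ) ^ 3)⁻¹ =
        ∑ h ∈ (range u).filter (fun h => orderOf (z ^ h) = d), ((d : ℝ) ^ 3)⁻¹ := by
      apply Finset.sum_congr rfl
      intro h hh
      rw [Finset.mem_filter] at hh
      rw [hh.2]
    rw [h3, Finset.sum_const, nsmul_eq_mul]
    have h4 : (((range u).filter (fun h => orderOf (z ^ h) = d)).card : ℝ) ≤ d := by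
      exact_mod_cast P8_fiber u z hz d hd.1
    calc (((range u).filter (fun h => orderOf (z ^ h) = d)).card : ℝ) * ((d : ℝ) ^ 3)⁻¹
        ≤ d * ((d : ℝ) ^ 3)⁻¹ := mul_le_mul_of_nonneg_right h4 (by positivity)
      _ = ((d : ℝ) ^ 2)⁻¹ := by field_simp
  refine (Finset.sum_le_sum h2).trans ?_
  have := P8_sum_inv_sq u hu
  have h5 : (0 : ℝ) ≤ (u : ℝ)⁻¹ := by positivity
  linarith

lemma P8_pattern (u w m : ℕ) (Q : Finset ℕ) (hu : 0 < u) (C : ℝ) (hC : 0 ≤ C)
    (hpat : ∀ d, d ∣ u → ∀ P : List (Fin 8 → Fin ZZ), 2 * w ≤ ngood P → P.length = 4 * w →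
      ∀ z : ℂ, IsPrimitiveRoot z d → ‖avg (GG Q) (4 * w) (fun V => z ^ (Del P V))‖ * (d : ℝ) ^ 3 ≤ C)
    (z : ℂ) (hz : IsPrimitiveRoot z u) (W : List ℕ) (P : List (Fin 8 → Fin ZZ))
    (hP : 2 * w ≤ ngood P) (hPl : P.length = 4 * w) :
    avg (GG Q) (4 * w) (fun V => ‖A W (z ^ (Del P V))‖ ^ (2 * m)) ≤ 2 * C * Mom u W m := by
  obtain ⟨Gh, hGh, hinv⟩ := P8_fourier u hu (fun y => ‖A W y‖ ^ (2 * m)) (fun y => by positivity)
  have hMom : (∑ x ∈ range u, ‖A W (ze u ^ x)‖ ^ (2 * m)) / u = Mom u W m := rfl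
  rw [hMom] at hGh
  have hMom0 : 0 ≤ Mom u W m := by unfold Mom; positivity
  have hz0 : z ≠ 0 := hz.ne_zero hu.ne'
  have h0 : 0 ≤ avg (GG Q) (4 * w) (fun V => ‖A W (z ^ (Del P V))‖ ^ (2 * m)) :=
    avg_nonneg _ _ _ (fun V _ _ => by positivity)
  have h1 : ((avg (GG Q) (4 * w) (fun V => ‖A W (z ^ (Del P V))‖ ^ (2 * m)) : ℝ) : ℂ) =
      ∑ h ∈ range u, Gh h * avg (GG Q) (4 * w) (fun V => (z ^ h) ^ (Del P V)) := by
    rw [← P7_avg_ofReal]
    have h2 : ∀ V : List (Fin ZZ → ℕ), ((‖A W (z ^ (Del P V))‖ ^ (2 * m) : ℝ) : ℂ) =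
        ∑ h ∈ range u, Gh h * (z ^ h) ^ (Del P V) := by
      intro V
      rw [hinv (z ^ (Del P V)) (by
        rw [← zpow_natCast, ← zpow_mul, mul_comm, zpow_mul, zpow_natCast, hz.pow_eq_one,
          one_zpow])]
      apply Finset.sum_congr rfl
      intro h _
      congr 1
      rw [← zpow_natCast, ← zpow_natCast, ← zpow_mul, ← zpow_mul, mul_comm]
    simp only [h2]
    rw [avg_sum]
    apply Finset.sum_congr rfl
    intro h _
    rw [avg_const_mul_complex]
  calc avg (GG Q) (4 * w) (fun V => ‖A W (z ^ (Del P V))‖ ^ (2 * m))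
      = ‖((avg (GG Q) (4 * w) (fun V => ‖A W (z ^ (Del P V))‖ ^ (2 * m)) : ℝ) : ℂ)‖ := by
        rw [Complex.norm_real, Real.norm_of_nonneg h0]
    _ ≤ ∑ h ∈ range u, ‖Gh h * avg (GG Q) (4 * w) (fun V => (z ^ h) ^ (Del P V))‖ := by
        rw [h1]
        exact norm_sum_le _ _
    _ ≤ ∑ h ∈ range u, Mom u W m * (C * ((orderOf (z ^ h) : ℝ) ^ 3)⁻¹) := by
        apply Finset.sum_le_sum
        intro h _
        rw [norm_mul]
        have hdvd : orderOf (z ^ h) ∣ u := orderOf_dvd_of_pow_eq_one (by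
          rw [← pow_mul, mul_comm, pow_mul, hz.pow_eq_one, one_pow])
        have hpos : 0 < orderOf (z ^ h) := Nat.pos_of_dvd_of_pos hdvd hu
        have hposR : (0 : ℝ) < (orderOf (z ^ h) : ℝ) := by exact_mod_cast hpos
        have h3 := hpat (orderOf (z ^ h)) hdvd P hP hPl (z ^ h) (IsPrimitiveRoot.orderOf _)
        apply mul_le_mul (hGh h) _ (norm_nonneg _) hMom0
        rw [← div_eq_mul_inv, le_div_iff₀ (by positivity)]
        exact h3
    _ = Mom u W m * (C * ∑ h ∈ range u, ((orderOf (z ^ h) : ℝ) ^ 3)⁻¹) := by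
        rw [← Finset.mul_sum, ← Finset.mul_sum]
    _ ≤ Mom u W m * (C * 2) := by
        apply mul_le_mul_of_nonneg_left _ hMom0
        exact mul_le_mul_of_nonneg_left (P8_order_sum u hu z hz) hC
    _ = 2 * C * Mom u W m := by ring

theorem ml_large (u w κ m : ℕ) (Q : Finset ℕ) (hu : 0 < u) (C : ℝ) (hC : 0 ≤ C) (hm : 1 ≤ m)
    (hpat : ∀ d, d ∣ u → ∀ P : List (Fin 8 → Fin ZZ), 2 * w ≤ ngood P → P.length = 4 * w →
      ∀ z : ℂ, IsPrimitiveRoot z d → ‖avg (GG Q) (4 * w) (fun V => z ^ (Del P V))‖ * (d : ℝ) ^ 3 ≤ C)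
    (hQ : Q.Nonempty) (z : ℂ) (hz : IsPrimitiveRoot z u) :
    avg Q κ (fun W => avg (GG Q) (4 * w) (fun V => ‖AA V W z‖ ^ (16 * m))) ≤
      2 ^ (2 * m) * ((1 / 2 : ℝ) ^ (20 * w * m) + 2 * C * avg Q κ (fun W => Mom u W m)) := by
  have hnorm : ‖z‖ = 1 := hz.norm'_eq_one hu.ne'
  have hGne := P7_GG_nonempty Q hQ
  -- pointwise in `V`
  have hV : ∀ W : List ℕ, ∀ V : List (Fin ZZ → ℕ), V.length = 4 * w →
      ‖AA V W z‖ ^ (16 * m) ≤ 2 ^ (2 * m) * ((1 / 2 : ℝ) ^ (20 * w * m) +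
        avg (univ : Finset (Fin 8 → Fin ZZ)) (4 * w)
          (fun P => if 2 * w ≤ ngood P then ‖A W (z ^ (Del P V))‖ ^ (2 * m) else 0)) := by
    intro W V hVl
    set a : ℝ := avg (univ : Finset (Fin 8 → Fin ZZ)) (4 * w)
      (fun P => if ngood P < 2 * w then (1:ℝ) else 0) with ha
    set b : ℝ := avg (univ : Finset (Fin 8 → Fin ZZ)) (4 * w)
      (fun P => if 2 * w ≤ ngood P then ‖A W (z ^ (Del P V))‖ else 0) with hb
    have ha0 : 0 ≤ a := avg_nonneg _ _ _ (fun P _ _ => by split_ifs <;> norm_num)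
    have hb0 : 0 ≤ b := avg_nonneg _ _ _ (fun P _ _ => by split_ifs <;> positivity)
    have h1 : ‖AA V W z‖ ^ 8 ≤ a + b := by
      refine (holder V W z hnorm).trans ?_
      rw [ha, hb, ← avg_add, hVl]
      apply avg_mono
      intro P _ _
      by_cases h : ngood P < 2 * w
      · rw [if_pos h, if_neg (by omega), add_zero]
        exact P6_norm_A_le_one W _ (by rw [norm_zpow, hnorm, one_zpow])
      · rw [if_neg h, if_pos (by omega), zero_add]
    have h2 : ‖AA V W z‖ ^ (16 * m) ≤ (a + b) ^ (2 * m) := by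
      have : ‖AA V W z‖ ^ (16 * m) = (‖AA V W z‖ ^ 8) ^ (2 * m) := by
        rw [← pow_mul]; congr 1; ring
      rw [this]
      exact pow_le_pow_left₀ (by positivity) h1 _
    have h3 : (a + b) ^ (2 * m) ≤ 2 ^ (2 * m) * (a ^ (2 * m) + b ^ (2 * m)) := by
      refine (add_pow_le ha0 hb0 (2 * m)).trans ?_
      apply mul_le_mul_of_nonneg_right _ (by positivity)
      exact pow_le_pow_right₀ (by norm_num) (by omega)
    have h4 : a ^ (2 * m) ≤ (1 / 2 : ℝ) ^ (20 * w * m) := by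
      calc a ^ (2 * m) ≤ ((1 / 2 : ℝ) ^ (10 * w)) ^ (2 * m) :=
            pow_le_pow_left₀ ha0 (deg_bound w) _
        _ = (1 / 2 : ℝ) ^ (20 * w * m) := by rw [← pow_mul]; congr 1; ring
    have h5 : b ^ (2 * m) ≤ avg (univ : Finset (Fin 8 → Fin ZZ)) (4 * w)
          (fun P => if 2 * w ≤ ngood P then ‖A W (z ^ (Del P V))‖ ^ (2 * m) else 0) := by
      refine (P8_jensen _ P7_univ_nonempty (4 * w) (2 * m) _ ?_).trans ?_
      · intro P; split_ifs <;> positivity
      · apply avg_mono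
        intro P _ _
        split_ifs
        · exact le_refl _
        · rw [zero_pow (by omega)]
    refine (h2.trans h3).trans ?_
    apply mul_le_mul_of_nonneg_left _ (by positivity)
    linarith
  -- average over `V`
  have hW : ∀ W : List ℕ, avg (GG Q) (4 * w) (fun V => ‖AA V W z‖ ^ (16 * m)) ≤
      2 ^ (2 * m) * ((1 / 2 : ℝ) ^ (20 * w * m) + 2 * C * Mom u W m) := by
    intro W
    have hMom0 : 0 ≤ Mom u W m := by unfold Mom; positivity
    have h1 : avg (GG Q) (4 * w) (fun V => ‖AA V W z‖ ^ (16 * m)) ≤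
        avg (GG Q) (4 * w) (fun V => 2 ^ (2 * m) * ((1 / 2 : ℝ) ^ (20 * w * m) +
        avg (univ : Finset (Fin 8 → Fin ZZ)) (4 * w)
          (fun P => if 2 * w ≤ ngood P then ‖A W (z ^ (Del P V))‖ ^ (2 * m) else 0))) :=
      avg_mono _ _ _ _ (fun V hVl _ => hV W V hVl)
    refine h1.trans ?_
    rw [avg_mul_left, avg_add, avg_const _ hGne]
    apply mul_le_mul_of_nonneg_left _ (by positivity)
    apply add_le_add (le_refl _)
    rw [avg_comm]
    have h2 : avg (univ : Finset (Fin 8 → Fin ZZ)) (4 * w) (fun P => avg (GG Q) (4 * w)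
        (fun V => if 2 * w ≤ ngood P then ‖A W (z ^ (Del P V))‖ ^ (2 * m) else 0)) ≤
        avg (univ : Finset (Fin 8 → Fin ZZ)) (4 * w) (fun _ => 2 * C * Mom u W m) := by
      apply avg_mono
      intro P hPl _
      split_ifs with h
      · exact P8_pattern u w m Q hu C hC hpat z hz W P h hPl
      · rw [avg_zero_fun]
        positivity
    rw [avg_const _ P7_univ_nonempty] at h2
    exact h2
  have hfin : avg Q κ (fun W => avg (GG Q) (4 * w) (fun V => ‖AA V W z‖ ^ (16 * m))) ≤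
      avg Q κ (fun W => 2 ^ (2 * m) * ((1 / 2 : ℝ) ^ (20 * w * m) + 2 * C * Mom u W m)) :=
    avg_mono _ _ _ _ (fun W _ _ => hW W)
  refine hfin.trans (le_of_eq ?_)
  rw [avg_mul_left, avg_add, avg_const _ hQ, avg_mul_left]

end Crest.Agent.E25
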