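import Crest.Agent.E25Defs

set_option autoImplicit false
set_option maxRecDepth 100000

namespace Crest.Agent.E25

open Finset

lemma P9_sum_map_mul (L : List ℕ) (n : ℕ) (z : ℂ) :
    ((L.map (fun d => n * d)).map (fun d => z ^ d)).sum = (L.map (fun d => (z ^ n) ^ d)).sum := by
  rw [List.map_map]
  congr 1
  apply List.map_congr_left
  intro d _
  simp only [Function.comp_apply]
  rw [pow_mul]

lemma P9_A_expand (W : List ℕ) : ∃ L : List ℕ, L ≠ [] ∧ (∀ d ∈ L, d ∣ W.prod) ∧
    ∀ z : ℂ, A W z = (L.map (fun d => z ^ d)).sum / L.length := by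
  induction W with
  | nil => exact ⟨[1], by simp, by simp, by intro z; simp [A]⟩
  | cons n W ih =>
    obtain ⟨L, hL0, hLd, hLA⟩ := ih
    refine ⟨L ++ L.map (fun d => n * d), by simp [hL0], ?_, ?_⟩
    · intro d hd
      rw [List.prod_cons]
      rcases List.mem_append.mp hd with h | h
      · exact Dvd.dvd.mul_left (hLd d h) n
      · obtain ⟨d', hd', rfl⟩ := List.mem_map.mp h
        exact Nat.mul_dvd_mul_left n (hLd d' hd')
    · intro z
      have h1 : A (n :: W) z = (A W z + A W (z ^ n)) / 2 := rfl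
      rw [h1, hLA z, hLA (z ^ n), List.map_append, List.sum_append, P9_sum_map_mul,
        List.length_append, List.length_map]
      have hlen : (L.length : ℂ) ≠ 0 := by
        exact_mod_cast (List.length_pos_of_ne_nil hL0).ne'
      push_cast
      field_simp
      ring

lemma P9_gen (n : ℕ) (g : Fin n → ℕ) (L : List ℕ) (cs : List (Fin n)) (z : ℂ) :
    ((cs.flatMap (fun c => L.map (fun d => g c * d))).map (fun d => z ^ d)).sum =
      (cs.map (fun c => (L.map (fun d => (z ^ (g c)) ^ d)).sum)).sum := by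
  induction cs with
  | nil => simp
  | cons c cs ih =>
    rw [List.flatMap_cons, List.map_append, List.sum_append, ih, P9_sum_map_mul, List.map_cons,
      List.sum_cons]

lemma P9_gen_len (n : ℕ) (g : Fin n → ℕ) (L : List ℕ) (cs : List (Fin n)) :
    (cs.flatMap (fun c => L.map (fun d => g c * d))).length = cs.length * L.length := by
  induction cs with
  | nil => simp
  | cons c cs ih =>
    rw [List.flatMap_cons, List.length_append, ih, List.length_map, List.length_cons]
    ring

lemma P9_step (n : ℕ) (hn : n ≠ 0) (g : Fin n → ℕ) (L : List ℕ) (hL : L ≠ []) (D : ℕ)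
    (hD : ∀ d ∈ L, d ∣ D) : ∃ L' : List ℕ, L' ≠ [] ∧ (∀ d ∈ L', d ∣ (∏ c, g c) * D) ∧
    ∀ z : ℂ, (∑ c : Fin n, (L.map (fun d => (z ^ (g c)) ^ d)).sum / (L.length : ℂ)) / (n : ℂ) =
      (L'.map (fun d => z ^ d)).sum / (L'.length : ℂ) := by
  have hlen := List.length_pos_of_ne_nil hL
  refine ⟨(List.finRange n).flatMap (fun c => L.map (fun d => g c * d)), ?_, ?_, ?_⟩
  · rw [← List.length_pos_iff_ne_nil, P9_gen_len, List.length_finRange]
    positivity
  · intro d hd
    obtain ⟨c, _, hc⟩ := List.mem_flatMap.mp hd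
    obtain ⟨d', hd', rfl⟩ := List.mem_map.mp hc
    exact Nat.mul_dvd_mul (Finset.dvd_prod_of_mem g (Finset.mem_univ c)) (hD d' hd')
  · intro z
    rw [P9_gen, P9_gen_len, List.length_finRange, ← Finset.sum_div]
    have h1 : ((List.finRange n).map (fun c => (L.map (fun d => (z ^ (g c)) ^ d)).sum)).sum =
        ∑ c : Fin n, (L.map (fun d => (z ^ (g c)) ^ d)).sum := by
      rw [Fin.sum_univ_def]
    rw [h1, div_div]
    push_cast
    rw [mul_comm (L.length : ℂ)]

theorem AA_expand (V : List (Fin ZZ → ℕ)) (W : List ℕ) : ∃ L : List ℕ, L ≠ [] ∧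
      (∀ d ∈ L, d ∣ (V.map (fun g => ∏ c : Fin ZZ, g c)).prod * W.prod) ∧
      ∀ z : ℂ, AA V W z = (L.map (fun d => z ^ d)).sum / L.length := by
  induction V with
  | nil =>
    obtain ⟨L, h1, h2, h3⟩ := P9_A_expand W
    exact ⟨L, h1, by simpa using h2, h3⟩
  | cons g V ih =>
    obtain ⟨L, h1, h2, h3⟩ := ih
    obtain ⟨L', h1', h2', h3'⟩ := P9_step ZZ (by norm_num) g L h1 _ h2
    refine ⟨L', h1', ?_, ?_⟩
    · intro d hd
      rw [List.map_cons, List.prod_cons, mul_assoc]
      exact h2' d hd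
    · intro z
      rw [← h3' z]
      have h4 : AA (g :: V) W z = (∑ c : Fin ZZ, AA V W (z ^ (g c))) / ((ZZ : ℕ) : ℂ) := rfl
      rw [h4]
      simp only [h3]

end Crest.Agent.E25
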