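import Crest.Agent.E25P1d
import Crest.Agent.E25P2
import Crest.Agent.E25P3
import Crest.Agent.E25P6
import Crest.Agent.E25P7
import Crest.Agent.E25P8
import Crest.Agent.E25P9
import Crest.Agent.E25P10
import Crest.Agent.E25P11
import Crest.Agent.E25P12
import Crest.Agent.E25P14

set_option autoImplicit false
namespace Crest.Agent.E25
open Finset

/-- the exponent `J` -/
abbrev JJ : ℕ := 2560

theorem P15_hpat (m s u w d : ℕ) (hm : 32 ≤ m) (hs1 : 2 ^ (2 * m) < s) (hs2 : s ≤ 2 ^ (4 * m))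
    (hw : w = s / (80 * m) + 1) (hu : 0 < u) (hus : u ≤ 2 ^ s) (Q : Finset ℕ)
    (hQp : ∀ n ∈ Q, n.Prime) (hQu : ∀ n ∈ Q, n.Coprime u) (hQY : ∀ n ∈ Q, n < 2 ^ (80 * m))
    (hQc : 2 ^ (75 * m) ≤ Q.card) (hd : d ∣ u) :
    ∀ P : List (Fin 8 → Fin ZZ), 2 * w ≤ ngood P → P.length = 4 * w →
      ∀ z : ℂ, IsPrimitiveRoot z d →
        ‖avg (GG Q) (4 * w) (fun V => z ^ (Del P V))‖ ≤ ((2 : ℝ) ^ (80 * m)) ^ 7 / (d : ℝ) ^ 3 := by
  intro P hP hPl z hz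
  have hd0 : 0 < d := Nat.pos_of_dvd_of_pos hd hu
  have hdu : d ≤ u := Nat.le_of_dvd hu hd
  have hQ : Q.Nonempty := by
    rw [← Finset.card_pos]
    exact lt_of_lt_of_le (by positivity) hQc
  have hQd : ∀ n ∈ Q, n.Coprime d := fun n hn => Nat.Coprime.coprime_dvd_right hd (hQu n hn)
  have hm80 : 0 < 80 * m := by omega
  have hw1 : 1 ≤ w := by rw [hw]; exact Nat.le_add_left 1 _
  have hsw : s < 80 * m * w := by
    rw [hw]
    have := Nat.lt_div_mul_add (a := s) hm80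
    nlinarith
  have hws : w ≤ 2 ^ (4 * m) := by
    have h1 : s / (80 * m) ≤ s / 2 := Nat.div_le_div_left (by omega) (by omega)
    have h2 : 2 ≤ s := by
      have : 1 ≤ 2 ^ (2 * m) := Nat.one_le_two_pow
      omega
    omega
  rw [← hPl]
  apply pattern_bound Q d (2 * w) _ (by positivity) hd0 hQd hQ _ P hP z hz
  intro r hr z' hz'
  have h3 := psi_bound (2 ^ (80 * m)) w d r Q (by
      calc 2 = 2 ^ 1 := by norm_num
        _ ≤ 2 ^ (80 * m) := Nat.pow_le_pow_right (by norm_num) (by omega)) hd0 hw1 hQp hQd hQY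
    (by
      calc d ≤ 2 ^ s := hdu.trans hus
        _ < 2 ^ (80 * m * (w + 1)) := Nat.pow_lt_pow_right (by norm_num) (by nlinarith)
        _ = _ := by rw [pow_mul]) hr
    (by
      calc w ^ 8 * (2 ^ (80 * m)) ^ 7 ≤ (2 ^ (4 * m)) ^ 8 * (2 ^ (80 * m)) ^ 7 := by gcongr
        _ = 2 ^ (592 * m) := by rw [← pow_mul, ← pow_mul, ← pow_add]; congr 1; ring
        _ ≤ 2 ^ (600 * m) := Nat.pow_le_pow_right (by norm_num) (by omega)
        _ = (2 ^ (75 * m)) ^ 8 := by rw [← pow_mul]; congr 1; ring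
        _ ≤ Q.card ^ 8 := by gcongr) z' hz'
  have hdr : (0 : ℝ) < (d : ℝ) ^ 3 := by positivity
  rw [le_div_iff₀ hdr]
  push_cast at h3
  exact h3


/-- arithmetic for the small range -/
theorem P15_small_arith (m u w : ℕ) (E : ℝ) (hm : 32 ≤ m) (hu1 : 2 ^ (640 * m) ≤ u) (hu2 : u ≤ 2 ^ (3 * w))
    (hE0 : 0 ≤ E) (hE : E ≤ (1 / 2 : ℝ) ^ (10 * w) + ((2 : ℝ) ^ (80 * m)) ^ 7 / (u : ℝ) ^ 3) :
    (16 * m * E) ^ JJ * (u : ℝ) ^ 4 ≤ 1 := by
  have hu0 : (0 : ℝ) < u := by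
    have : 0 < u := lt_of_lt_of_le (by positivity) hu1
    exact_mod_cast this
  have hu1r : (2 : ℝ) ^ (640 * m) ≤ u := by exact_mod_cast hu1
  have hu2r : (u : ℝ) ≤ 2 ^ (3 * w) := by exact_mod_cast hu2
  have h1 : (1 / 2 : ℝ) ^ (10 * w) ≤ 1 / (u : ℝ) ^ 3 := by
    rw [div_pow, one_pow]
    apply one_div_le_one_div_of_le (by positivity)
    calc (u : ℝ) ^ 3 ≤ (2 ^ (3 * w)) ^ 3 := by gcongr
      _ = 2 ^ (9 * w) := by rw [← pow_mul]; congr 1; ring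
      _ ≤ 2 ^ (10 * w) := pow_le_pow_right₀ (by norm_num) (by omega)
  have h2 : E ≤ 2 * ((2 : ℝ) ^ (80 * m)) ^ 7 / (u : ℝ) ^ 3 := by
    have h3 : (1 : ℝ) ≤ ((2 : ℝ) ^ (80 * m)) ^ 7 := one_le_pow₀ (one_le_pow₀ (by norm_num))
    calc E ≤ 1 / (u : ℝ) ^ 3 + ((2 : ℝ) ^ (80 * m)) ^ 7 / (u : ℝ) ^ 3 := by linarith
      _ ≤ ((2 : ℝ) ^ (80 * m)) ^ 7 / (u : ℝ) ^ 3 + ((2 : ℝ) ^ (80 * m)) ^ 7 / (u : ℝ) ^ 3 := by
          gcongr
      _ = _ := by ring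
  have hmr : (m : ℝ) ≤ 2 ^ m := by
    have := (Nat.lt_two_pow_self (n := m)).le
    exact_mod_cast this
  have h4 : 16 * m * E ≤ 1 / u := by
    have h5 : 16 * (m : ℝ) * (2 * ((2 : ℝ) ^ (80 * m)) ^ 7) ≤ (u : ℝ) ^ 2 := by
      calc 16 * (m : ℝ) * (2 * ((2 : ℝ) ^ (80 * m)) ^ 7)
          ≤ 16 * 2 ^ m * (2 * ((2 : ℝ) ^ (80 * m)) ^ 7) := by gcongr
        _ = 2 ^ (561 * m + 5) := by rw [← pow_mul]; ring
        _ ≤ 2 ^ (1280 * m) := pow_le_pow_right₀ (by norm_num) (by omega)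
        _ = (2 ^ (640 * m)) ^ 2 := by rw [← pow_mul]; congr 1; ring
        _ ≤ (u : ℝ) ^ 2 := by gcongr
    calc 16 * m * E ≤ 16 * m * (2 * ((2 : ℝ) ^ (80 * m)) ^ 7 / (u : ℝ) ^ 3) := by gcongr
      _ = (16 * (m : ℝ) * (2 * ((2 : ℝ) ^ (80 * m)) ^ 7)) / (u : ℝ) ^ 3 := by ring
      _ ≤ (u : ℝ) ^ 2 / (u : ℝ) ^ 3 := by gcongr
      _ = 1 / u := by field_simp
  have hu1' : (1 : ℝ) ≤ u := by
    refine le_trans ?_ hu1r
    exact one_le_pow₀ (by norm_num)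
  calc (16 * m * E) ^ JJ * (u : ℝ) ^ 4 ≤ (1 / u) ^ JJ * (u : ℝ) ^ 4 := by gcongr
    _ ≤ (1 / u) ^ 4 * (u : ℝ) ^ 4 := by
        apply mul_le_mul_of_nonneg_right _ (by positivity)
        apply pow_le_pow_of_le_one (by positivity) _ (by norm_num [JJ])
        rw [div_le_one hu0]; exact hu1'
    _ = 1 := by field_simp

theorem P15_theta (i : ℕ) (hi : 32 ≤ 2 ^ i) (κ : ℕ) :
    ((5 / 8 : ℝ) ^ (2 ^ i) * 2) ^ κ ≤ (1 / 2 : ℝ) ^ (2 ^ i / 2 * κ) := by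
  obtain ⟨m', hm'⟩ : ∃ m', 2 ^ i = 2 * m' := by
    cases i with
    | zero => norm_num at hi
    | succ j => exact ⟨2 ^ j, by ring⟩
  rw [hm'] at hi ⊢
  have h1 : 2 * m' / 2 = m' := by omega
  rw [h1, pow_mul (1 / 2 : ℝ) m' κ]
  apply pow_le_pow_left₀ (by positivity)
  have h2 : (5 / 8 : ℝ) ^ (2 * m') * 2 = (1 / 2 : ℝ) ^ m' * ((25 / 32 : ℝ) ^ m' * 2) := by
    rw [pow_mul, ← mul_assoc, ← mul_pow]
    norm_num
  rw [h2]
  have h3 : (25 / 32 : ℝ) ^ m' * 2 ≤ 1 := by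
    have : (25 / 32 : ℝ) ^ m' ≤ (25 / 32 : ℝ) ^ 3 :=
      pow_le_pow_of_le_one (by norm_num) (by norm_num) (by omega)
    have h4 : (25 / 32 : ℝ) ^ 3 ≤ 1 / 2 := by norm_num
    linarith
  calc (1 / 2 : ℝ) ^ m' * ((25 / 32 : ℝ) ^ m' * 2) ≤ (1 / 2 : ℝ) ^ m' * 1 := by gcongr
    _ = _ := mul_one _


theorem P15_pow_bound (m : ℕ) (hm : 32 ≤ m) : 2 ^ 40 * m ^ 3 ≤ 2 ^ (2 * m) := by
  have h1 : ∀ k : ℕ, 2 ^ 40 * (32 + k) ^ 3 ≤ 2 ^ (2 * (32 + k)) := by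
    intro k
    induction k with
    | zero => norm_num
    | succ k ih =>
      have h2 : 2 ^ (2 * (32 + (k + 1))) = 4 * 2 ^ (2 * (32 + k)) := by
        rw [show 2 * (32 + (k + 1)) = 2 * (32 + k) + 2 by ring, pow_add]; ring
      rw [h2]
      have h3 : (32 + (k + 1)) ^ 3 ≤ 4 * (32 + k) ^ 3 := by
        have h4 : 2 * (32 + (k + 1)) ≤ 3 * (32 + k) := by omega
        have h5 : (2 * (32 + (k + 1))) ^ 3 ≤ (3 * (32 + k)) ^ 3 := Nat.pow_le_pow_left h4 3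
        rw [mul_pow, mul_pow] at h5
        have : 0 ≤ (32 + k) ^ 3 := Nat.zero_le _
        omega
      calc 2 ^ 40 * (32 + (k + 1)) ^ 3 ≤ 2 ^ 40 * (4 * (32 + k) ^ 3) := by gcongr
        _ = 4 * (2 ^ 40 * (32 + k) ^ 3) := by ring
        _ ≤ 4 * 2 ^ (2 * (32 + k)) := by gcongr
  obtain ⟨k, rfl⟩ := Nat.exists_eq_add_of_le hm
  exact h1 k

/-- arithmetic for the large range -/
theorem P15_large_arith (m s u w κ L : ℕ) (E : ℝ) (hm : 32 ≤ m) (hme : 2 * (m / 2) = m)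
    (hs1 : 2 ^ (2 * m) < s)
    (hw : w = s / (80 * m) + 1) (hL2 : u < 2 ^ (L + 1)) (hLw : 3 * w ≤ L) (hLs : L ≤ s)
    (hκ : κ = (L - m - 2) / (80 * m)) (hE0 : 0 ≤ E)
    (hE : E ≤ 2 ^ (2 * m) * ((1 / 2 : ℝ) ^ (20 * w * m) + 2 * ((2 : ℝ) ^ (80 * m)) ^ 7 *
      ((1 / 2 : ℝ) ^ (m / 2 * κ) * 2 ^ (6 * m ^ 2)))) :
    (16 * m * E) ^ JJ * (u : ℝ) ^ 4 ≤ 1 := by
  have hm80 : 0 < 80 * m := by omega
  -- size of L
  have hw2 : s ≤ 80 * m * w := by
    rw [hw]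
    have := Nat.lt_div_mul_add (a := s) hm80
    nlinarith
  have hpow := P15_pow_bound m hm
  have hmm : 32 * m ≤ m ^ 2 := by nlinarith
  have hLbig : 320 * (7 * m ^ 2 + 600 * m + 20) ≤ L := by
    have h3 : 10 ^ 6 * m ^ 2 < w := by
      by_contra hcon
      push Not at hcon
      have h4 : 80 * m * w ≤ 80 * m * (10 ^ 6 * m ^ 2) := by gcongr
      have h5 : 80 * m * (10 ^ 6 * m ^ 2) ≤ 2 ^ 40 * m ^ 3 := by
        calc 80 * m * (10 ^ 6 * m ^ 2) = (80 * 10 ^ 6) * m ^ 3 := by ring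
          _ ≤ 2 ^ 40 * m ^ 3 := by gcongr; norm_num
      omega
    omega
  -- the exponent e
  set e := L / 320 with he
  set m' := m / 2 with hm'
  have he1 : 320 * e ≤ L := by rw [he]; exact Nat.mul_div_le L 320
  have he2 : L < 320 * e + 320 := by rw [he]; omega
  have hexp1 : e + 3 * m + 5 ≤ 20 * w * m := by
    have : 4 * (20 * w * m) = 80 * m * w := by ring
    omega
  have hexp2 : e + 563 * m + 6 * m ^ 2 + 6 ≤ m' * κ := by
    have h1 : L - m - 2 < 80 * m * (κ + 1) := by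
      rw [hκ]
      have := Nat.lt_div_mul_add (a := L - m - 2) hm80
      nlinarith
    have h2 : 160 * (m' * κ) + 80 * m = 80 * m * (κ + 1) := by
      calc 160 * (m' * κ) + 80 * m = 80 * (2 * m') * κ + 80 * m := by ring
        _ = 80 * m * κ + 80 * m := by rw [hme]
        _ = _ := by ring
    omega
  have hmr : (m : ℝ) ≤ 2 ^ m := by
    have := (Nat.lt_two_pow_self (n := m)).le
    exact_mod_cast this
  have hkey : 16 * m * E ≤ (1 / 2 : ℝ) ^ e := by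
    have h1 : 16 * m * E ≤ 2 ^ (3 * m + 4) * ((1 / 2 : ℝ) ^ (20 * w * m) +
        2 ^ (560 * m + 6 * m ^ 2 + 1) * (1 / 2 : ℝ) ^ (m' * κ)) := by
      calc 16 * m * E ≤ 16 * 2 ^ m * (2 ^ (2 * m) * ((1 / 2 : ℝ) ^ (20 * w * m) + 2 * ((2 : ℝ) ^ (80 * m)) ^ 7 *
      ((1 / 2 : ℝ) ^ (m / 2 * κ) * 2 ^ (6 * m ^ 2)))) := by
            apply mul_le_mul _ hE hE0 (by positivity)
            gcongr
        _ = _ := by
            rw [← hm', ← pow_mul, show 3 * m + 4 = m + 2 * m + 4 by ring,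
              show 560 * m + 6 * m ^ 2 + 1 = 80 * m * 7 + 6 * m ^ 2 + 1 by ring]
            simp only [pow_add]
            ring
    have h2 : (2 : ℝ) ^ (3 * m + 4) * (1 / 2 : ℝ) ^ (20 * w * m) ≤ (1 / 2) * (1 / 2 : ℝ) ^ e := by
      have h3 : (1 / 2 : ℝ) ^ (20 * w * m) ≤ (1 / 2 : ℝ) ^ (e + 3 * m + 5) :=
        pow_le_pow_of_le_one (by norm_num) (by norm_num) hexp1
      calc (2 : ℝ) ^ (3 * m + 4) * (1 / 2 : ℝ) ^ (20 * w * m)
          ≤ (2 : ℝ) ^ (3 * m + 4) * (1 / 2 : ℝ) ^ (e + 3 * m + 5) := by gcongr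
        _ = ((2 : ℝ) * (1 / 2)) ^ (3 * m + 4) * ((1 / 2) * (1 / 2 : ℝ) ^ e) := by
            rw [mul_pow, show e + 3 * m + 5 = (3 * m + 4) + 1 + e by ring]
            simp only [pow_add, pow_one]
            ring
        _ = _ := by norm_num
    have h4 : (2 : ℝ) ^ (3 * m + 4) * (2 ^ (560 * m + 6 * m ^ 2 + 1) * (1 / 2 : ℝ) ^ (m' * κ)) ≤
        (1 / 2) * (1 / 2 : ℝ) ^ e := by
      have h3 : (1 / 2 : ℝ) ^ (m' * κ) ≤ (1 / 2 : ℝ) ^ (e + 563 * m + 6 * m ^ 2 + 6) :=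
        pow_le_pow_of_le_one (by norm_num) (by norm_num) hexp2
      calc (2 : ℝ) ^ (3 * m + 4) * (2 ^ (560 * m + 6 * m ^ 2 + 1) * (1 / 2 : ℝ) ^ (m' * κ))
          ≤ (2 : ℝ) ^ (3 * m + 4) * (2 ^ (560 * m + 6 * m ^ 2 + 1) *
            (1 / 2 : ℝ) ^ (e + 563 * m + 6 * m ^ 2 + 6)) := by gcongr
        _ = ((2 : ℝ) * (1 / 2)) ^ (563 * m + 6 * m ^ 2 + 5) * ((1 / 2) * (1 / 2 : ℝ) ^ e) := by
            rw [mul_pow, show e + 563 * m + 6 * m ^ 2 + 6 = (563 * m + 6 * m ^ 2 + 5) + 1 + e by ring,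
              show 563 * m + 6 * m ^ 2 + 5 = (3 * m + 4) + (560 * m + 6 * m ^ 2 + 1) by ring]
            simp only [pow_add, pow_one]
            ring
        _ = _ := by norm_num
    calc 16 * m * E ≤ _ := h1
      _ = (2 : ℝ) ^ (3 * m + 4) * (1 / 2 : ℝ) ^ (20 * w * m) +
          (2 : ℝ) ^ (3 * m + 4) * (2 ^ (560 * m + 6 * m ^ 2 + 1) * (1 / 2 : ℝ) ^ (m' * κ)) := by ring
      _ ≤ _ := by linarith
  have hur : (u : ℝ) ≤ 2 ^ (L + 1) := by exact_mod_cast hL2.le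
  calc (16 * m * E) ^ JJ * (u : ℝ) ^ 4 ≤ ((1 / 2 : ℝ) ^ e) ^ JJ * (2 ^ (L + 1)) ^ 4 := by gcongr
    _ = (1 / 2 : ℝ) ^ (2560 * e) * 2 ^ (4 * (L + 1)) := by
        rw [← pow_mul, ← pow_mul]
        congr 2 <;> ring
    _ ≤ (1 / 2 : ℝ) ^ (4 * (L + 1)) * 2 ^ (4 * (L + 1)) := by
        apply mul_le_mul_of_nonneg_right _ (by positivity)
        apply pow_le_pow_of_le_one (by norm_num) (by norm_num)
        omega
    _ = 1 := by rw [← mul_pow]; norm_num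

/-- The main bound. -/
theorem ML (i s u : ℕ) (hi : 32 ≤ 2 ^ i) (hs1 : 2 ^ (2 * 2 ^ i) < s) (hs2 : s ≤ 2 ^ (4 * 2 ^ i))
    (hu1 : 2 ^ (640 * 2 ^ i) ≤ u) (hus : u ≤ 2 ^ s) (Q : Finset ℕ)
    (hQp : ∀ n ∈ Q, n.Prime) (hQu : ∀ n ∈ Q, n.Coprime u) (hQY : ∀ n ∈ Q, n < 2 ^ (80 * 2 ^ i))
    (hQc : 2 ^ (75 * 2 ^ i) ≤ Q.card) (z : ℂ) (hz : IsPrimitiveRoot z u) (w : ℕ)
    (hw : w = s / (80 * 2 ^ i) + 1) :
    (16 * (2 ^ i : ℕ) * avg Q w (fun W => avg (GG Q) (4 * w) (fun V => ‖AA V W z‖ ^ (16 * 2 ^ i)))) ^ JJ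
      * (u : ℝ) ^ 4 ≤ 1 := by
  obtain ⟨m, hm⟩ : ∃ m, m = 2 ^ i := ⟨_, rfl⟩
  have hme : 2 * (m / 2) = m := by
    cases i with
    | zero => norm_num at hi
    | succ j => rw [hm, pow_succ]; omega
  have him : i ≤ m := by rw [hm]; exact (Nat.lt_two_pow_self).le
  have hmi : (2 ^ i : ℕ) = m := hm.symm
  rw [hmi] at hi hs1 hs2 hu1 hQY hQc hw ⊢
  have hu : 0 < u := lt_of_lt_of_le (by positivity) hu1
  have hQ : Q.Nonempty := by
    rw [← Finset.card_pos]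
    exact lt_of_lt_of_le (by positivity) hQc
  have hm80 : 0 < 80 * m := by omega
  set Y7 : ℝ := ((2 : ℝ) ^ (80 * m)) ^ 7 with hY7
  have hY7pos : 0 < Y7 := by positivity
  have hE0 : ∀ z : ℂ, 0 ≤ avg Q w (fun W => avg (GG Q) (4 * w) (fun V => ‖AA V W z‖ ^ (16 * m))) :=
    fun z => avg_nonneg _ _ _ (fun W _ _ => avg_nonneg _ _ _ (fun V _ _ => by positivity))
  by_cases hcase : u ≤ 2 ^ (3 * w)
  · -- small range
    apply P15_small_arith m u w _ hi hu1 hcase (hE0 z)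
    have h1 : ∀ z : ℂ, IsPrimitiveRoot z u →
        avg Q 0 (fun W => avg (GG Q) (4 * w) (fun V => ‖AA V W z‖ ^ 8)) ≤
          (1 / 2 : ℝ) ^ (10 * w) + Y7 / (u : ℝ) ^ 3 := by
      intro z' hz'
      rw [avg_zero]
      exact ml_small u w Q hu (Y7 / (u : ℝ) ^ 3) (by positivity)
        (P15_hpat m s u w u (by omega) hs1 hs2 hw hu hus Q hQp hQu hQY hQc (dvd_refl u)) hQ z' hz'
    have h2 := ml_mono_W u hu Q hQu hQ 8 (4 * w) 0 w (Nat.zero_le _) _ h1 z hz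
    refine le_trans ?_ h2
    apply avg_mono
    intro W _ _
    apply avg_mono
    intro V _ _
    apply pow_le_pow_of_le_one (norm_nonneg _) _ (by omega)
    exact norm_AA_le_one V W z (hz.norm'_eq_one hu.ne')
  · -- large range
    push Not at hcase
    set L := Nat.log 2 u with hL
    have hL1 : 2 ^ L ≤ u := Nat.pow_log_le_self 2 hu.ne'
    have hL2 : u < 2 ^ (L + 1) := Nat.lt_pow_succ_log_self (by norm_num) u
    have hLw : 3 * w ≤ L := by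
      have : 3 * w < L + 1 := (Nat.pow_lt_pow_iff_right (by norm_num : 1 < 2)).mp (hcase.trans hL2)
      omega
    have hLs : L ≤ s := by
      have : 2 ^ L ≤ 2 ^ s := hL1.trans hus
      exact (Nat.pow_le_pow_iff_right (by norm_num)).mp this
    have hL640 : 640 * m ≤ L := by
      have : 2 ^ (640 * m) < 2 ^ (L + 1) := lt_of_le_of_lt hu1 hL2
      have := (Nat.pow_lt_pow_iff_right (by norm_num : 1 < 2)).mp this
      omega
    set κ := (L - m - 2) / (80 * m) with hκ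
    have hκL : 80 * m * κ ≤ L - m - 2 := Nat.mul_div_le _ _
    have hκw : κ ≤ w := by
      rw [hκ, hw]
      have : (L - m - 2) / (80 * m) ≤ s / (80 * m) := Nat.div_le_div_right (by omega)
      omega
    apply P15_large_arith m s u w κ L _ hi hme hs1 hw hL2 hLw hLs hκ (hE0 z)
    -- moment bound
    have hmom : avg Q κ (fun W => Mom u W m) ≤ (1 / 2 : ℝ) ^ (m / 2 * κ) * 2 ^ (6 * m ^ 2) := by
      have h1 := moment_bound u (2 ^ (80 * m)) κ i Q hu Nat.one_le_two_pow hQp hQu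
        (fun n hn => (hQY n hn).le)
        (by
          rw [hmi]
          calc 2 * m * (2 ^ (80 * m)) ^ κ ≤ 2 * 2 ^ m * (2 ^ (80 * m)) ^ κ := by
                gcongr; exact (Nat.lt_two_pow_self).le
            _ = 2 ^ (1 + m + 80 * m * κ) := by rw [← pow_mul]; ring
            _ ≤ 2 ^ (L - 1) := Nat.pow_le_pow_right (by norm_num) (by omega)
            _ < 2 ^ L := Nat.pow_lt_pow_right (by norm_num) (by omega)
            _ ≤ u := hL1)
        (by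
          rw [hmi]
          have h2 : Nat.log 2 (m * (2 ^ (80 * m)) ^ κ) + 1 ≤ L + 1 := by
            have : m * (2 ^ (80 * m)) ^ κ ≤ 2 ^ L := by
              calc m * (2 ^ (80 * m)) ^ κ ≤ 2 ^ m * (2 ^ (80 * m)) ^ κ := by
                    gcongr; exact (Nat.lt_two_pow_self).le
                _ = 2 ^ (m + 80 * m * κ) := by rw [← pow_mul]; ring
                _ ≤ 2 ^ L := Nat.pow_le_pow_right (by norm_num) (by omega)
            have h3 := Nat.log_mono_right (b := 2) this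
            rw [Nat.log_pow (by norm_num)] at h3
            omega
          have h3 : L + 1 ≤ 2 ^ (4 * m + 1) := by
            have : 1 ≤ 2 ^ (4 * m) := Nat.one_le_two_pow
            rw [pow_succ]
            omega
          calc 16 * 256 ^ m * (Nat.log 2 (m * (2 ^ (80 * m)) ^ κ) + 1) * 2 ^ m
              ≤ 16 * 256 ^ m * 2 ^ (4 * m + 1) * 2 ^ m := by
                gcongr; exact h2.trans h3
            _ = 2 ^ (13 * m + 5) := by
                rw [show (256 : ℕ) = 2 ^ 8 by norm_num, ← pow_mul]; ring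
            _ ≤ 2 ^ (75 * m) := Nat.pow_le_pow_right (by norm_num) (by omega)
            _ ≤ Q.card := hQc)
      rw [hmi] at h1
      refine h1.trans ?_
      apply mul_le_mul _ _ (by positivity) (by positivity)
      · have h2 := P15_theta i (by rw [hmi]; exact hi) κ
        rw [hmi] at h2
        exact h2
      · rw [show (64 : ℝ) = 2 ^ 6 by norm_num, ← pow_mul]
        apply pow_le_pow_right₀ (by norm_num)
        nlinarith
    have hlarge : ∀ z : ℂ, IsPrimitiveRoot z u →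
        avg Q κ (fun W => avg (GG Q) (4 * w) (fun V => ‖AA V W z‖ ^ (16 * m))) ≤
        2 ^ (2 * m) * ((1 / 2 : ℝ) ^ (20 * w * m) + 2 * Y7 *
          ((1 / 2 : ℝ) ^ (m / 2 * κ) * 2 ^ (6 * m ^ 2))) := by
      intro z' hz'
      refine (ml_large u w κ m Q hu Y7 hY7pos.le (by omega) ?_ hQ z' hz').trans ?_
      · intro d hd P hP hPl z'' hz''
        have h3 := P15_hpat m s u w d (by omega) hs1 hs2 hw hu hus Q hQp hQu hQY hQc hd P hP hPl z'' hz''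
        have hd0 : 0 < d := Nat.pos_of_dvd_of_pos hd hu
        rwa [le_div_iff₀ (by positivity)] at h3
      · gcongr
    exact ml_mono_W u hu Q hQu hQ (16 * m) (4 * w) κ w hκw _ hlarge z hz

end Crest.Agent.E25
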