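import Crest.Agent.E25Defs

set_option autoImplicit false

namespace Crest.Agent.E25

open Finset

/-- representation of `G` on `Z` as a finite sum of monomials with nonnegative coefficients and
exponents in `[a,b]`. -/
def P1a_PD (a b : ℤ) (Z : Set ℂ) (G : ℂ → ℂ) : Prop :=
  ∃ (ι : Type) (_ : Fintype ι) (c : ι → ℝ) (e : ι → ℤ), (∀ i, 0 ≤ c i) ∧
    (∀ i, a ≤ e i ∧ e i ≤ b) ∧ ∀ z ∈ Z, G z = ∑ i, (c i : ℂ) * z ^ (e i)

lemma P1a_PD.mono {a b a' b' : ℤ} {Z : Set ℂ} {G : ℂ → ℂ} (h : P1a_PD a b Z G) (ha : a' ≤ a)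
    (hb : b ≤ b') : P1a_PD a' b' Z G := by
  obtain ⟨ι, inst, c, e, hc, he, hG⟩ := h
  exact ⟨ι, inst, c, e, hc, fun i => ⟨ha.trans (he i).1, (he i).2.trans hb⟩, hG⟩

lemma P1a_PD.mul {a b a' b' : ℤ} {Z : Set ℂ} (hZ : ∀ z ∈ Z, z ≠ 0) {G G' : ℂ → ℂ}
    (h : P1a_PD a b Z G) (h' : P1a_PD a' b' Z G') :
    P1a_PD (a + a') (b + b') Z (fun z => G z * G' z) := by
  obtain ⟨ι, inst, c, e, hc, he, hG⟩ := h
  obtain ⟨ι', inst', c', e', hc', he', hG'⟩ := h'
  refine ⟨ι × ι', inferInstance, fun p => c p.1 * c' p.2, fun p => e p.1 + e' p.2,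
    fun p => mul_nonneg (hc _) (hc' _), fun p => ⟨add_le_add (he _).1 (he' _).1,
      add_le_add (he _).2 (he' _).2⟩, ?_⟩
  intro z hz
  show G z * G' z = _
  rw [hG z hz, hG' z hz, Fintype.sum_mul_sum, Fintype.sum_prod_type]
  apply Finset.sum_congr rfl
  intro i _
  apply Finset.sum_congr rfl
  intro j _
  rw [zpow_add₀ (hZ z hz)]
  push_cast
  ring

lemma P1a_PD.pow {M : ℤ} {Z : Set ℂ} (hZ : ∀ z ∈ Z, z ≠ 0) {G : ℂ → ℂ}
    (h : P1a_PD (-M) M Z G) (k : ℕ) : P1a_PD (-(k * M)) (k * M) Z (fun z => G z ^ k) := by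
  induction k with
  | zero =>
    refine ⟨Unit, inferInstance, fun _ => 1, fun _ => 0, fun _ => zero_le_one, fun _ => ?_, ?_⟩
    · simp
    · intro z _
      simp
  | succ k ih =>
    have h1 := ih.mul hZ h
    have h2 : (fun z => G z ^ k * G z) = fun z => G z ^ (k + 1) := by
      funext z
      rw [pow_succ]
    rw [h2] at h1
    refine h1.mono ?_ ?_
    · push_cast
      linarith
    · push_cast
      linarith

lemma P1a_PD_A (W : List ℕ) (hW : ∀ n ∈ W, 1 ≤ n) :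
    P1a_PD 1 (W.prod : ℤ) Set.univ (A W) := by
  induction W with
  | nil =>
    refine ⟨Unit, inferInstance, fun _ => 1, fun _ => 1, fun _ => zero_le_one, fun _ => ?_, ?_⟩
    · simp
    · intro z _
      simp [A]
  | cons n W ih =>
    obtain ⟨ι, inst, c, e, hc, he, hG⟩ := ih (fun m hm => hW m (List.mem_cons_of_mem _ hm))
    have hn : (1 : ℤ) ≤ n := by exact_mod_cast hW n (by simp)
    refine ⟨ι ⊕ ι, inferInstance, Sum.elim (fun i => c i / 2) (fun i => c i / 2),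
      Sum.elim e (fun i => n * e i), ?_, ?_, ?_⟩
    · rintro (i | i)
      · exact div_nonneg (hc i) zero_le_two
      · exact div_nonneg (hc i) zero_le_two
    · rintro (i | i)
      · simp only [Sum.elim_inl, List.prod_cons]
        refine ⟨(he i).1, ?_⟩
        rw [Nat.cast_mul]
        nlinarith [(he i).1, (he i).2]
      · simp only [Sum.elim_inr, List.prod_cons]
        rw [Nat.cast_mul]
        constructor
        · nlinarith [(he i).1, (he i).2]
        · nlinarith [(he i).1, (he i).2]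
    · intro z _
      rw [Fintype.sum_sum_type]
      simp only [Sum.elim_inl, Sum.elim_inr]
      show (A W z + A W (z ^ n)) / 2 = _
      rw [hG z trivial, hG (z ^ n) trivial, add_div, Finset.sum_div, Finset.sum_div]
      congr 1
      · apply Finset.sum_congr rfl
        intro i _
        push_cast
        ring
      · apply Finset.sum_congr rfl
        intro i _
        rw [zpow_mul, zpow_natCast]
        push_cast
        ring

lemma P1a_to_nu {a b : ℤ} {Z : Set ℂ} {G : ℂ → ℂ} (h : P1a_PD a b Z G) :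
    ∃ ν : ℤ → ℝ, (∀ h, 0 ≤ ν h) ∧ (∀ h : ℤ, (h < a ∨ b < h) → ν h = 0) ∧
      ∀ z ∈ Z, G z = ∑ h ∈ Icc a b, (ν h : ℂ) * z ^ h := by
  classical
  obtain ⟨ι, inst, c, e, hc, he, hG⟩ := h
  refine ⟨fun h => ∑ i, if e i = h then c i else 0, ?_, ?_, ?_⟩
  · intro h
    apply Finset.sum_nonneg
    intro i _
    split_ifs
    · exact hc i
    · exact le_refl _
  · intro h hh
    apply Finset.sum_eq_zero
    intro i _
    rw [if_neg]
    rintro rfl
    rcases hh with h1 | h1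
    · exact absurd (he i).1 (not_le.2 h1)
    · exact absurd (he i).2 (not_le.2 h1)
  · intro z hz
    rw [hG z hz]
    have h1 : ∀ h : ℤ, (((∑ i, if e i = h then c i else 0 : ℝ)) : ℂ) * z ^ h =
        ∑ i, if e i = h then (c i : ℂ) * z ^ h else 0 := by
      intro h
      push_cast
      rw [Finset.sum_mul]
      apply Finset.sum_congr rfl
      intro i _
      split_ifs
      · rfl
      · simp
    rw [Finset.sum_congr rfl (fun h _ => h1 h), Finset.sum_comm]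
    apply Finset.sum_congr rfl
    intro i _
    rw [Finset.sum_ite_eq, if_pos (Finset.mem_Icc.2 (he i))]

theorem pd_rep_A (W : List ℕ) (hW : ∀ n ∈ W, 1 ≤ n) :
    ∃ ν : ℤ → ℝ, (∀ h, 0 ≤ ν h) ∧ (∀ h : ℤ, (h ≤ 0 ∨ (W.prod : ℤ) < h) → ν h = 0) ∧
      ∀ z : ℂ, A W z = ∑ h ∈ Icc (1:ℤ) (W.prod : ℤ), (ν h : ℂ) * z ^ h := by
  obtain ⟨ν, h1, h2, h3⟩ := P1a_to_nu (P1a_PD_A W hW)
  refine ⟨ν, h1, ?_, fun z => h3 z trivial⟩
  intro h hh
  apply h2
  rcases hh with hh | hh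
  · left; linarith
  · right; exact hh

theorem pd_rep (W : List ℕ) (hW : ∀ n ∈ W, 1 ≤ n) (k : ℕ) :
    ∃ ν : ℤ → ℝ, (∀ h, 0 ≤ ν h) ∧ (∀ h : ℤ, ((2 * k * W.prod : ℕ) : ℤ) < |h| → ν h = 0) ∧
      ∀ z : ℂ, ‖z‖ = 1 → ((‖A W z‖ ^ (2 * k) : ℝ) : ℂ) =
        ∑ h ∈ Icc (-((2 * k * W.prod : ℕ) : ℤ)) ((2 * k * W.prod : ℕ) : ℤ), (ν h : ℂ) * z ^ h := by
  have hA := P1a_PD_A W hW
  have hA1 : P1a_PD 1 (W.prod : ℤ) {z : ℂ | ‖z‖ = 1} (A W) := by
    obtain ⟨ι, inst, c, e, hc, he, hG⟩ := hA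
    exact ⟨ι, inst, c, e, hc, he, fun z _ => hG z trivial⟩
  have hZ : ∀ z ∈ {z : ℂ | ‖z‖ = 1}, z ≠ 0 := by
    intro z hz h0
    have : ‖z‖ = 1 := hz
    rw [h0, norm_zero] at this
    exact zero_ne_one this
  have hP1 : (1 : ℤ) ≤ (W.prod : ℤ) := by
    have : 1 ≤ W.prod := List.one_le_prod_of_one_le hW
    exact_mod_cast this
  have hAc : P1a_PD (-(W.prod : ℤ)) (-1) {z : ℂ | ‖z‖ = 1}
      (fun z => (starRingEnd ℂ) (A W z)) := by
    obtain ⟨ι, inst, c, e, hc, he, hG⟩ := hA1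
    refine ⟨ι, inst, c, fun i => - e i, hc, fun i => ⟨neg_le_neg (he i).2, neg_le_neg (he i).1⟩, ?_⟩
    intro z hz
    have hz1 : ‖z‖ = 1 := hz
    show (starRingEnd ℂ) (A W z) = _
    rw [hG z hz, map_sum]
    apply Finset.sum_congr rfl
    intro i _
    rw [map_mul, Complex.conj_ofReal, map_zpow₀, zpow_neg, ← inv_zpow]
    congr 2
    rw [Complex.inv_def, Complex.normSq_eq_norm_sq, hz1]
    simp
  have hB : P1a_PD (-(W.prod : ℤ)) (W.prod : ℤ) {z : ℂ | ‖z‖ = 1}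
      (fun z => A W z * (starRingEnd ℂ) (A W z)) :=
    (hA1.mul hZ hAc).mono (by linarith) (by linarith)
  have hC := hB.pow hZ k
  obtain ⟨ν, h1, h2, h3⟩ := P1a_to_nu hC
  have hle : ((k : ℤ) * (W.prod : ℤ)) ≤ ((2 * k * W.prod : ℕ) : ℤ) := by
    rw [Nat.cast_mul, Nat.cast_mul]
    have := mul_nonneg (Int.natCast_nonneg k) (Int.natCast_nonneg W.prod)
    rw [Nat.cast_ofNat]
    linarith
  refine ⟨ν, h1, ?_, ?_⟩
  · intro h hh
    apply h2
    rcases lt_abs.1 hh with h4 | h4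
    · right; linarith
    · left; linarith
  · intro z hz
    have h5 : ((‖A W z‖ ^ (2 * k) : ℝ) : ℂ) = (A W z * (starRingEnd ℂ) (A W z)) ^ k := by
      rw [Complex.mul_conj, Complex.normSq_eq_norm_sq, pow_mul]
      push_cast
      rfl
    rw [h5, h3 z hz]
    apply Finset.sum_subset
    · apply Finset.Icc_subset_Icc
      · linarith
      · exact hle
    · intro h _ hh
      rw [Finset.mem_Icc, not_and_or, not_le, not_le] at hh
      rw [h2 h hh]
      simp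

end Crest.Agent.E25
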