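import Crest.Agent.E25Defs

set_option autoImplicit false

namespace Crest.Agent.E25

open Finset

lemma P1a2_prim (u : ℕ) (hu : 0 < u) : IsPrimitiveRoot (ze u) u :=
  Complex.isPrimitiveRoot_exp u hu.ne'

lemma P1a2_norm (u : ℕ) (hu : 0 < u) : ‖ze u‖ = 1 :=
  (P1a2_prim u hu).norm'_eq_one hu.ne'

lemma P1a2_norm_pow (u : ℕ) (hu : 0 < u) (x : ℕ) : ‖ze u ^ x‖ = 1 := by
  rw [norm_pow, P1a2_norm u hu, one_pow]

lemma P1a2_orth (u : ℕ) (hu : 0 < u) (k : ℤ) :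
    ∑ x ∈ range u, (ze u ^ x) ^ k = if (u : ℤ) ∣ k then (u : ℂ) else 0 := by
  have h1 : ∀ x : ℕ, (ze u ^ x) ^ k = (ze u ^ k) ^ x := by
    intro x
    rw [← zpow_natCast, ← zpow_natCast, zpow_comm]
  rw [Finset.sum_congr rfl (fun x _ => h1 x)]
  split_ifs with h
  · have h2 : ze u ^ k = 1 := ((P1a2_prim u hu).zpow_eq_one_iff_dvd k).2 h
    rw [h2]
    simp
  · have h2 : ze u ^ k ≠ 1 := fun h3 => h (((P1a2_prim u hu).zpow_eq_one_iff_dvd k).1 h3)
    rw [geom_sum_eq h2]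
    have h3 : (ze u ^ k) ^ u = 1 := by
      rw [← zpow_natCast, zpow_comm, zpow_natCast, (P1a2_prim u hu).pow_eq_one, one_zpow]
    rw [h3]
    simp

theorem parseval_corr (u H n : ℕ) (hu : 0 < u) (hn : 1 ≤ n) (hcop : n.Coprime u)
    (hsize : (n + 1) * H < u) (ν : ℤ → ℝ)
    (hν : ∀ h : ℤ, (H : ℤ) < |h| → ν h = 0) (G : ℂ → ℂ)
    (hG : ∀ z : ℂ, ‖z‖ = 1 → G z = ∑ h ∈ Icc (-(H : ℤ)) H, (ν h : ℂ) * z ^ h) :
    (∑ x ∈ range u, G ((ze u ^ x) ^ n) * (starRingEnd ℂ) (G (ze u ^ x))) / u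
      = ((∑ h ∈ Icc (-(H : ℤ)) H, ν h * ν (n * h) : ℝ) : ℂ) := by
  have hu0 : (u : ℂ) ≠ 0 := by exact_mod_cast hu.ne'
  have key : ∀ x ∈ range u, G ((ze u ^ x) ^ n) * (starRingEnd ℂ) (G (ze u ^ x)) =
      ∑ h ∈ Icc (-(H : ℤ)) H, ∑ h' ∈ Icc (-(H : ℤ)) H, ((ν h : ℂ) * (ν h' : ℂ)) *
        (ze u ^ x) ^ ((n : ℤ) * h - h') := by
    intro x _
    have hz : ‖ze u ^ x‖ = 1 := P1a2_norm_pow u hu x
    have hz0 : ze u ^ x ≠ 0 := by
      intro h0
      rw [h0, norm_zero] at hz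
      exact zero_ne_one hz
    have hzn : ‖(ze u ^ x) ^ n‖ = 1 := by rw [norm_pow, hz, one_pow]
    rw [hG _ hzn, hG _ hz, map_sum, Finset.sum_mul_sum]
    apply Finset.sum_congr rfl
    intro h _
    apply Finset.sum_congr rfl
    intro h' _
    rw [map_mul, Complex.conj_ofReal, map_zpow₀]
    have hc : (starRingEnd ℂ) (ze u ^ x) = (ze u ^ x)⁻¹ := by
      rw [Complex.inv_def, Complex.normSq_eq_norm_sq, hz]
      simp
    rw [hc, zpow_sub₀ hz0, inv_zpow, zpow_mul, zpow_natCast]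
    rw [div_eq_mul_inv]
    ring
  rw [Finset.sum_congr rfl key, Finset.sum_comm]
  have h2 : ∀ h ∈ Icc (-(H : ℤ)) H, ∑ x ∈ range u, ∑ h' ∈ Icc (-(H : ℤ)) H,
      ((ν h : ℂ) * (ν h' : ℂ)) * (ze u ^ x) ^ ((n : ℤ) * h - h') =
      (u : ℂ) * ((ν h * ν (n * h) : ℝ) : ℂ) := by
    intro h hh
    rw [Finset.sum_comm]
    have h3 : ∀ h' ∈ Icc (-(H : ℤ)) H, ∑ x ∈ range u,
        ((ν h : ℂ) * (ν h' : ℂ)) * (ze u ^ x) ^ ((n : ℤ) * h - h') =
        if (n : ℤ) * h = h' then (u : ℂ) * ((ν h : ℂ) * (ν h' : ℂ)) else 0 := by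
      intro h' hh'
      rw [← Finset.mul_sum, P1a2_orth u hu]
      have h4 : (u : ℤ) ∣ ((n : ℤ) * h - h') ↔ (n : ℤ) * h = h' := by
        constructor
        · intro hd
          have h5 : |(n : ℤ) * h - h'| < u := by
            rw [Finset.mem_Icc] at hh hh'
            have h6 : |(n : ℤ) * h - h'| ≤ (n + 1) * H := by
              rw [abs_le]
              have hn0 : (0 : ℤ) ≤ n := Int.natCast_nonneg n
              constructor
              · nlinarith [mul_le_mul_of_nonneg_left hh.1 hn0, mul_le_mul_of_nonneg_left hh.2 hn0]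
              · nlinarith [mul_le_mul_of_nonneg_left hh.1 hn0, mul_le_mul_of_nonneg_left hh.2 hn0]
            refine lt_of_le_of_lt h6 ?_
            exact_mod_cast hsize
          have := Int.eq_zero_of_abs_lt_dvd hd h5
          linarith
        · intro he
          rw [he, sub_self]
          exact dvd_zero _
      by_cases h5 : (n : ℤ) * h = h'
      · rw [if_pos (h4.2 h5), if_pos h5]
        ring
      · rw [if_neg (fun h6 => h5 (h4.1 h6)), if_neg h5, mul_zero]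
    rw [Finset.sum_congr rfl h3, Finset.sum_ite_eq]
    split_ifs with h4
    · push_cast
      ring
    · rw [hν ((n : ℤ) * h)]
      · simp
      · rw [Finset.mem_Icc, not_and_or, not_le, not_le] at h4
        rcases h4 with h4 | h4
        · exact lt_abs.2 (Or.inr (by linarith))
        · exact lt_abs.2 (Or.inl h4)
  rw [Finset.sum_congr rfl h2, ← Finset.mul_sum]
  push_cast
  rw [mul_div_cancel_left₀ _ hu0]

theorem mean_zero (u H : ℕ) (hu : 0 < u) (hsize : H < u) (ν : ℤ → ℝ)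
    (hν : ∀ h : ℤ, (H : ℤ) < |h| → ν h = 0) (G : ℂ → ℂ)
    (hG : ∀ z : ℂ, ‖z‖ = 1 → G z = ∑ h ∈ Icc (-(H : ℤ)) H, (ν h : ℂ) * z ^ h) :
    (∑ x ∈ range u, G (ze u ^ x)) / u = (ν 0 : ℂ) := by
  have hu0 : (u : ℂ) ≠ 0 := by exact_mod_cast hu.ne'
  have h1 : ∀ x ∈ range u, G (ze u ^ x) = ∑ h ∈ Icc (-(H : ℤ)) H, (ν h : ℂ) * (ze u ^ x) ^ h :=
    fun x _ => hG _ (P1a2_norm_pow u hu x)
  rw [Finset.sum_congr rfl h1, Finset.sum_comm]
  have h2 : ∀ h ∈ Icc (-(H : ℤ)) H, ∑ x ∈ range u, (ν h : ℂ) * (ze u ^ x) ^ h =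
      if h = 0 then (u : ℂ) * (ν h : ℂ) else 0 := by
    intro h hh
    rw [← Finset.mul_sum, P1a2_orth u hu]
    by_cases h5 : h = 0
    · rw [if_pos h5, if_pos (by rw [h5]; exact dvd_zero _)]
      ring
    · rw [if_neg h5, if_neg, mul_zero]
      intro hd
      apply h5
      apply Int.eq_zero_of_abs_lt_dvd hd
      rw [Finset.mem_Icc] at hh
      have : |h| ≤ H := abs_le.2 hh
      refine lt_of_le_of_lt this ?_
      exact_mod_cast hsize
  rw [Finset.sum_congr rfl h2, Finset.sum_ite_eq' , if_pos]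
  · rw [mul_div_cancel_left₀ _ hu0]
  · rw [Finset.mem_Icc]
    constructor
    · simp
    · simp

end Crest.Agent.E25
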