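import Crest.Agent.E25Defs

set_option autoImplicit false

namespace Crest.Agent.E25

open Finset

lemma P1b_card_primes (Q' : Finset ℕ) (hp : ∀ n ∈ Q', n.Prime) (H : ℕ) (h' : ℤ) (h0 : h' ≠ 0)
    (hle : |h'| ≤ H) : (Q'.filter (fun n : ℕ => (n : ℤ) ∣ h')).card ≤ Nat.log 2 H := by
  have hm0 : h'.natAbs ≠ 0 := Int.natAbs_ne_zero.2 h0
  have hmH : h'.natAbs ≤ H := by
    have : ((h'.natAbs : ℕ) : ℤ) ≤ (H : ℤ) := by
      rw [Int.natCast_natAbs]; exact hle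
    exact_mod_cast this
  have hsub : Q'.filter (fun n : ℕ => (n : ℤ) ∣ h') ⊆ h'.natAbs.primeFactors := by
    intro n hn
    rw [Finset.mem_filter] at hn
    rw [Nat.mem_primeFactors]
    exact ⟨hp n hn.1, Int.natCast_dvd.1 hn.2, hm0⟩
  have hcard := Finset.card_le_card hsub
  have h2 : 2 ^ h'.natAbs.primeFactors.card ≤ h'.natAbs := by
    calc 2 ^ h'.natAbs.primeFactors.card = ∏ _p ∈ h'.natAbs.primeFactors, 2 := by
          rw [Finset.prod_const]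
      _ ≤ ∏ p ∈ h'.natAbs.primeFactors, p :=
          Finset.prod_le_prod' (fun p hp => (Nat.prime_of_mem_primeFactors hp).two_le)
      _ ≤ h'.natAbs := Nat.le_of_dvd (Nat.pos_of_ne_zero hm0) (Nat.prod_primeFactors_dvd _)
  exact hcard.trans (Nat.le_log_of_pow_le (by norm_num) (h2.trans hmH))

theorem lemma_D (ν : ℤ → ℝ) (hν : ∀ h, 0 ≤ ν h) (H : ℕ) (hH : ∀ h : ℤ, (H : ℤ) < |h| → ν h = 0)
    (Q' : Finset ℕ) (hp : ∀ n ∈ Q', n.Prime) (lam : ℝ) (hlam : 0 < lam)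
    (h : ∀ n ∈ Q', lam * ∑ h ∈ (Icc (-(H : ℤ)) H).erase 0, ν h ^ 2
        < ∑ h ∈ (Icc (-(H : ℤ)) H).erase 0, ν h * ν (n * h)) :
    (Q'.card : ℝ) * lam ^ 2 ≤ Nat.log 2 H + 1 := by
  classical
  rcases Q'.eq_empty_or_nonempty with hQ | hQ
  · subst hQ
    simp only [Finset.card_empty, Nat.cast_zero, zero_mul]
    positivity
  set T := (Icc (-(H : ℤ)) H).erase 0 with hT
  set S := ∑ h ∈ T, ν h ^ 2 with hSdef
  have hS0 : 0 ≤ S := Finset.sum_nonneg (fun _ _ => sq_nonneg _)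
  have hSpos : 0 < S := by
    rcases hS0.lt_or_eq with h1 | h1
    · exact h1
    · exfalso
      have hz : ∀ h ∈ T, ν h ^ 2 = 0 :=
        (Finset.sum_eq_zero_iff_of_nonneg (fun _ _ => sq_nonneg _)).1 h1.symm
      obtain ⟨n, hn⟩ := hQ
      have h3 := h n hn
      rw [← h1, mul_zero] at h3
      have h4 : ∑ h ∈ T, ν h * ν (n * h) = 0 := by
        apply Finset.sum_eq_zero
        intro x hx
        have := hz x hx
        rw [pow_eq_zero_iff (by norm_num)] at this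
        rw [this, zero_mul]
      rw [h4] at h3
      exact lt_irrefl _ h3
  have hmemT : ∀ x : ℤ, x ∈ T ↔ x ≠ 0 ∧ |x| ≤ H := by
    intro x
    rw [hT, Finset.mem_erase, Finset.mem_Icc, abs_le]
  -- second moment bound
  have h2 : ∑ n ∈ Q', ∑ x ∈ T, ν (n * x) ^ 2 ≤ (Nat.log 2 H : ℝ) * S := by
    have hn1 : ∀ n ∈ Q', ∑ x ∈ T, ν (n * x) ^ 2 ≤ ∑ x ∈ T, (if (n : ℤ) ∣ x then ν x ^ 2 else 0) := by
      intro n hn
      have hn0 : (n : ℤ) ≠ 0 := by exact_mod_cast (hp n hn).ne_zero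
      have hinj : Set.InjOn (fun x : ℤ => (n : ℤ) * x) T := by
        intro x _ y _ hxy
        exact mul_left_cancel₀ hn0 hxy
      have e1 : ∑ x ∈ T, ν (n * x) ^ 2 = ∑ y ∈ T.image (fun x : ℤ => (n : ℤ) * x), ν y ^ 2 := by
        rw [Finset.sum_image hinj]
      have e2 : ∑ y ∈ T.image (fun x : ℤ => (n : ℤ) * x), ν y ^ 2
          = ∑ y ∈ (T.image (fun x : ℤ => (n : ℤ) * x)).filter (fun y => y ∈ T), ν y ^ 2 := by
        symm
        apply Finset.sum_filter_of_ne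
        intro y hy hne
        rw [Finset.mem_image] at hy
        obtain ⟨x, hx, rfl⟩ := hy
        rw [hmemT] at hx ⊢
        refine ⟨mul_ne_zero hn0 hx.1, ?_⟩
        by_contra hcon
        push Not at hcon
        apply hne
        rw [hH _ hcon]
        norm_num
      rw [e1, e2, ← Finset.sum_filter]
      apply Finset.sum_le_sum_of_subset_of_nonneg
      · intro y hy
        rw [Finset.mem_filter, Finset.mem_image] at hy
        obtain ⟨⟨x, _, rfl⟩, hyT⟩ := hy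
        rw [Finset.mem_filter]
        exact ⟨hyT, Dvd.intro _ rfl⟩
      · intro _ _ _
        exact sq_nonneg _
    calc ∑ n ∈ Q', ∑ x ∈ T, ν (n * x) ^ 2
        ≤ ∑ n ∈ Q', ∑ x ∈ T, (if (n : ℤ) ∣ x then ν x ^ 2 else 0) := Finset.sum_le_sum hn1
      _ = ∑ x ∈ T, ∑ n ∈ Q', (if (n : ℤ) ∣ x then ν x ^ 2 else 0) := Finset.sum_comm
      _ = ∑ x ∈ T, ((Q'.filter (fun n : ℕ => (n : ℤ) ∣ x)).card : ℝ) * ν x ^ 2 := by
          apply Finset.sum_congr rfl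
          intro x _
          rw [← Finset.sum_filter, Finset.sum_const, nsmul_eq_mul]
      _ ≤ ∑ x ∈ T, (Nat.log 2 H : ℝ) * ν x ^ 2 := by
          apply Finset.sum_le_sum
          intro x hx
          rw [hmemT] at hx
          apply mul_le_mul_of_nonneg_right _ (sq_nonneg _)
          exact_mod_cast P1b_card_primes Q' hp H x hx.1 hx.2
      _ = (Nat.log 2 H : ℝ) * S := by rw [hSdef, Finset.mul_sum]
  -- Cauchy-Schwarz
  have hq : (0 : ℝ) < Q'.card := by exact_mod_cast hQ.card_pos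
  have h3 : (Q'.card : ℝ) * (lam * S) ≤ ∑ n ∈ Q', ∑ x ∈ T, ν x * ν (n * x) := by
    calc (Q'.card : ℝ) * (lam * S) = ∑ _n ∈ Q', lam * S := by
          rw [Finset.sum_const, nsmul_eq_mul]
      _ ≤ _ := Finset.sum_le_sum (fun n hn => (h n hn).le)
  have h4 : (∑ n ∈ Q', ∑ x ∈ T, ν x * ν (n * x)) ^ 2 ≤
      (∑ n ∈ Q', ∑ x ∈ T, ν x ^ 2) * (∑ n ∈ Q', ∑ x ∈ T, ν (n * x) ^ 2) := by
    rw [← Finset.sum_product', ← Finset.sum_product', ← Finset.sum_product']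
    exact Finset.sum_mul_sq_le_sq_mul_sq (Q' ×ˢ T) (fun p => ν p.2) (fun p => ν (p.1 * p.2))
  have h5 : ∑ n ∈ Q', ∑ x ∈ T, ν x ^ 2 = (Q'.card : ℝ) * S := by
    rw [Finset.sum_const, nsmul_eq_mul]
  rw [h5] at h4
  have h6 : ((Q'.card : ℝ) * (lam * S)) ^ 2 ≤ (∑ n ∈ Q', ∑ x ∈ T, ν x * ν (n * x)) ^ 2 :=
    pow_le_pow_left₀ (by positivity) h3 2
  have h7 : ((Q'.card : ℝ) * (lam * S)) ^ 2 ≤ (Q'.card : ℝ) * S * ((Nat.log 2 H : ℝ) * S) :=
    h6.trans (h4.trans (mul_le_mul_of_nonneg_left h2 (by positivity)))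
  have h8 : ((Q'.card : ℝ) * lam ^ 2) * ((Q'.card : ℝ) * S ^ 2) ≤
      (Nat.log 2 H : ℝ) * ((Q'.card : ℝ) * S ^ 2) := by
    nlinarith [h7]
  have h9 : (Q'.card : ℝ) * lam ^ 2 ≤ (Nat.log 2 H : ℝ) :=
    le_of_mul_le_mul_right h8 (by positivity)
  linarith

end Crest.Agent.E25
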