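import Crest.Agent.E25Defs

/-!
Part P1c of S0025: contraction of the moments. See docs row `S0025_PLAN`.
-/

set_option autoImplicit false

namespace Crest.Agent.E25

open Finset

lemma P1c_ze_pow_u (u : ℕ) (hu : 0 < u) : ze u ^ u = 1 :=
  (Complex.isPrimitiveRoot_exp u hu.ne').pow_eq_one

lemma P1c_norm_ze (u : ℕ) (hu : 0 < u) : ‖ze u‖ = 1 :=
  (Complex.isPrimitiveRoot_exp u hu.ne').norm'_eq_one hu.ne'

lemma P1c_norm_ze_pow (u : ℕ) (hu : 0 < u) (x : ℕ) : ‖ze u ^ x‖ = 1 := by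
  rw [norm_pow, P1c_norm_ze u hu, one_pow]

lemma P1c_ze_pow_mod (u : ℕ) (hu : 0 < u) (x : ℕ) : ze u ^ (x % u) = ze u ^ x := by
  conv_rhs => rw [← Nat.mod_add_div x u, pow_add, pow_mul, P1c_ze_pow_u u hu, one_pow, mul_one]

/-- `z ↦ z^n` permutes the `u`-th roots of unity -/
lemma P1c_sum_perm {E : Type*} [AddCommMonoid E] (u n : ℕ) (hu : 0 < u) (hn : n.Coprime u)
    (f : ℂ → E) :
    ∑ x ∈ range u, f ((ze u ^ x) ^ n) = ∑ x ∈ range u, f (ze u ^ x) := by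
  have hmaps : Set.MapsTo (fun x => (n * x) % u) (range u : Finset ℕ) (range u : Finset ℕ) := by
    intro x _
    simp only [coe_range, Set.mem_Iio]
    exact Nat.mod_lt _ hu
  have hinj : Set.InjOn (fun x => (n * x) % u) (range u : Finset ℕ) := by
    intro x hx y hy hxy
    simp only [coe_range, Set.mem_Iio] at hx hy
    have h1 : n * x ≡ n * y [MOD u] := hxy
    have h2 : x ≡ y [MOD u] := Nat.ModEq.cancel_left_of_coprime (by
      rw [Nat.gcd_comm]; exact hn) h1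
    have h3 := h2
    unfold Nat.ModEq at h3
    rwa [Nat.mod_eq_of_lt hx, Nat.mod_eq_of_lt hy] at h3
  have hsurj := Finset.surjOn_of_injOn_of_card_le (fun x => (n * x) % u) hmaps hinj le_rfl
  refine Finset.sum_nbij (fun x => (n * x) % u) hmaps hinj hsurj ?_
  intro x _
  rw [P1c_ze_pow_mod u hu, ← pow_mul, mul_comm x n]

lemma P1c_norm_A_le_one (W : List ℕ) : ∀ z : ℂ, ‖z‖ = 1 → ‖A W z‖ ≤ 1 := by
  induction W with
  | nil => intro z hz; simp [A, hz]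
  | cons n W ih =>
    intro z hz
    have h1 := ih z hz
    have h2 := ih (z ^ n) (by rw [norm_pow, hz, one_pow])
    simp only [A]
    rw [norm_div, Complex.norm_ofNat, div_le_one (by norm_num)]
    refine (norm_add_le _ _).trans (by linarith)

theorem mom_nonneg (u : ℕ) (W : List ℕ) (k : ℕ) : 0 ≤ Mom u W k := by
  unfold Mom; positivity

theorem mom_le_one (u : ℕ) (hu : 0 < u) (W : List ℕ) (k : ℕ) : Mom u W k ≤ 1 := by
  unfold Mom
  have hu' : (0 : ℝ) < u := by exact_mod_cast hu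
  rw [div_le_one hu']
  calc ∑ x ∈ range u, ‖A W (ze u ^ x)‖ ^ (2 * k) ≤ ∑ x ∈ range u, (1 : ℝ) := by
        apply Finset.sum_le_sum
        intro x _
        exact pow_le_one₀ (norm_nonneg _) (P1c_norm_A_le_one W _ (P1c_norm_ze_pow u hu x))
    _ = u := by simp

lemma P1c_mom_perm (u : ℕ) (hu : 0 < u) (W : List ℕ) (n k : ℕ) (hn : n.Coprime u) :
    (∑ x ∈ range u, ‖A W ((ze u ^ x) ^ n)‖ ^ (2 * k)) / u = Mom u W k := by
  unfold Mom
  rw [P1c_sum_perm u n hu hn (fun z => ‖A W z‖ ^ (2 * k))]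

lemma P1c_norm_half (a b : ℂ) : ‖(a + b) / 2‖ ≤ (‖a‖ + ‖b‖) / 2 := by
  rw [norm_div, Complex.norm_ofNat]
  exact div_le_div_of_nonneg_right (norm_add_le _ _) (by norm_num)

theorem mom_mono (u : ℕ) (hu : 0 < u) (W : List ℕ) (n k : ℕ) (hn : n.Coprime u) :
    Mom u (n :: W) k ≤ Mom u W k := by
  have hu' : (0 : ℝ) < u := by exact_mod_cast hu
  have key : ∀ x, ‖A (n :: W) (ze u ^ x)‖ ^ (2 * k) ≤
      (‖A W (ze u ^ x)‖ ^ (2 * k) + ‖A W ((ze u ^ x) ^ n)‖ ^ (2 * k)) / 2 := by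
    intro x
    rcases Nat.eq_zero_or_pos k with rfl | hk
    · norm_num
    simp only [A]
    set a := A W (ze u ^ x)
    set b := A W ((ze u ^ x) ^ n)
    calc ‖(a + b) / 2‖ ^ (2 * k) ≤ ((‖a‖ + ‖b‖) / 2) ^ (2 * k) :=
          pow_le_pow_left₀ (norm_nonneg _) (P1c_norm_half a b) _
      _ = (‖a‖ + ‖b‖) ^ (2 * k) / 2 ^ (2 * k) := by rw [div_pow]
      _ ≤ (2 ^ (2 * k - 1) * (‖a‖ ^ (2 * k) + ‖b‖ ^ (2 * k))) / 2 ^ (2 * k) :=
          div_le_div_of_nonneg_right (add_pow_le (norm_nonneg _) (norm_nonneg _) _) (by positivity)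
      _ = (‖a‖ ^ (2 * k) + ‖b‖ ^ (2 * k)) / 2 := by
          have h2 : (2 : ℝ) ^ (2 * k) = 2 ^ (2 * k - 1) * 2 := by
            rw [← pow_succ]; congr 1; omega
          rw [h2]
          field_simp
  calc Mom u (n :: W) k
      ≤ (∑ x ∈ range u, (‖A W (ze u ^ x)‖ ^ (2 * k) + ‖A W ((ze u ^ x) ^ n)‖ ^ (2 * k)) / 2) / u := by
        unfold Mom
        exact div_le_div_of_nonneg_right (Finset.sum_le_sum (fun x _ => key x)) hu'.le
    _ = (Mom u W k + (∑ x ∈ range u, ‖A W ((ze u ^ x) ^ n)‖ ^ (2 * k)) / u) / 2 := by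
        unfold Mom
        rw [← Finset.sum_div, Finset.sum_add_distrib]
        ring
    _ = Mom u W k := by rw [P1c_mom_perm u hu W n k hn]; ring

lemma P1c_ineq (m : ℕ) (a b : ℝ) (ha : 0 ≤ a) (hb : 0 ≤ b) :
    ((a + b) / 2) ^ (2 * m) ≤ (25 / 64 : ℝ) ^ m * (a ^ (2 * m) + b ^ (2 * m)) + 4 ^ m * (a ^ m * b ^ m) := by
  have hA : 0 ≤ a ^ (2 * m) := by positivity
  have hB : 0 ≤ b ^ (2 * m) := by positivity
  have hC : 0 ≤ (4 : ℝ) ^ m * (a ^ m * b ^ m) := by positivity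
  have h25 : (0 : ℝ) ≤ (25 / 64 : ℝ) ^ m := by positivity
  by_cases h1 : 4 * b ≤ a
  · calc ((a + b) / 2) ^ (2 * m) ≤ (5 / 8 * a) ^ (2 * m) :=
          pow_le_pow_left₀ (by positivity) (by linarith) _
      _ = (25 / 64 : ℝ) ^ m * a ^ (2 * m) := by
          rw [mul_pow, pow_mul (5 / 8 : ℝ)]; norm_num
      _ ≤ _ := by nlinarith
  by_cases h2 : 4 * a ≤ b
  · calc ((a + b) / 2) ^ (2 * m) ≤ (5 / 8 * b) ^ (2 * m) :=
          pow_le_pow_left₀ (by positivity) (by linarith) _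
      _ = (25 / 64 : ℝ) ^ m * b ^ (2 * m) := by
          rw [mul_pow, pow_mul (5 / 8 : ℝ)]; norm_num
      _ ≤ _ := by nlinarith
  push Not at h1 h2
  calc ((a + b) / 2) ^ (2 * m) = (((a + b) / 2) ^ 2) ^ m := by rw [pow_mul]
    _ ≤ (4 * (a * b)) ^ m := by
        apply pow_le_pow_left₀ (by positivity)
        rcases le_total a b with h | h
        · nlinarith
        · nlinarith
    _ = 4 ^ m * (a ^ m * b ^ m) := by rw [mul_pow, mul_pow]
    _ ≤ _ := by nlinarith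

lemma P1c_num (m : ℕ) (hm : 2 ≤ m) : 2 * (25 / 64 : ℝ) ^ m + (1 / 4 : ℝ) ^ m ≤ (5 / 8 : ℝ) ^ m := by
  induction m, hm using Nat.le_induction with
  | base => norm_num
  | succ m hm ih =>
    rw [pow_succ, pow_succ, pow_succ]
    have h1 : (0 : ℝ) ≤ (25 / 64 : ℝ) ^ m := by positivity
    have h2 : (0 : ℝ) ≤ (1 / 4 : ℝ) ^ m := by positivity
    nlinarith

theorem mom_contract (u : ℕ) (hu : 0 < u) (W : List ℕ) (n m : ℕ) (hn : n.Coprime u) (hm : 2 ≤ m)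
    (h : (∑ x ∈ range u, ‖A W (ze u ^ x)‖ ^ m * ‖A W ((ze u ^ x) ^ n)‖ ^ m) / u
      ≤ (1 / 16 : ℝ) ^ m * Mom u W m) :
    Mom u (n :: W) m ≤ (5 / 8 : ℝ) ^ m * Mom u W m := by
  have hu' : (0 : ℝ) < u := by exact_mod_cast hu
  have key : ∀ x, ‖A (n :: W) (ze u ^ x)‖ ^ (2 * m) ≤
      (25 / 64 : ℝ) ^ m * (‖A W (ze u ^ x)‖ ^ (2 * m) + ‖A W ((ze u ^ x) ^ n)‖ ^ (2 * m)) +
        4 ^ m * (‖A W (ze u ^ x)‖ ^ m * ‖A W ((ze u ^ x) ^ n)‖ ^ m) := by
    intro x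
    refine le_trans ?_ (P1c_ineq m _ _ (norm_nonneg _) (norm_nonneg _))
    simp only [A]
    exact pow_le_pow_left₀ (norm_nonneg _) (P1c_norm_half _ _) _
  have h1 : Mom u (n :: W) m ≤ (25 / 64 : ℝ) ^ m * (Mom u W m +
      (∑ x ∈ range u, ‖A W ((ze u ^ x) ^ n)‖ ^ (2 * m)) / u) +
      4 ^ m * ((∑ x ∈ range u, ‖A W (ze u ^ x)‖ ^ m * ‖A W ((ze u ^ x) ^ n)‖ ^ m) / u) := by
    have h2 := div_le_div_of_nonneg_right (Finset.sum_le_sum (fun x (_ : x ∈ range u) => key x)) hu'.le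
    rw [Finset.sum_add_distrib, ← Finset.mul_sum, ← Finset.mul_sum, Finset.sum_add_distrib] at h2
    unfold Mom
    refine h2.trans (le_of_eq ?_)
    ring
  rw [P1c_mom_perm u hu W n m hn] at h1
  have hM := mom_nonneg u W m
  have h3 : (4 : ℝ) ^ m * ((1 / 16 : ℝ) ^ m * Mom u W m) = (1 / 4 : ℝ) ^ m * Mom u W m := by
    rw [← mul_assoc, ← mul_pow]; norm_num
  have h4 := mul_le_mul_of_nonneg_left h (by positivity : (0 : ℝ) ≤ 4 ^ m)
  rw [h3] at h4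
  have h5 := mul_le_mul_of_nonneg_right (P1c_num m hm) hM
  nlinarith

theorem mom_contract_one (u : ℕ) (hu : 0 < u) (W : List ℕ) (n : ℕ) (hn : n.Coprime u)
    (h : ‖(∑ x ∈ range u, A W ((ze u ^ x) ^ n) * (starRingEnd ℂ) (A W (ze u ^ x))) / u‖
      ≤ (1 / 4 : ℝ) * Mom u W 1) :
    Mom u (n :: W) 1 ≤ (5 / 8 : ℝ) * Mom u W 1 := by
  have hu' : (0 : ℝ) < u := by exact_mod_cast hu
  have key : ∀ x, ‖A (n :: W) (ze u ^ x)‖ ^ (2 * 1) =
      (‖A W (ze u ^ x)‖ ^ (2 * 1) + ‖A W ((ze u ^ x) ^ n)‖ ^ (2 * 1)) / 4 +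
        (A W ((ze u ^ x) ^ n) * (starRingEnd ℂ) (A W (ze u ^ x))).re / 2 := by
    intro x
    simp only [A]
    generalize A W (ze u ^ x) = a
    generalize A W ((ze u ^ x) ^ n) = b
    rw [norm_div, Complex.norm_ofNat, div_pow]
    simp only [mul_one]
    rw [← Complex.normSq_eq_norm_sq, ← Complex.normSq_eq_norm_sq, ← Complex.normSq_eq_norm_sq]
    simp only [Complex.normSq_apply, Complex.add_re, Complex.add_im, Complex.mul_re, Complex.conj_re,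
      Complex.conj_im]
    ring
  have h1 : Mom u (n :: W) 1 = (Mom u W 1 +
      (∑ x ∈ range u, ‖A W ((ze u ^ x) ^ n)‖ ^ (2 * 1)) / u) / 4 +
      ((∑ x ∈ range u, A W ((ze u ^ x) ^ n) * (starRingEnd ℂ) (A W (ze u ^ x))) / u).re / 2 := by
    unfold Mom
    rw [Finset.sum_congr rfl (fun x _ => key x), Finset.sum_add_distrib, ← Finset.sum_div,
      ← Finset.sum_div, Finset.sum_add_distrib, Complex.div_natCast_re, Complex.re_sum]
    ring
  rw [P1c_mom_perm u hu W n 1 hn] at h1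
  have h2 := (Complex.re_le_norm ((∑ x ∈ range u,
    A W ((ze u ^ x) ^ n) * (starRingEnd ℂ) (A W (ze u ^ x))) / u)).trans h
  rw [h1]
  linarith

end Crest.Agent.E25
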