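import Crest.Agent.E25Defs
import Crest.Agent.E25P1a
import Crest.Agent.E25P1a2
import Crest.Agent.E25P1b
import Crest.Agent.E25P1c

set_option autoImplicit false

namespace Crest.Agent.E25

open Finset

/-- correlation of order zero -/
noncomputable def P1d_corr0 (u : ℕ) (W : List ℕ) (n : ℕ) : ℝ :=
  ‖(∑ x ∈ range u, A W ((ze u ^ x) ^ n) * (starRingEnd ℂ) (A W (ze u ^ x))) / u‖

/-- correlation of order `m` -/
noncomputable def P1d_corr (u : ℕ) (W : List ℕ) (n m : ℕ) : ℝ :=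
  (∑ x ∈ range u, ‖A W (ze u ^ x)‖ ^ m * ‖A W ((ze u ^ x) ^ n)‖ ^ m) / u

/-- sums over symmetric intervals split off the zero term -/
lemma P1d_split (H : ℕ) (f : ℤ → ℝ) :
    ∑ h ∈ Icc (-(H : ℤ)) H, f h = f 0 + ∑ h ∈ (Icc (-(H : ℤ)) H).erase 0, f h := by
  rw [Finset.add_sum_erase]
  rw [Finset.mem_Icc]
  constructor
  · simp
  · simp

lemma P1d_bad0 (u : ℕ) (hu : 0 < u) (W : List ℕ) (hW : ∀ n ∈ W, 1 ≤ n) (Q : Finset ℕ)
    (hQp : ∀ n ∈ Q, n.Prime) (hQu : ∀ n ∈ Q, n.Coprime u)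
    (hs : ∀ n ∈ Q, (n + 1) * W.prod < u) (hs1 : (1 + 1) * W.prod < u)
    (Q' : Finset ℕ) (hQ' : Q' ⊆ Q) (hbad : ∀ n ∈ Q', (1 / 4 : ℝ) * Mom u W 1 < P1d_corr0 u W n) :
    (Q'.card : ℝ) ≤ 16 * (Nat.log 2 W.prod + 1) := by
  obtain ⟨ν, h1, h2, h3⟩ := pd_rep_A W hW
  have hν : ∀ h : ℤ, (W.prod : ℤ) < |h| → ν h = 0 := by
    intro h hh
    apply h2
    rcases lt_abs.1 hh with h4 | h4
    · right; exact h4
    · left
      have := Int.natCast_nonneg W.prod
      linarith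
  have hν0 : ν 0 = 0 := h2 0 (Or.inl le_rfl)
  have hG : ∀ z : ℂ, ‖z‖ = 1 → A W z = ∑ h ∈ Icc (-(W.prod : ℤ)) (W.prod : ℤ), (ν h : ℂ) * z ^ h := by
    intro z _
    rw [h3 z]
    apply Finset.sum_subset
    · apply Finset.Icc_subset_Icc
      · have := Int.natCast_nonneg W.prod
        linarith
      · exact le_rfl
    · intro h hh hh'
      rw [Finset.mem_Icc] at hh hh'
      rw [h2 h]
      · simp
      · left
        by_contra hcon
        push Not at hcon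
        exact hh' ⟨by linarith, hh.2⟩
  have hmom : Mom u W 1 = ∑ h ∈ Icc (-(W.prod : ℤ)) (W.prod : ℤ), ν h ^ 2 := by
    have h4 := parseval_corr u W.prod 1 hu le_rfl (Nat.coprime_one_left u) hs1 ν hν (A W) hG
    have h5 : (∑ x ∈ range u, A W ((ze u ^ x) ^ 1) * (starRingEnd ℂ) (A W (ze u ^ x))) / u =
        ((Mom u W 1 : ℝ) : ℂ) := by
      unfold Mom
      push_cast
      congr 1
      apply Finset.sum_congr rfl
      intro x _
      rw [pow_one, Complex.mul_conj, Complex.normSq_eq_norm_sq]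
      push_cast
      norm_num
    rw [h5] at h4
    have h6 := Complex.ofReal_injective h4
    rw [h6]
    apply Finset.sum_congr rfl
    intro h _
    rw [Nat.cast_one, one_mul, sq]
  have hcorr : ∀ n ∈ Q, P1d_corr0 u W n =
      ∑ h ∈ Icc (-(W.prod : ℤ)) (W.prod : ℤ), ν h * ν (n * h) := by
    intro n hn
    unfold P1d_corr0
    rw [parseval_corr u W.prod n hu (hQp n hn).one_lt.le (hQu n hn) (hs n hn) ν hν (A W) hG]
    rw [Complex.norm_real, Real.norm_of_nonneg]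
    exact Finset.sum_nonneg (fun h _ => mul_nonneg (h1 _) (h1 _))
  have hD := lemma_D ν h1 W.prod hν Q' (fun n hn => hQp n (hQ' hn)) (1 / 4) (by norm_num) (by
    intro n hn
    have h4 := hbad n hn
    rw [hmom, hcorr n (hQ' hn), P1d_split, P1d_split, hν0] at h4
    simpa using h4)
  nlinarith

lemma P1d_badj (u : ℕ) (hu : 0 < u) (W : List ℕ) (hW : ∀ n ∈ W, 1 ≤ n) (k : ℕ) (Q : Finset ℕ)
    (hQp : ∀ n ∈ Q, n.Prime) (hQu : ∀ n ∈ Q, n.Coprime u)
    (hs : ∀ n ∈ Q, (n + 1) * (2 * k * W.prod) < u) (hs1 : (1 + 1) * (2 * k * W.prod) < u)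
    (hD : 2 * 16 ^ (2 * k) * (Mom u W k) ^ 2 < Mom u W (2 * k))
    (Q' : Finset ℕ) (hQ' : Q' ⊆ Q)
    (hbad : ∀ n ∈ Q', (1 / 16 : ℝ) ^ (2 * k) * Mom u W (2 * k) < P1d_corr u W n (2 * k)) :
    (Q'.card : ℝ) ≤ 4 * 256 ^ (2 * k) * (Nat.log 2 (2 * k * W.prod) + 1) := by
  obtain ⟨ν, h1, hν, hG⟩ := pd_rep W hW k
  have hreal : ∀ z : ℂ, (starRingEnd ℂ) ((‖A W z‖ ^ (2 * k) : ℝ) : ℂ) =
      ((‖A W z‖ ^ (2 * k) : ℝ) : ℂ) := fun z => Complex.conj_ofReal _
  have hcorr' : ∀ n, 1 ≤ n → n.Coprime u → (n + 1) * (2 * k * W.prod) < u →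
      P1d_corr u W n (2 * k) =
      ∑ h ∈ Icc (-((2 * k * W.prod : ℕ) : ℤ)) ((2 * k * W.prod : ℕ) : ℤ), ν h * ν (n * h) := by
    intro n hn1 hn2 hn3
    have h4 := parseval_corr u (2 * k * W.prod) n hu hn1 hn2 hn3 ν hν
      (fun z => ((‖A W z‖ ^ (2 * k) : ℝ) : ℂ)) hG
    rw [← Complex.ofReal_inj, ← h4]
    unfold P1d_corr
    push_cast
    congr 1
    apply Finset.sum_congr rfl
    intro x _
    have := hreal (ze u ^ x)
    push_cast at this
    rw [this, mul_comm]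
  have hmom : Mom u W (2 * k) =
      ∑ h ∈ Icc (-((2 * k * W.prod : ℕ) : ℤ)) ((2 * k * W.prod : ℕ) : ℤ), ν h ^ 2 := by
    have h4 := hcorr' 1 le_rfl (Nat.coprime_one_left u) hs1
    have h5 : P1d_corr u W 1 (2 * k) = Mom u W (2 * k) := by
      unfold P1d_corr Mom
      congr 1
      apply Finset.sum_congr rfl
      intro x _
      rw [pow_one, ← pow_add]
      congr 1
      ring
    rw [h5] at h4
    rw [h4]
    apply Finset.sum_congr rfl
    intro h _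
    rw [Nat.cast_one, one_mul, sq]
  have hν0 : ν 0 = Mom u W k := by
    have h4 := mean_zero u (2 * k * W.prod) hu (by omega) ν hν
      (fun z => ((‖A W z‖ ^ (2 * k) : ℝ) : ℂ)) hG
    rw [← Complex.ofReal_inj, ← h4]
    unfold Mom
    push_cast
    rfl
  have hpos : (0 : ℝ) < (1 / 16 : ℝ) ^ (2 * k) := by positivity
  have h16 : (1 / 16 : ℝ) ^ (2 * k) * 16 ^ (2 * k) = 1 := by
    rw [← mul_pow]; norm_num
  set T := ∑ h ∈ (Icc (-((2 * k * W.prod : ℕ) : ℤ)) ((2 * k * W.prod : ℕ) : ℤ)).erase 0, ν h ^ 2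
    with hT
  have hmomT : Mom u W (2 * k) = ν 0 ^ 2 + T := by
    rw [hmom, P1d_split]
  have hT0 : T ≤ Mom u W (2 * k) := by
    rw [hmomT]; nlinarith [sq_nonneg (ν 0)]
  have hv : ν 0 ^ 2 < 1 / 2 * (1 / 16 : ℝ) ^ (2 * k) * Mom u W (2 * k) := by
    have h5 : (1 / 2 * (1 / 16 : ℝ) ^ (2 * k)) * (2 * 16 ^ (2 * k) * (Mom u W k) ^ 2) <
        (1 / 2 * (1 / 16 : ℝ) ^ (2 * k)) * Mom u W (2 * k) :=
      mul_lt_mul_of_pos_left hD (by positivity)
    have h6 : (1 / 2 * (1 / 16 : ℝ) ^ (2 * k)) * (2 * 16 ^ (2 * k) * (Mom u W k) ^ 2) =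
        ((1 / 16 : ℝ) ^ (2 * k) * 16 ^ (2 * k)) * (Mom u W k) ^ 2 := by ring
    rw [h6, h16, one_mul] at h5
    rw [hν0]
    exact h5
  have hDD := lemma_D ν h1 (2 * k * W.prod) hν Q' (fun n hn => hQp n (hQ' hn))
    (1 / 2 * (1 / 16 : ℝ) ^ (2 * k)) (by positivity) (by
    intro n hn
    have h4 := hbad n hn
    have hnQ := hQ' hn
    rw [hcorr' n (hQp n hnQ).one_lt.le (hQu n hnQ) (hs n hnQ), P1d_split, mul_zero] at h4
    have h7 : 1 / 2 * (1 / 16 : ℝ) ^ (2 * k) * T ≤ 1 / 2 * (1 / 16 : ℝ) ^ (2 * k) * Mom u W (2 * k) :=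
      mul_le_mul_of_nonneg_left hT0 (by positivity)
    rw [← hT]
    nlinarith)
  have h8 : (1 / 2 * (1 / 16 : ℝ) ^ (2 * k)) ^ 2 = 1 / 4 * (1 / 256 : ℝ) ^ (2 * k) := by
    rw [mul_pow, ← pow_mul, mul_comm (2 * k) 2, pow_mul]
    norm_num
  have h9 : (1 / 256 : ℝ) ^ (2 * k) * 256 ^ (2 * k) = 1 := by
    rw [← mul_pow]; norm_num
  rw [h8] at hDD
  have h10 : (Q'.card : ℝ) = ((Q'.card : ℝ) * (1 / 4 * (1 / 256 : ℝ) ^ (2 * k))) *
      (4 * 256 ^ (2 * k)) := by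
    have : ((Q'.card : ℝ) * (1 / 4 * (1 / 256 : ℝ) ^ (2 * k))) * (4 * 256 ^ (2 * k)) =
      (Q'.card : ℝ) * ((1 / 256 : ℝ) ^ (2 * k) * 256 ^ (2 * k)) := by ring
    rw [this, h9, mul_one]
  rw [h10]
  calc ((Q'.card : ℝ) * (1 / 4 * (1 / 256 : ℝ) ^ (2 * k))) * (4 * 256 ^ (2 * k))
      ≤ (Nat.log 2 (2 * k * W.prod) + 1) * (4 * 256 ^ (2 * k)) :=
        mul_le_mul_of_nonneg_right hDD (by positivity)
    _ = _ := by ring

/-- bad continuations -/
def P1d_bad (u i : ℕ) (W : List ℕ) (n : ℕ) : Prop :=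
  (1 / 4 : ℝ) * Mom u W 1 < P1d_corr0 u W n ∨
  ∃ j < i, 2 * 16 ^ (2 * 2 ^ j) * (Mom u W (2 ^ j)) ^ 2 < Mom u W (2 * 2 ^ j) ∧
    (1 / 16 : ℝ) ^ (2 * 2 ^ j) * Mom u W (2 * 2 ^ j) < P1d_corr u W n (2 * 2 ^ j)

lemma P1d_geom (i : ℕ) : ∑ j ∈ range i, (256 : ℝ) ^ (2 * 2 ^ j) ≤ 2 * 256 ^ (2 ^ i) := by
  induction i with
  | zero => simp
  | succ i ih =>
    rw [Finset.sum_range_succ]
    have h1 : (256 : ℝ) ^ (2 * 2 ^ i) = 256 ^ (2 ^ i) * 256 ^ (2 ^ i) := by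
      rw [← pow_add]; congr 1; ring
    have h2 : (256 : ℝ) ^ (2 ^ (i + 1)) = 256 ^ (2 ^ i) * 256 ^ (2 ^ i) := by
      rw [← pow_add]; congr 1; ring
    have h3 : (256 : ℝ) ≤ 256 ^ (2 ^ i) := by
      calc (256 : ℝ) = 256 ^ 1 := by norm_num
        _ ≤ 256 ^ (2 ^ i) := pow_le_pow_right₀ (by norm_num) Nat.one_le_two_pow
    rw [h1, h2]
    nlinarith

open Classical in
lemma P1d_bad_card (u : ℕ) (hu : 0 < u) (i : ℕ) (W : List ℕ) (hW : ∀ n ∈ W, 1 ≤ n) (Q : Finset ℕ)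
    (hQp : ∀ n ∈ Q, n.Prime) (hQu : ∀ n ∈ Q, n.Coprime u) (Z : ℕ) (hZ : 2 ^ i * W.prod ≤ Z)
    (hs : ∀ n ∈ Q, (n + 1) * (2 ^ i * W.prod) < u) (hs1 : (1 + 1) * (2 ^ i * W.prod) < u) :
    ((Q.filter (fun n => P1d_bad u i W n)).card : ℝ) ≤ 16 * 256 ^ (2 ^ i) * (Nat.log 2 Z + 1) := by
  set K : ℝ := Nat.log 2 Z + 1 with hK
  have hK1 : 1 ≤ K := by rw [hK]; have : (0 : ℝ) ≤ Nat.log 2 Z := Nat.cast_nonneg _; linarith
  set B0 := Q.filter (fun n => (1 / 4 : ℝ) * Mom u W 1 < P1d_corr0 u W n) with hB0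
  set B : ℕ → Finset ℕ := fun j => Q.filter (fun n =>
    2 * 16 ^ (2 * 2 ^ j) * (Mom u W (2 ^ j)) ^ 2 < Mom u W (2 * 2 ^ j) ∧
    (1 / 16 : ℝ) ^ (2 * 2 ^ j) * Mom u W (2 * 2 ^ j) < P1d_corr u W n (2 * 2 ^ j)) with hB
  have hsub : Q.filter (fun n => P1d_bad u i W n) ⊆ B0 ∪ (range i).biUnion B := by
    intro n hn
    rw [Finset.mem_filter] at hn
    obtain ⟨hnQ, hn⟩ := hn
    rw [Finset.mem_union]
    rcases hn with hn | ⟨j, hj, hn⟩
    · left
      rw [hB0, Finset.mem_filter]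
      exact ⟨hnQ, hn⟩
    · right
      rw [Finset.mem_biUnion]
      refine ⟨j, Finset.mem_range.2 hj, ?_⟩
      rw [hB, Finset.mem_filter]
      exact ⟨hnQ, hn⟩
  have hWp : 1 ≤ W.prod := List.one_le_prod_of_one_le hW
  have hlog : ∀ c : ℕ, c ≤ 2 ^ i → ((Nat.log 2 (c * W.prod) : ℕ) : ℝ) + 1 ≤ K := by
    intro c hc
    rw [hK]
    have : Nat.log 2 (c * W.prod) ≤ Nat.log 2 Z :=
      Nat.log_mono_right ((Nat.mul_le_mul_right _ hc).trans hZ)
    have h2 : ((Nat.log 2 (c * W.prod) : ℕ) : ℝ) ≤ Nat.log 2 Z := by exact_mod_cast this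
    linarith
  have hsc : ∀ c : ℕ, c ≤ 2 ^ i → ∀ n ∈ Q, (n + 1) * (c * W.prod) < u := by
    intro c hc n hn
    refine lt_of_le_of_lt ?_ (hs n hn)
    exact Nat.mul_le_mul_left _ (Nat.mul_le_mul_right _ hc)
  have hsc1 : ∀ c : ℕ, c ≤ 2 ^ i → (1 + 1) * (c * W.prod) < u := by
    intro c hc
    refine lt_of_le_of_lt ?_ hs1
    exact Nat.mul_le_mul_left _ (Nat.mul_le_mul_right _ hc)
  have h0 : (B0.card : ℝ) ≤ 16 * K := by
    have h1 := P1d_bad0 u hu W hW Q hQp hQu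
      (fun n hn => by simpa using hsc 1 Nat.one_le_two_pow n hn)
      (by simpa using hsc1 1 Nat.one_le_two_pow) B0 (Finset.filter_subset _ _)
      (fun n hn => by rw [hB0, Finset.mem_filter] at hn; exact hn.2)
    have h2 := hlog 1 Nat.one_le_two_pow
    rw [one_mul] at h2
    linarith
  have hj : ∀ j ∈ range i, ((B j).card : ℝ) ≤ 4 * 256 ^ (2 * 2 ^ j) * K := by
    intro j hj
    rw [Finset.mem_range] at hj
    have hc : 2 * 2 ^ j ≤ 2 ^ i := by
      rw [← pow_succ']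
      exact Nat.pow_le_pow_right (by norm_num) hj
    rcases (B j).eq_empty_or_nonempty with he | ⟨n0, hn0⟩
    · rw [he, Finset.card_empty, Nat.cast_zero]
      positivity
    · have hD : 2 * 16 ^ (2 * 2 ^ j) * (Mom u W (2 ^ j)) ^ 2 < Mom u W (2 * 2 ^ j) := by
        rw [hB, Finset.mem_filter] at hn0
        exact hn0.2.1
      have h1 := P1d_badj u hu W hW (2 ^ j) Q hQp hQu (hsc _ hc) (hsc1 _ hc) hD (B j)
        (Finset.filter_subset _ _)
        (fun n hn => by rw [hB, Finset.mem_filter] at hn; exact hn.2.2)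
      have h2 := hlog _ hc
      refine h1.trans ?_
      exact mul_le_mul_of_nonneg_left h2 (by positivity)
  have hcard : ((Q.filter (fun n => P1d_bad u i W n)).card : ℝ) ≤
      (B0.card : ℝ) + ∑ j ∈ range i, ((B j).card : ℝ) := by
    have h1 := Finset.card_le_card hsub
    have h2 := Finset.card_union_le B0 ((range i).biUnion B)
    have h3 := Finset.card_biUnion_le (s := range i) (t := B)
    have h4 : (Q.filter (fun n => P1d_bad u i W n)).card ≤ B0.card + ∑ j ∈ range i, (B j).card := by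
      omega
    exact_mod_cast h4
  calc ((Q.filter (fun n => P1d_bad u i W n)).card : ℝ)
      ≤ (B0.card : ℝ) + ∑ j ∈ range i, ((B j).card : ℝ) := hcard
    _ ≤ 16 * K + ∑ j ∈ range i, 4 * 256 ^ (2 * 2 ^ j) * K := add_le_add h0 (Finset.sum_le_sum hj)
    _ = 16 * K + 4 * K * ∑ j ∈ range i, (256 : ℝ) ^ (2 * 2 ^ j) := by
        rw [Finset.mul_sum]
        congr 1
        apply Finset.sum_congr rfl
        intro j _
        ring
    _ ≤ 16 * K + 4 * K * (2 * 256 ^ (2 ^ i)) := by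
        have := P1d_geom i
        have h4 : (0 : ℝ) ≤ 4 * K := by linarith
        nlinarith [mul_le_mul_of_nonneg_left this h4]
    _ ≤ 16 * 256 ^ (2 ^ i) * K := by
        have h3 : (256 : ℝ) ≤ 256 ^ (2 ^ i) := by
          calc (256 : ℝ) = 256 ^ 1 := by norm_num
            _ ≤ 256 ^ (2 ^ i) := pow_le_pow_right₀ (by norm_num) Nat.one_le_two_pow
        nlinarith

open Classical in
/-- number of good steps -/
noncomputable def P1d_g (u i : ℕ) : List ℕ → ℕ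
  | [] => 0
  | (n :: W) => P1d_g u i W + (if P1d_bad u i W n then 0 else 1)

lemma P1d_claim (u : ℕ) (hu : 0 < u) (i : ℕ) (W : List ℕ) (hW : ∀ n ∈ W, n.Coprime u) :
    ∀ j ≤ i, Mom u W (2 ^ j) ≤ (5 / 8 : ℝ) ^ (2 ^ j * P1d_g u i W) * 64 ^ (j * 2 ^ j) := by
  induction W with
  | nil =>
    intro j _
    have h1 := mom_le_one u hu [] (2 ^ j)
    have h2 : (1 : ℝ) ≤ 64 ^ (j * 2 ^ j) := one_le_pow₀ (by norm_num)
    simp only [P1d_g, mul_zero, pow_zero, one_mul]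
    linarith
  | cons n W ih =>
    have hn : n.Coprime u := hW n (by simp)
    have ih' := ih (fun m hm => hW m (List.mem_cons_of_mem _ hm))
    intro j hj
    by_cases hb : P1d_bad u i W n
    · have hg : P1d_g u i (n :: W) = P1d_g u i W := by
        simp only [P1d_g, if_pos hb, add_zero]
      rw [hg]
      exact (mom_mono u hu W n (2 ^ j) hn).trans (ih' j hj)
    · have hg : P1d_g u i (n :: W) = P1d_g u i W + 1 := by
        simp only [P1d_g, if_neg hb]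
      rw [hg]
      unfold P1d_bad at hb
      push Not at hb
      obtain ⟨hb0, hbj⟩ := hb
      rcases Nat.eq_zero_or_pos j with rfl | hj0
      · have h1 := mom_contract_one u hu W n hn hb0
        have h2 := ih' 0 (Nat.zero_le _)
        rw [pow_zero] at h2 ⊢
        rw [one_mul] at h2 ⊢
        rw [zero_mul, pow_zero, mul_one] at h2 ⊢
        rw [pow_succ]
        linarith
      · obtain ⟨j', rfl⟩ : ∃ j', j = j' + 1 := ⟨j - 1, by omega⟩
        have hm : 2 ^ (j' + 1) = 2 * 2 ^ j' := by rw [pow_succ']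
        have h1 := ih' (j' + 1) hj
        by_cases hD : 2 * 16 ^ (2 * 2 ^ j') * (Mom u W (2 ^ j')) ^ 2 < Mom u W (2 * 2 ^ j')
        · have h2 := hbj j' (by omega) hD
          have hm2 : 2 ≤ 2 * 2 ^ j' := by
            have := Nat.one_le_two_pow (n := j')
            omega
          have h3 := mom_contract u hu W n (2 * 2 ^ j') hn hm2 h2
          rw [hm] at h1 ⊢
          calc Mom u (n :: W) (2 * 2 ^ j') ≤ (5 / 8 : ℝ) ^ (2 * 2 ^ j') * Mom u W (2 * 2 ^ j') := h3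
            _ ≤ (5 / 8 : ℝ) ^ (2 * 2 ^ j') * ((5 / 8 : ℝ) ^ (2 * 2 ^ j' * P1d_g u i W) *
                64 ^ ((j' + 1) * (2 * 2 ^ j'))) := mul_le_mul_of_nonneg_left h1 (by positivity)
            _ = (5 / 8 : ℝ) ^ (2 * 2 ^ j' * (P1d_g u i W + 1)) * 64 ^ ((j' + 1) * (2 * 2 ^ j')) := by
                rw [mul_add (2 * 2 ^ j') (P1d_g u i W) 1, pow_add]
                ring
        · push Not at hD
          have h2 := ih' j' (by omega)
          have h3 := mom_mono u hu W n (2 * 2 ^ j') hn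
          rw [hm]
          have h4 : (Mom u W (2 ^ j')) ^ 2 ≤
              ((5 / 8 : ℝ) ^ (2 ^ j' * P1d_g u i W) * 64 ^ (j' * 2 ^ j')) ^ 2 :=
            pow_le_pow_left₀ (mom_nonneg u W _) h2 2
          have h5 : (2 : ℝ) * 16 ^ (2 * 2 ^ j') ≤ (5 / 8) ^ (2 * 2 ^ j') * 64 ^ (2 * 2 ^ j') := by
            rw [← mul_pow]
            have h6 : ((5 / 8 : ℝ) * 64) = 16 * (5 / 2) := by norm_num
            rw [h6, mul_pow]
            have h7 : (2 : ℝ) ≤ (5 / 2) ^ (2 * 2 ^ j') := by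
              calc (2 : ℝ) ≤ (5 / 2) ^ 1 := by norm_num
                _ ≤ (5 / 2) ^ (2 * 2 ^ j') := pow_le_pow_right₀ (by norm_num) (by
                    have := Nat.one_le_two_pow (n := j')
                    omega)
            have h8 : (0 : ℝ) < 16 ^ (2 * 2 ^ j') := by positivity
            nlinarith
          calc Mom u (n :: W) (2 * 2 ^ j') ≤ Mom u W (2 * 2 ^ j') := h3
            _ ≤ 2 * 16 ^ (2 * 2 ^ j') * (Mom u W (2 ^ j')) ^ 2 := hD
            _ ≤ 2 * 16 ^ (2 * 2 ^ j') *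
                ((5 / 8 : ℝ) ^ (2 ^ j' * P1d_g u i W) * 64 ^ (j' * 2 ^ j')) ^ 2 :=
                  mul_le_mul_of_nonneg_left h4 (by positivity)
            _ ≤ ((5 / 8) ^ (2 * 2 ^ j') * 64 ^ (2 * 2 ^ j')) *
                ((5 / 8 : ℝ) ^ (2 ^ j' * P1d_g u i W) * 64 ^ (j' * 2 ^ j')) ^ 2 :=
                  mul_le_mul_of_nonneg_right h5 (by positivity)
            _ = (5 / 8 : ℝ) ^ (2 * 2 ^ j' * (P1d_g u i W + 1)) *
                64 ^ ((j' + 1) * (2 * 2 ^ j')) := by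
                have e1 : 2 * 2 ^ j' * (P1d_g u i W + 1) =
                    2 * 2 ^ j' + (2 ^ j' * P1d_g u i W) * 2 := by ring
                have e2 : (j' + 1) * (2 * 2 ^ j') = 2 * 2 ^ j' + (j' * 2 ^ j') * 2 := by ring
                rw [e1, e2, pow_add, pow_add, pow_mul _ _ 2, pow_mul _ (j' * 2 ^ j') 2, mul_pow]
                ring

theorem moment_bound (u Y κ i : ℕ) (Q : Finset ℕ) (hu : 0 < u) (hY : 1 ≤ Y)
    (hQp : ∀ n ∈ Q, n.Prime) (hQu : ∀ n ∈ Q, n.Coprime u) (hQY : ∀ n ∈ Q, n ≤ Y)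
    (hsize : 2 * 2 ^ i * Y ^ κ < u)
    (hcard : 16 * 256 ^ (2 ^ i) * (Nat.log 2 (2 ^ i * Y ^ κ) + 1) * 2 ^ (2 ^ i) ≤ Q.card) :
    avg Q κ (fun W => Mom u W (2 ^ i)) ≤ ((5 / 8 : ℝ) ^ (2 ^ i) * 2) ^ κ * 64 ^ (i * 2 ^ i) := by
  classical
  have hQpos : 0 < Q.card := lt_of_lt_of_le (by positivity) hcard
  have hQr : (0 : ℝ) < Q.card := by exact_mod_cast hQpos
  -- product bound
  have hprod : ∀ W : List ℕ, (∀ n ∈ W, n ∈ Q) → W.prod ≤ Y ^ W.length := by
    intro W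
    induction W with
    | nil => intro _; simp
    | cons n W ih =>
      intro h
      rw [List.prod_cons, List.length_cons, pow_succ']
      exact Nat.mul_le_mul (hQY n (h n (by simp))) (ih (fun m hm => h m (List.mem_cons_of_mem _ hm)))
  -- the averaged claim
  have main : ∀ k ≤ κ, avg Q k (fun W => (5 / 8 : ℝ) ^ (2 ^ i * P1d_g u i W)) ≤
      ((5 / 8 : ℝ) ^ (2 ^ i) * 2) ^ k := by
    intro k
    induction k with
    | zero =>
      intro _
      rw [avg_zero]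
      simp [P1d_g]
    | succ k ih =>
      intro hk
      rw [avg_succ, pow_succ]
      have hstep : ∀ W : List ℕ, W.length = k → (∀ a ∈ W, a ∈ Q) →
          (Q.card : ℝ)⁻¹ • ∑ a ∈ Q, (5 / 8 : ℝ) ^ (2 ^ i * P1d_g u i (a :: W)) ≤
          ((5 / 8 : ℝ) ^ (2 ^ i) * 2) * (5 / 8 : ℝ) ^ (2 ^ i * P1d_g u i W) := by
        intro W hWk hWQ
        have hW1 : ∀ n ∈ W, 1 ≤ n := fun n hn => (hQp n (hWQ n hn)).one_lt.le
        have hWp : W.prod ≤ Y ^ k := by
          have := hprod W hWQ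
          rwa [hWk] at this
        have hkk : Y ^ (k + 1) ≤ Y ^ κ := Nat.pow_le_pow_right hY hk
        have hYk : Y ^ k ≤ Y ^ κ := Nat.pow_le_pow_right hY (by omega)
        have hs : ∀ n ∈ Q, (n + 1) * (2 ^ i * W.prod) < u := by
          intro n hn
          refine lt_of_le_of_lt ?_ hsize
          have h1 : n + 1 ≤ 2 * Y := by
            have := hQY n hn
            omega
          calc (n + 1) * (2 ^ i * W.prod) ≤ (2 * Y) * (2 ^ i * Y ^ k) :=
                Nat.mul_le_mul h1 (Nat.mul_le_mul_left _ hWp)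
            _ = 2 * 2 ^ i * Y ^ (k + 1) := by ring
            _ ≤ 2 * 2 ^ i * Y ^ κ := Nat.mul_le_mul_left _ hkk
        have hs1 : (1 + 1) * (2 ^ i * W.prod) < u := by
          refine lt_of_le_of_lt ?_ hsize
          calc (1 + 1) * (2 ^ i * W.prod) ≤ (1 + 1) * (2 ^ i * Y ^ κ) :=
                Nat.mul_le_mul_left _ (Nat.mul_le_mul_left _ (hWp.trans hYk))
            _ = 2 * 2 ^ i * Y ^ κ := by ring
        have hbc := P1d_bad_card u hu i W hW1 Q hQp hQu (2 ^ i * Y ^ κ)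
          (Nat.mul_le_mul_left _ (hWp.trans hYk)) hs hs1
        have hcardR : (16 : ℝ) * 256 ^ (2 ^ i) * (Nat.log 2 (2 ^ i * Y ^ κ) + 1) * 2 ^ (2 ^ i) ≤
            Q.card := by exact_mod_cast hcard
        set c : ℝ := (5 / 8 : ℝ) ^ (2 ^ i) with hc
        have hc0 : 0 < c := by positivity
        have hc2 : (1 : ℝ) ≤ c * 2 ^ (2 ^ i) := by
          rw [hc, ← mul_pow]
          exact one_le_pow₀ (by norm_num)
        have hterm : ∀ a ∈ Q, (5 / 8 : ℝ) ^ (2 ^ i * P1d_g u i (a :: W)) ≤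
            (5 / 8 : ℝ) ^ (2 ^ i * P1d_g u i W) * ((if P1d_bad u i W a then (1 : ℝ) else 0) + c) := by
          intro a _
          have hp0 : (0 : ℝ) ≤ (5 / 8 : ℝ) ^ (2 ^ i * P1d_g u i W) := by positivity
          by_cases hb : P1d_bad u i W a
          · simp only [P1d_g, if_pos hb, add_zero]
            nlinarith
          · simp only [P1d_g, if_neg hb, zero_add]
            rw [mul_add, pow_add, mul_one]
        have hsum : ∑ a ∈ Q, (5 / 8 : ℝ) ^ (2 ^ i * P1d_g u i (a :: W)) ≤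
            (5 / 8 : ℝ) ^ (2 ^ i * P1d_g u i W) *
              (((Q.filter (fun n => P1d_bad u i W n)).card : ℝ) + Q.card * c) := by
          refine (Finset.sum_le_sum hterm).trans (le_of_eq ?_)
          rw [← Finset.mul_sum, Finset.sum_add_distrib, Finset.sum_const, nsmul_eq_mul,
            Finset.sum_boole]
        have hbound : ((Q.filter (fun n => P1d_bad u i W n)).card : ℝ) ≤ Q.card * c := by
          refine hbc.trans ?_
          have hB0 : (0 : ℝ) ≤ 16 * 256 ^ (2 ^ i) * (Nat.log 2 (2 ^ i * Y ^ κ) + 1) := by positivity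
          calc (16 : ℝ) * 256 ^ (2 ^ i) * (Nat.log 2 (2 ^ i * Y ^ κ) + 1)
              ≤ (16 * 256 ^ (2 ^ i) * (Nat.log 2 (2 ^ i * Y ^ κ) + 1)) * (c * 2 ^ (2 ^ i)) :=
                le_mul_of_one_le_right hB0 hc2
            _ = ((16 * 256 ^ (2 ^ i) * (Nat.log 2 (2 ^ i * Y ^ κ) + 1)) * 2 ^ (2 ^ i)) * c := by ring
            _ ≤ Q.card * c := mul_le_mul_of_nonneg_right hcardR hc0.le
        rw [smul_eq_mul, inv_mul_le_iff₀ hQr]
        refine hsum.trans ?_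
        have hp0 : (0 : ℝ) ≤ (5 / 8 : ℝ) ^ (2 ^ i * P1d_g u i W) := by positivity
        calc (5 / 8 : ℝ) ^ (2 ^ i * P1d_g u i W) *
              (((Q.filter (fun n => P1d_bad u i W n)).card : ℝ) + Q.card * c)
            ≤ (5 / 8 : ℝ) ^ (2 ^ i * P1d_g u i W) * (Q.card * c + Q.card * c) :=
              mul_le_mul_of_nonneg_left (by linarith) hp0
          _ = _ := by ring
      refine (avg_mono Q k _ _ hstep).trans ?_
      rw [avg_mul_left, mul_comm]
      exact mul_le_mul_of_nonneg_right (ih (by omega)) (by positivity)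
  -- conclusion
  have h1 : avg Q κ (fun W => Mom u W (2 ^ i)) ≤
      avg Q κ (fun W => 64 ^ (i * 2 ^ i) * (5 / 8 : ℝ) ^ (2 ^ i * P1d_g u i W)) := by
    apply avg_mono
    intro W _ hWQ
    rw [mul_comm]
    exact P1d_claim u hu i W (fun n hn => hQu n (hWQ n hn)) i le_rfl
  refine h1.trans ?_
  rw [avg_mul_left, mul_comm]
  exact mul_le_mul_of_nonneg_right (main κ le_rfl) (by positivity)

end Crest.Agent.E25
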