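import Mathlib

/-!
Part Q1 of S0025: the greedy expansion. See docs row `S0025_PLAN`.
-/

set_option autoImplicit false

namespace Crest.Agent.E25

open Finset

/-- state of the greedy algorithm -/
def GSt (r : ℚ) (S : Finset ℕ) (U A : ℕ) : Prop :=
  (∀ n ∈ S, 2 ≤ n) ∧ 0 < U ∧ r = ∑ n ∈ S, (1 : ℚ) / n + (A : ℚ) / U ∧ (∀ n ∈ S, n ∣ U) ∧
    (∀ n ∈ S, (A : ℚ) / U < 1 / n)

/-- one greedy step -/
lemma Q1_step (r : ℚ) (S : Finset ℕ) (U A M : ℕ) (h : GSt r S U A) (hM : 1 ≤ M) (hMU : M ∣ U)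
    (hA : 0 < A) (hlt : (A : ℚ) / U * M < 1) :
    ∃ u A' : ℕ, 2 ≤ u ∧ 1 ≤ (A : ℚ) / U * M * u ∧ (A : ℚ) / U * M * u < 1 + (A : ℚ) / U * M ∧
      GSt r (insert (M * u) S) (U * u) A' ∧ A' < A := by
  obtain ⟨hS2, hU, hr, hSU, hSlt⟩ := h
  obtain ⟨K, hK⟩ := hMU
  have hU' : (0 : ℚ) < U := by exact_mod_cast hU
  have hA' : (0 : ℚ) < A := by exact_mod_cast hA
  have hM' : (0 : ℚ) < M := by exact_mod_cast hM
  have hρ : 0 < (A : ℚ) / U := div_pos hA' hU'
  have hx : 0 < (A : ℚ) / U * M := mul_pos hρ hM'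
  set ρ : ℚ := (A : ℚ) / U with hρdef
  set x : ℚ := ρ * M with hxdef
  set u : ℕ := ⌈1 / x⌉₊ with hu
  have hu1 : 1 / x ≤ u := Nat.le_ceil _
  have hu2 : (u : ℚ) < 1 / x + 1 := Nat.ceil_lt_add_one (by positivity)
  have h1x : 1 < 1 / x := by rw [lt_div_iff₀ hx]; linarith
  have hu3 : 2 ≤ u := by
    have : (1 : ℚ) < u := lt_of_lt_of_le h1x hu1
    have : 1 < u := by exact_mod_cast this
    omega
  have hupos : (0 : ℚ) < u := by
    have : 0 < u := by omega
    exact_mod_cast this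
  have hxu1 : 1 ≤ x * u := by
    have := mul_le_mul_of_nonneg_left hu1 hx.le
    rwa [mul_one_div_cancel hx.ne'] at this
  have hxu2 : x * u < 1 + x := by
    have := mul_lt_mul_of_pos_left hu2 hx
    rwa [mul_add, mul_one_div_cancel hx.ne', mul_one] at this
  have hKU : (U : ℚ) = M * K := by rw [hK]; push_cast; ring
  have hKpos : 0 < K := by
    rcases Nat.eq_zero_or_pos K with h0 | h0
    · rw [h0] at hK; omega
    · exact h0
  have hKpos' : (0 : ℚ) < K := by exact_mod_cast hKpos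
  -- x * u ≥ 1 means A * u ≥ K
  have hxK : x = A / K := by
    rw [hxdef, hρdef, hKU]; field_simp
  have hAK : K ≤ A * u := by
    rw [hxK] at hxu1
    rw [div_mul_eq_mul_div, le_div_iff₀ hKpos', one_mul] at hxu1
    exact_mod_cast hxu1
  have hAK2 : A * u < K + A := by
    rw [hxK] at hxu2
    have h2 := mul_lt_mul_of_pos_right hxu2 hKpos'
    have h3 : (A : ℚ) / K * u * K = A * u := by field_simp
    have h4 : (1 + (A : ℚ) / K) * K = K + A := by field_simp
    rw [h3, h4] at h2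
    exact_mod_cast h2
  have hcast : ((A * u - K : ℕ) : ℚ) = A * u - K := by
    push_cast [Nat.cast_sub hAK]; ring
  have hnew : ((A * u - K : ℕ) : ℚ) / ((U * u : ℕ) : ℚ) = ρ - 1 / ((M * u : ℕ) : ℚ) := by
    rw [hcast, hρdef]; push_cast; rw [hKU]; field_simp
  have hrho1 : ρ - 1 / ((M * u : ℕ) : ℚ) < 1 / ((M * u : ℕ) : ℚ) := by
    have h1 : (0 : ℚ) < ((M * u : ℕ) : ℚ) := by push_cast; positivity
    rw [sub_lt_iff_lt_add, ← add_div, lt_div_iff₀ h1]
    push_cast
    have : ρ * (M * u) = x * u := by rw [hxdef]; ring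
    rw [this]
    linarith
  have hrho2 : 1 / ((M * u : ℕ) : ℚ) ≤ ρ := by
    have h1 : (0 : ℚ) < ((M * u : ℕ) : ℚ) := by push_cast; positivity
    rw [div_le_iff₀ h1]
    push_cast
    have : ρ * (M * u) = x * u := by rw [hxdef]; ring
    rw [this]
    exact hxu1
  have hnotin : M * u ∉ S := by
    intro hmem
    have := hSlt _ hmem
    linarith
  refine ⟨u, A * u - K, hu3, hxu1, hxu2, ⟨?_, ?_, ?_, ?_, ?_⟩, by omega⟩
  · intro n hn
    rcases Finset.mem_insert.mp hn with rfl | hn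
    · nlinarith
    · exact hS2 n hn
  · have : 0 < u := by omega
    positivity
  · rw [Finset.sum_insert hnotin, hnew, hr]
    ring
  · intro n hn
    rcases Finset.mem_insert.mp hn with rfl | hn
    · exact Nat.mul_dvd_mul ⟨K, hK⟩ dvd_rfl
    · exact (hSU n hn).mul_right u
  · intro n hn
    rw [hnew]
    rcases Finset.mem_insert.mp hn with rfl | hn
    · exact hrho1
    · have h1 : (0 : ℚ) < 1 / ((M * u : ℕ) : ℚ) := by
        have : (0 : ℚ) < ((M * u : ℕ) : ℚ) := by push_cast; positivity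
        positivity
      have := hSlt n hn
      linarith

/-- phase 1: after `log₂ s + 2` steps the remainder is at most `2^(-s)` -/
lemma Q1_phase1 (s a b : ℕ) (ha : 1 ≤ a) (hab : a < b) (hb : b ≤ 2 ^ s) (j : ℕ) :
    ∃ (S : Finset ℕ) (U A : ℕ), GSt ((a : ℚ) / b) S U A ∧ S.card ≤ j + 1 ∧ b ≤ U ∧
      (((A : ℚ) / U * 2 ^ s ≤ 1 ∧ U ≤ 2 * b * 2 ^ (2 * s)) ∨
        (1 < (A : ℚ) / U * 2 ^ s ∧ A ≤ b ∧ (A : ℚ) / U * 2 ^ (2 ^ j) ≤ 1)) := by
  have hbpos : 0 < b := by omega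
  have hb' : (0 : ℚ) < b := by exact_mod_cast hbpos
  have ha' : (0 : ℚ) < a := by exact_mod_cast ha
  induction j with
  | zero =>
    have h0 : GSt ((a : ℚ) / b) ∅ b a := by
      refine ⟨by simp, hbpos, by simp, by simp, by simp⟩
    have hlt : (a : ℚ) / b * (1 : ℕ) < 1 := by
      rw [Nat.cast_one, mul_one, div_lt_one hb']
      exact_mod_cast hab
    obtain ⟨u, A', hu2, h1, h2, hG, hA'⟩ := Q1_step _ _ _ _ 1 h0 le_rfl (one_dvd _) ha hlt
    rw [one_mul] at hG
    refine ⟨_, _, _, hG, ?_, ?_, ?_⟩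
    · simp
    · nlinarith
    · have hupos : (0 : ℚ) < u := by
        have : 0 < u := by omega
        exact_mod_cast this
      have hu2' : (2 : ℚ) ≤ u := by exact_mod_cast hu2
      by_cases hc : (A' : ℚ) / ((b * u : ℕ) : ℚ) * 2 ^ s ≤ 1
      · left
        refine ⟨hc, ?_⟩
        -- u ≤ b
        have hub : u ≤ b := by
          have h3 : (a : ℚ) / b * (1 : ℕ) * u < 1 + (a : ℚ) / b * (1 : ℕ) := h2
          rw [Nat.cast_one, mul_one] at h3
          have h4 : (a : ℚ) * u < b + a := by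
            have := mul_lt_mul_of_pos_right h3 hb'
            have e1 : (a : ℚ) / b * u * b = a * u := by field_simp
            have e2 : (1 + (a : ℚ) / b) * b = b + a := by field_simp
            rwa [e1, e2] at this
          have h5 : a * u < b + a := by exact_mod_cast h4
          by_contra hcon
          push Not at hcon
          have : a * (b + 1) ≤ a * u := Nat.mul_le_mul_left a hcon
          nlinarith
        have h2s : 1 ≤ 2 ^ s := Nat.one_le_two_pow
        calc b * u ≤ b * 2 ^ s := Nat.mul_le_mul_left b (hub.trans hb)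
          _ ≤ 2 * b * 2 ^ (2 * s) := by
            rw [pow_mul', sq]
            nlinarith [Nat.mul_le_mul_left (b * 2 ^ s) h2s]
      · right
        push Not at hc
        refine ⟨hc, by omega, ?_⟩
        have hA'' : (A' : ℚ) < b := by
          have : A' < b := by omega
          exact_mod_cast this
        rw [Nat.cast_mul, pow_zero, pow_one, div_mul_eq_mul_div, div_le_one (by positivity)]
        nlinarith
  | succ j ih =>
    obtain ⟨S, U, A, hG, hcard, hbU, hcase⟩ := ih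
    rcases hcase with hc | ⟨hc1, hc2, hc3⟩
    · exact ⟨S, U, A, hG, by omega, hbU, Or.inl hc⟩
    have hUpos : 0 < U := hG.2.1
    have hU' : (0 : ℚ) < U := by exact_mod_cast hUpos
    have hApos : 0 < A := by
      rcases Nat.eq_zero_or_pos A with h | h
      · rw [h] at hc1; norm_num at hc1
      · exact h
    have hA' : (0 : ℚ) < A := by exact_mod_cast hApos
    have h22 : (2 : ℚ) ≤ 2 ^ (2 ^ j) := by
      calc (2 : ℚ) = 2 ^ 1 := by norm_num
        _ ≤ 2 ^ (2 ^ j) := pow_le_pow_right₀ (by norm_num) Nat.one_le_two_pow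
    have hρ : 0 < (A : ℚ) / U := div_pos hA' hU'
    have hlt : (A : ℚ) / U * (1 : ℕ) < 1 := by
      rw [Nat.cast_one, mul_one]
      nlinarith
    obtain ⟨u, A', hu2, h1, h2, hG', hAA'⟩ := Q1_step _ _ _ _ 1 hG le_rfl (one_dvd _) hApos hlt
    rw [one_mul] at hG'
    rw [Nat.cast_one, mul_one] at h1 h2 hlt
    have hupos : (0 : ℚ) < u := by
      have : 0 < u := by omega
      exact_mod_cast this
    have hu2' : (2 : ℚ) ≤ u := by exact_mod_cast hu2
    refine ⟨_, _, _, hG', ?_, ?_, ?_⟩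
    · refine (Finset.card_insert_le _ _).trans (by omega)
    · nlinarith
    · -- U * u ≤ 2 b 2^(2s)
      have hX : (0 : ℚ) < 2 ^ s := by positivity
      have hUX : (U : ℚ) < A * 2 ^ s := by
        rw [div_mul_eq_mul_div, lt_div_iff₀ hU', one_mul] at hc1
        exact hc1
      have huX : (u : ℚ) < 2 * 2 ^ s := by
        have h3 : (A : ℚ) / U * u < 2 := by linarith
        have h4 : (u : ℚ) ≤ (A : ℚ) / U * u * 2 ^ s := by nlinarith
        nlinarith
      have hUu : U * u ≤ 2 * b * 2 ^ (2 * s) := by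
        have : (U : ℚ) * u ≤ 2 * b * 2 ^ (2 * s) := by
          have hcb : (A : ℚ) ≤ b := by exact_mod_cast hc2
          calc (U : ℚ) * u ≤ (A * 2 ^ s) * (2 * 2 ^ s) := by
                apply mul_le_mul hUX.le huX.le hupos.le (by positivity)
            _ = 2 * A * 2 ^ (2 * s) := by rw [pow_mul', sq]; ring
            _ ≤ 2 * b * 2 ^ (2 * s) := by gcongr
        exact_mod_cast this
      by_cases hc : (A' : ℚ) / ((U * u : ℕ) : ℚ) * 2 ^ s ≤ 1
      · exact Or.inl ⟨hc, hUu⟩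
      · right
        push Not at hc
        refine ⟨hc, by omega, ?_⟩
        have h5 : (A' : ℚ) / ((U * u : ℕ) : ℚ) ≤ (A : ℚ) / U * ((A : ℚ) / U) := by
          have h6 : (A' : ℚ) ≤ A := by exact_mod_cast hAA'.le
          have h7 : (1 : ℚ) / u ≤ (A : ℚ) / U := by
            rw [div_le_iff₀ hupos]; exact h1
          calc (A' : ℚ) / ((U * u : ℕ) : ℚ) = (A' : ℚ) / U * (1 / u) := by push_cast; field_simp
            _ ≤ (A : ℚ) / U * ((A : ℚ) / U) := by gcongr
        calc (A' : ℚ) / ((U * u : ℕ) : ℚ) * 2 ^ (2 ^ (j + 1))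
            ≤ (A : ℚ) / U * ((A : ℚ) / U) * 2 ^ (2 ^ (j + 1)) := by gcongr
          _ = ((A : ℚ) / U * 2 ^ (2 ^ j)) * ((A : ℚ) / U * 2 ^ (2 ^ j)) := by
            rw [pow_succ, pow_mul]; ring
          _ ≤ 1 * 1 := by
            apply mul_le_mul hc3 hc3 (by positivity) (by norm_num)
          _ = 1 := by norm_num

/-- phase 2 -/
lemma Q1_phase2 (s J a b U0 : ℕ) (hs : 1 ≤ s) (hU0 : 2 ^ (s - 1) ≤ U0 ∧ U0 ≤ 2 ^ (4 * s)) (c : ℕ)
    (S0 : Finset ℕ) (A0 : ℕ) (hG : GSt ((a : ℚ) / b) S0 U0 A0) (hc : S0.card ≤ c)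
    (hrho : (A0 : ℚ) / U0 * 2 ^ s ≤ 1) (i : ℕ) (hi : i ≤ J) :
    ∃ (S : Finset ℕ) (us : List ℕ) (A : ℕ), GSt ((a : ℚ) / b) S us.prod A ∧ S.card ≤ c + i ∧
      (∀ u ∈ us, 2 ^ (s - 1) ≤ u ∧ u ≤ 2 ^ (4 * s)) ∧ us.length ≤ 1 + J + i ∧
      2 ^ (s * J) ∣ us.prod ∧ (A : ℚ) / us.prod * 2 ^ (s * (i + 1)) ≤ 1 := by
  induction i with
  | zero =>
    have hX : 0 < 2 ^ (s * J) := by positivity
    have hX' : (0 : ℚ) < 2 ^ (s * J) := by positivity
    obtain ⟨hS2, hU, hr, hSU, hSlt⟩ := hG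
    have hU' : (0 : ℚ) < U0 := by exact_mod_cast hU
    have hprod : (U0 :: List.replicate J (2 ^ s)).prod = U0 * 2 ^ (s * J) := by
      rw [List.prod_cons, List.prod_replicate, ← pow_mul]
    have hval : ((A0 * 2 ^ (s * J) : ℕ) : ℚ) / (((U0 :: List.replicate J (2 ^ s)).prod : ℕ) : ℚ)
        = (A0 : ℚ) / U0 := by
      rw [hprod]; push_cast; field_simp
    refine ⟨S0, U0 :: List.replicate J (2 ^ s), A0 * 2 ^ (s * J), ⟨hS2, ?_, ?_, ?_, ?_⟩, by omega,
      ?_, ?_, ?_, ?_⟩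
    · rw [hprod]; positivity
    · rw [hval]; exact hr
    · intro n hn
      rw [hprod]
      exact (hSU n hn).mul_right _
    · intro n hn
      rw [hval]
      exact hSlt n hn
    · intro u hu
      rcases List.mem_cons.mp hu with rfl | hu
      · exact hU0
      · rw [List.eq_of_mem_replicate hu]
        exact ⟨Nat.pow_le_pow_right (by norm_num) (by omega),
          Nat.pow_le_pow_right (by norm_num) (by omega)⟩
    · simp only [List.length_cons, List.length_replicate]; omega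
    · rw [hprod]; exact Dvd.intro_left _ rfl
    · rw [hval]; simpa using hrho
  | succ i ih =>
    obtain ⟨S, us, A, hG1, hcard, hus, hlen, hdvd, hle⟩ := ih (by omega)
    by_cases hsk : (A : ℚ) / us.prod * 2 ^ (s * (i + 1 + 1)) ≤ 1
    · exact ⟨S, us, A, hG1, by omega, hus, by omega, hdvd, hsk⟩
    push Not at hsk
    have hUpos : 0 < us.prod := hG1.2.1
    have hU' : (0 : ℚ) < us.prod := by exact_mod_cast hUpos
    have hApos : 0 < A := by
      rcases Nat.eq_zero_or_pos A with h | h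
      · rw [h] at hsk; norm_num at hsk
      · exact h
    have hA' : (0 : ℚ) < A := by exact_mod_cast hApos
    have hρ : 0 < (A : ℚ) / us.prod := div_pos hA' hU'
    set ρ : ℚ := (A : ℚ) / us.prod with hρdef
    have hX2 : (2 : ℚ) ≤ 2 ^ s := by
      calc (2 : ℚ) = 2 ^ 1 := by norm_num
        _ ≤ 2 ^ s := pow_le_pow_right₀ (by norm_num) hs
    have hMX : ρ * 2 ^ (s * i) * 2 ^ s ≤ 1 := by
      rw [mul_assoc, ← pow_add]
      have : s * i + s = s * (i + 1) := by ring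
      rw [this]; exact hle
    have hMpos : (0 : ℚ) < ρ * 2 ^ (s * i) := by positivity
    have hlt : (A : ℚ) / us.prod * ((2 ^ (s * i) : ℕ) : ℚ) < 1 := by
      rw [Nat.cast_pow, Nat.cast_ofNat, ← hρdef]
      nlinarith
    obtain ⟨u, A', hu2, h1, h2, hG', hAA'⟩ := Q1_step _ _ _ _ (2 ^ (s * i)) hG1
      Nat.one_le_two_pow ((pow_dvd_pow 2 (Nat.mul_le_mul_left s (by omega))).trans hdvd) hApos hlt
    rw [Nat.cast_pow, Nat.cast_ofNat, ← hρdef] at h1 h2
    have hupos : (0 : ℚ) < u := by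
      have : 0 < u := by omega
      exact_mod_cast this
    -- u ≥ X
    have huX : 2 ^ s ≤ u := by
      have : (2 : ℚ) ^ s ≤ u := by
        have h3 : (2 : ℚ) ^ s * 1 ≤ 2 ^ s * (ρ * 2 ^ (s * i) * u) :=
          mul_le_mul_of_nonneg_left h1 (by positivity)
        have h4 : (2 : ℚ) ^ s * (ρ * 2 ^ (s * i) * u) = (ρ * 2 ^ (s * i) * 2 ^ s) * u := by ring
        rw [h4] at h3
        nlinarith
      exact_mod_cast this
    -- u ≤ X^2
    have huX2 : u ≤ 2 ^ (2 * s) := by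
      have : (u : ℚ) < 2 ^ (2 * s) + 1 := by
        have h3 : 1 < ρ * 2 ^ (s * i) * 2 ^ (2 * s) := by
          rw [mul_assoc, ← pow_add]
          have : s * i + 2 * s = s * (i + 1 + 1) := by ring
          rw [this]; exact hsk
        by_contra hcon
        push Not at hcon
        nlinarith [mul_le_mul_of_nonneg_left hcon hMpos.le]
      have : u < 2 ^ (2 * s) + 1 := by exact_mod_cast this
      omega
    have hprod : (us ++ [u]).prod = us.prod * u := by simp
    refine ⟨insert (2 ^ (s * i) * u) S, us ++ [u], A', ?_, ?_, ?_, ?_, ?_, ?_⟩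
    · rw [hprod]; exact hG'
    · exact (Finset.card_insert_le _ _).trans (by omega)
    · intro v hv
      rcases List.mem_append.mp hv with hv | hv
      · exact hus v hv
      · rw [List.mem_singleton] at hv
        rw [hv]
        refine ⟨le_trans (Nat.pow_le_pow_right (by norm_num) (by omega)) huX,
          huX2.trans (Nat.pow_le_pow_right (by norm_num) (by omega))⟩
    · simp only [List.length_append, List.length_singleton]; omega
    · rw [hprod]; exact hdvd.mul_right u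
    · rw [hprod, Nat.cast_mul]
      have h6 : (A' : ℚ) ≤ A := by exact_mod_cast hAA'.le
      have huX' : (2 : ℚ) ^ s ≤ u := by exact_mod_cast huX
      have hU'' : (0 : ℚ) < (us.prod : ℚ) := hU'
      calc (A' : ℚ) / ((us.prod : ℚ) * u) * 2 ^ (s * (i + 1 + 1))
          = (A' : ℚ) / us.prod * 2 ^ (s * (i + 1)) * (2 ^ s / u) := by
            have : s * (i + 1 + 1) = s * (i + 1) + s := by ring
            rw [this, pow_add]; field_simp
        _ ≤ (A : ℚ) / us.prod * 2 ^ (s * (i + 1)) * 1 := by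
            have h7 : (2 : ℚ) ^ s / u ≤ 1 := by rw [div_le_one hupos]; exact huX'
            gcongr
        _ ≤ 1 := by rw [mul_one]; exact hle

theorem greedy (J : ℕ) : ∃ s1 : ℕ, ∀ s ≥ s1, ∀ a b : ℕ, 1 ≤ a → a < b → 2 ^ (s - 1) ≤ b →
    b ≤ 2 ^ s →
    ∃ (S : Finset ℕ) (us : List ℕ) (A0 : ℕ),
      (∀ n ∈ S, 2 ≤ n) ∧ S.card ≤ Nat.log 2 s + J + 5 ∧
      (∀ u ∈ us, 2 ^ (s - 1) ≤ u ∧ u ≤ 2 ^ (4 * s)) ∧ us.length ≤ 2 * J + 2 ∧
      (a : ℚ) / b = ∑ n ∈ S, (1 : ℚ) / n + (A0 : ℚ) / us.prod ∧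
      (∀ n ∈ S, n ∣ us.prod) ∧ (A0 : ℚ) / us.prod * 2 ^ (s * (J + 1)) ≤ 1 ∧
      (∀ n ∈ S, (A0 : ℚ) / us.prod < 1 / n) := by
  refine ⟨1, ?_⟩
  intro s hs a b ha hab hb1 hb2
  obtain ⟨S, U, A, hG, hcard, hbU, hcase⟩ := Q1_phase1 s a b ha hab hb2 (Nat.log 2 s + 1)
  have hUpos : 0 < U := hG.2.1
  have hU' : (0 : ℚ) < U := by exact_mod_cast hUpos
  have hle : (A : ℚ) / U * 2 ^ s ≤ 1 ∧ U ≤ 2 * b * 2 ^ (2 * s) := by
    rcases hcase with h | ⟨h1, h2, h3⟩
    · exact h
    · exfalso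
      have hlog : s < 2 ^ (Nat.log 2 s + 1) := Nat.lt_pow_succ_log_self (by norm_num) s
      have h4 : (2 : ℚ) ^ s ≤ 2 ^ (2 ^ (Nat.log 2 s + 1)) :=
        pow_le_pow_right₀ (by norm_num) hlog.le
      have h5 : (A : ℚ) / U * 2 ^ s ≤ (A : ℚ) / U * 2 ^ (2 ^ (Nat.log 2 s + 1)) :=
        mul_le_mul_of_nonneg_left h4 (by positivity)
      linarith
  have hU4 : U ≤ 2 ^ (4 * s) := by
    have h2 : 2 ≤ 2 ^ s := by
      calc 2 = 2 ^ 1 := by norm_num
        _ ≤ 2 ^ s := Nat.pow_le_pow_right (by norm_num) hs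
    calc U ≤ 2 * b * 2 ^ (2 * s) := hle.2
      _ ≤ 2 ^ s * 2 ^ s * 2 ^ (2 * s) := by gcongr
      _ = 2 ^ (4 * s) := by rw [← pow_add, ← pow_add]; congr 1; ring
  obtain ⟨S', us, A', hG', hcard', hus, hlen, hdvd, hle'⟩ :=
    Q1_phase2 s J a b U hs ⟨hb1.trans hbU, hU4⟩ _ S A hG hcard hle.1 J le_rfl
  obtain ⟨hS2, hUp, hr, hSU, hSlt⟩ := hG'
  exact ⟨S', us, A', hS2, by omega, hus, by omega, hr, hSU, hle', hSlt⟩

end Crest.Agent.E25
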