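import Mathlib

/-!
Parts Q2, Q3 of S0025: clearing the moduli, and the final step. See docs row `S0025_PLAN`.
-/

set_option autoImplicit false

namespace Crest.Agent.E25

open Finset

/-- sum of `1/(M/d)` over divisors `d` of `M` -/
lemma Q2_sum_image (M : ℕ) (hM : 0 < M) (D : Finset ℕ) (hD : ∀ d ∈ D, d ∣ M) :
    ∑ n ∈ D.image (fun d => M / d), (1 : ℚ) / n = (∑ d ∈ D, (d : ℚ)) / M := by
  have hinj : Set.InjOn (fun d => M / d) (D : Set ℕ) := by
    intro d hd e he hde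
    simp only at hde
    obtain ⟨x, hx⟩ := hD d hd
    obtain ⟨y, hy⟩ := hD e he
    have hdpos : 0 < d := Nat.pos_of_dvd_of_pos (hD d hd) hM
    have hepos : 0 < e := Nat.pos_of_dvd_of_pos (hD e he) hM
    have h1 : M / d = x := by rw [hx]; exact Nat.mul_div_cancel_left x hdpos
    have h2 : M / e = y := by rw [hy]; exact Nat.mul_div_cancel_left y hepos
    rw [h1, h2] at hde
    subst hde
    have hxpos : 0 < x := Nat.pos_of_ne_zero (by rintro rfl; omega)
    have : d * x = e * x := by rw [← hx, ← hy]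
    exact Nat.eq_of_mul_eq_mul_right hxpos this
  rw [Finset.sum_image hinj, Finset.sum_div]
  apply Finset.sum_congr rfl
  intro d hd
  have hdpos : 0 < d := Nat.pos_of_dvd_of_pos (hD d hd) hM
  have hd0 : (d : ℚ) ≠ 0 := by exact_mod_cast hdpos.ne'
  rw [Nat.cast_div (hD d hd) hd0]
  field_simp

theorem clear (I R0 s c : ℕ) (hR0 : 0 < R0)
    (hS : ∀ w, 0 < w → w ≤ 2 ^ s → Nat.Coprime w R0 → ∀ r : ℤ, ∃ F : Finset ℕ, F.Nonempty ∧ F.card ≤ c ∧
          (∀ d ∈ F, d ∣ 2 ^ I * R0) ∧ (w : ℤ) ∣ (∑ d ∈ F, (d : ℤ)) - r)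
    (ws : List ℕ) (hws : ∀ w ∈ ws, 2 ^ I < w ∧ w ≤ 2 ^ s ∧ Nat.Coprime w R0)
    (N : ℕ) (hN : 2 ^ I * R0 ∣ N) (hN0 : 0 < N) (A : ℕ) (hA : c * (2 ^ I * R0) * (2 * ws.prod - 1) ≤ A) :
    ∃ (F : Finset ℕ) (q : ℕ), F.card ≤ c * ws.length ∧ (∀ n ∈ F, n ∣ ws.prod * N ∧ ¬ n ∣ N) ∧
      (A : ℚ) / (ws.prod * N) = ∑ n ∈ F, (1 : ℚ) / n + (q : ℚ) / N ∧ c * (2 ^ I * R0) ≤ q := by
  classical
  induction ws generalizing A with
  | nil =>
    refine ⟨∅, A, by simp, by simp, by simp, ?_⟩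
    simpa using hA
  | cons w ws ih =>
    set R := 2 ^ I * R0 with hRdef
    have hRpos : 0 < R := by positivity
    obtain ⟨hw1, hw2, hw3⟩ := hws w (by simp)
    have hw1' : 1 < w := lt_of_le_of_lt Nat.one_le_two_pow hw1
    have hUpos : 0 < ws.prod := by
      apply List.prod_pos
      intro v hv
      have := (hws v (by simp [hv])).1
      exact lt_of_le_of_lt (Nat.zero_le _) this
    obtain ⟨D, -, hDc, hDd, hDsum⟩ := hS w (by omega) hw2 hw3 (A : ℤ)
    have hsumle : ∑ d ∈ D, d ≤ c * R := by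
      calc ∑ d ∈ D, d ≤ ∑ _d ∈ D, R := Finset.sum_le_sum (fun d hd => Nat.le_of_dvd hRpos (hDd d hd))
        _ = D.card * R := by rw [Finset.sum_const, smul_eq_mul]
        _ ≤ c * R := Nat.mul_le_mul_right R hDc
    rw [List.prod_cons] at hA
    -- A ≥ c R (2 w U' - 1)
    have hA1 : c * R * (w * (2 * ws.prod - 1)) + ∑ d ∈ D, d ≤ A := by
      have h1 : w * (2 * ws.prod - 1) + 1 ≤ 2 * (w * ws.prod) - 1 := by
        obtain ⟨U, hU⟩ : ∃ U, ws.prod = U + 1 := ⟨ws.prod - 1, by omega⟩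
        rw [hU]
        have e1 : 2 * (U + 1) - 1 = 2 * U + 1 := by omega
        rw [e1]
        have e2 : 2 * (w * (U + 1)) = 2 * w * U + 2 * w := by ring
        have e3 : w * (2 * U + 1) = 2 * w * U + w := by ring
        rw [e2, e3]
        omega
      calc c * R * (w * (2 * ws.prod - 1)) + ∑ d ∈ D, d
          ≤ c * R * (w * (2 * ws.prod - 1)) + c * R := by omega
        _ = c * R * (w * (2 * ws.prod - 1) + 1) := by ring
        _ ≤ c * R * (2 * (w * ws.prod) - 1) := Nat.mul_le_mul_left _ h1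
        _ ≤ A := hA
    have hsumA : ∑ d ∈ D, d ≤ A := by omega
    have hdvd : w ∣ A - ∑ d ∈ D, d := by
      have h2 : (w : ℤ) ∣ ((A - ∑ d ∈ D, d : ℕ) : ℤ) := by
        rw [Nat.cast_sub hsumA]
        have := (dvd_neg.mpr hDsum)
        push_cast
        rwa [neg_sub] at this
      exact_mod_cast h2
    obtain ⟨A', hA'⟩ := hdvd
    have hA'le : c * R * (2 * ws.prod - 1) ≤ A' := by
      have h3 : w * (c * R * (2 * ws.prod - 1)) ≤ w * A' := by
        rw [← hA']
        have : w * (c * R * (2 * ws.prod - 1)) = c * R * (w * (2 * ws.prod - 1)) := by ring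
        rw [this]
        omega
      exact Nat.le_of_mul_le_mul_left h3 (by omega)
    obtain ⟨F', q, hF'c, hF'd, hF'sum, hq⟩ := ih (fun v hv => hws v (by simp [hv])) A' hA'le
    set M := w * ws.prod * N with hM
    have hMpos : 0 < M := by positivity
    have hDM : ∀ d ∈ D, d ∣ M := fun d hd => ((hDd d hd).trans hN).trans (Dvd.intro_left _ rfl)
    set F1 := D.image (fun d => M / d) with hF1
    have hF1not : ∀ n ∈ F1, ¬ n ∣ ws.prod * N := by
      intro n hn hdvd
      rw [hF1, Finset.mem_image] at hn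
      obtain ⟨d, hd, rfl⟩ := hn
      have hdM := hDM d hd
      have h4 : M ∣ d * (ws.prod * N) := by
        have := Nat.mul_dvd_mul_left d hdvd
        rwa [Nat.mul_div_cancel' hdM] at this
      have h5 : w * (ws.prod * N) ∣ d * (ws.prod * N) := by
        rw [hM, mul_assoc] at h4; exact h4
      have h6 : w ∣ d := Nat.dvd_of_mul_dvd_mul_right (by positivity) h5
      have h7 : w ∣ 2 ^ I := (hw3).dvd_of_dvd_mul_right (h6.trans (hDd d hd))
      have h8 : w ≤ 2 ^ I := Nat.le_of_dvd (by positivity) h7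
      omega
    have hdisj : Disjoint F1 F' := by
      rw [Finset.disjoint_left]
      intro n hn hn'
      exact hF1not n hn (hF'd n hn').1
    refine ⟨F1 ∪ F', q, ?_, ?_, ?_, hq⟩
    · calc (F1 ∪ F').card ≤ F1.card + F'.card := Finset.card_union_le _ _
        _ ≤ c + c * ws.length := by
          have : F1.card ≤ c := Finset.card_image_le.trans hDc
          omega
        _ = c * (w :: ws).length := by rw [List.length_cons]; ring
    · intro n hn
      rw [List.prod_cons]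
      rcases Finset.mem_union.mp hn with hn | hn
      · have hnd := hF1not n hn
        refine ⟨?_, fun h => hnd (h.trans (Dvd.intro_left _ rfl))⟩
        rw [hF1, Finset.mem_image] at hn
        obtain ⟨d, hd, rfl⟩ := hn
        exact Nat.div_dvd_of_dvd (hDM d hd)
      · refine ⟨(hF'd n hn).1.trans ?_, (hF'd n hn).2⟩
        rw [mul_assoc]
        exact Dvd.intro_left _ rfl
    · rw [Finset.sum_union hdisj, hF1, Q2_sum_image M hMpos D hDM, add_assoc, ← hF'sum]
      have hw0 : (w : ℚ) ≠ 0 := by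
        have : w ≠ 0 := by omega
        exact_mod_cast this
      have hU0 : (ws.prod : ℚ) ≠ 0 := by exact_mod_cast hUpos.ne'
      have hN0' : (N : ℚ) ≠ 0 := by exact_mod_cast hN0.ne'
      have hAeq : (A : ℚ) = w * A' + ∑ d ∈ D, (d : ℚ) := by
        have : A = w * A' + ∑ d ∈ D, d := by omega
        rw [this]; push_cast; ring
      rw [List.prod_cons, hM, hAeq, Nat.cast_mul, Nat.cast_mul, Nat.cast_mul]
      field_simp
      ring

theorem final_step (N1 R2 q π c : ℕ) (hπ : π.Prime) (hN1 : 0 < N1) (hR2 : 0 < R2) (hq : 0 < q) (hdvd : R2 ∣ N1)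
    (F0 : Finset ℕ) (hne : F0.Nonempty) (hc : F0.card ≤ c) (hd : ∀ d ∈ F0, d ∣ R2)
    (hsum : ((q * π : ℕ) : ℤ) ∣ ∑ d ∈ F0, (d : ℤ)) :
    ∃ F : Finset ℕ, F.card ≤ c ∧ (∀ n ∈ F, 0 < n ∧ π ∣ n) ∧ (q : ℚ) / N1 = ∑ n ∈ F, (1 : ℚ) / n := by
  classical
  have hsum' : q * π ∣ ∑ d ∈ F0, d := by
    have : ((q * π : ℕ) : ℤ) ∣ ((∑ d ∈ F0, d : ℕ) : ℤ) := by
      rw [Nat.cast_sum]; exact hsum
    exact_mod_cast this
  have hpos : 0 < ∑ d ∈ F0, d :=
    Finset.sum_pos (fun d hd' => Nat.pos_of_dvd_of_pos (hd d hd') hR2) hne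
  obtain ⟨k, hk⟩ := hsum'
  have hkpos : 0 < k := Nat.pos_of_ne_zero (by rintro rfl; omega)
  have hπpos : 0 < π := hπ.pos
  set M := π * k * N1 with hM
  have hMpos : 0 < M := by positivity
  have hdN : ∀ d ∈ F0, d ∣ N1 := fun d hd' => (hd d hd').trans hdvd
  have hdM : ∀ d ∈ F0, d ∣ M := fun d hd' => (hdN d hd').trans (Dvd.intro_left _ rfl)
  refine ⟨F0.image (fun d => M / d), Finset.card_image_le.trans hc, ?_, ?_⟩
  · intro n hn
    rw [Finset.mem_image] at hn
    obtain ⟨d, hd', rfl⟩ := hn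
    have hdpos : 0 < d := Nat.pos_of_dvd_of_pos (hd d hd') hR2
    refine ⟨Nat.div_pos (Nat.le_of_dvd hMpos (hdM d hd')) hdpos, ?_⟩
    rw [hM, Nat.mul_div_assoc _ (hdN d hd'), mul_assoc]
    exact Dvd.intro _ rfl
  · rw [Q2_sum_image M hMpos F0 hdM]
    have hk' : (∑ d ∈ F0, (d : ℚ)) = q * π * k := by
      have : ((∑ d ∈ F0, d : ℕ) : ℚ) = ((q * π * k : ℕ) : ℚ) := by rw [hk]
      push_cast at this
      exact this
    have h1 : (π : ℚ) ≠ 0 := by exact_mod_cast hπpos.ne'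
    have h2 : (k : ℚ) ≠ 0 := by exact_mod_cast hkpos.ne'
    have h3 : (N1 : ℚ) ≠ 0 := by exact_mod_cast hN1.ne'
    rw [hk', hM]
    push_cast
    field_simp

end Crest.Agent.E25
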