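import Crest.Agent.E25Q1
import Crest.Agent.E25Q2

/-!
Part Q4 of S0025: the final assembly. See docs row `S0025_PLAN`.
-/

set_option autoImplicit false

namespace Crest.Agent.E25

open Finset

/-- the conclusion of the reservoir lemma at scale `s` -/
def Q4_Res (C s I R0 : ℕ) : Prop :=
  ∀ w, 0 < w → w ≤ 2 ^ s → Nat.Coprime w R0 → ∀ r : ℤ, ∃ F : Finset ℕ, F.Nonempty ∧
    F.card ≤ C * Nat.log 2 s ∧ (∀ d ∈ F, d ∣ 2 ^ I * R0) ∧ (w : ℤ) ∣ (∑ d ∈ F, (d : ℤ)) - r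

lemma Q4_card_primeFactors (n : ℕ) (hn : 0 < n) : 2 ^ n.primeFactors.card ≤ n := by
  calc 2 ^ n.primeFactors.card = ∏ _p ∈ n.primeFactors, 2 := by rw [Finset.prod_const]
    _ ≤ ∏ p ∈ n.primeFactors, p :=
        Finset.prod_le_prod' (fun p hp => (Nat.prime_of_mem_primeFactors hp).two_le)
    _ ≤ n := Nat.le_of_dvd hn (Nat.prod_primeFactors_dvd n)

lemma Q4_shift (q R T : ℕ) (hR : 0 < R) (hlog : R < 2 ^ (T + 1))
    (hp : ∀ p, p.Prime → p ∣ R → T < p) (hq : T < q) : ∃ t ≤ T, Nat.Coprime (q - t) R := by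
  by_contra hcon
  push Not at hcon
  have h1 : ∀ t ∈ range (T + 1), ∃ p ∈ R.primeFactors, p ∣ q - t := by
    intro t ht
    rw [Finset.mem_range] at ht
    have h2 := hcon t (by omega)
    obtain ⟨p, hp1, hp2, hp3⟩ := Nat.Prime.not_coprime_iff_dvd.mp h2
    exact ⟨p, Nat.mem_primeFactors.mpr ⟨hp1, hp3, hR.ne'⟩, hp2⟩
  choose! f hf1 hf2 using h1
  have hinj : Set.InjOn f (range (T + 1) : Finset ℕ) := by
    intro t ht t' ht' htt
    have hmem := hf1 t ht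
    have hd := hf2 t ht
    have hd' := hf2 t' ht'
    rw [← htt] at hd'
    have hpr := Nat.prime_of_mem_primeFactors hmem
    have hTp := hp _ hpr (Nat.dvd_of_mem_primeFactors hmem)
    rw [Finset.mem_coe, Finset.mem_range] at ht ht'
    by_contra hne
    rcases Nat.lt_or_ge t t' with hlt | hge
    · have h3 := Nat.dvd_sub hd hd'
      have h4 : q - t - (q - t') = t' - t := by omega
      rw [h4] at h3
      have := Nat.le_of_dvd (by omega) h3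
      omega
    · have h3 := Nat.dvd_sub hd' hd
      have h4 : q - t' - (q - t) = t - t' := by omega
      rw [h4] at h3
      have := Nat.le_of_dvd (by omega) h3
      omega
  have hcard : T + 1 ≤ R.primeFactors.card := by
    have := Finset.card_le_card_of_injOn f hf1 hinj
    rwa [Finset.card_range] at this
  have h5 := Q4_card_primeFactors R hR
  have h6 : 2 ^ (T + 1) ≤ 2 ^ R.primeFactors.card := Nat.pow_le_pow_right (by norm_num) hcard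
  omega

lemma Q4_bits (I : ℕ) : ∀ t : ℕ, t < 2 ^ I → ∃ B : Finset ℕ, (∀ i ∈ B, i < I) ∧
    ∑ i ∈ B, 2 ^ i = t ∧ B.card ≤ I := by
  induction I with
  | zero => intro t ht; exact ⟨∅, by simp, by simp at ht; simp [ht], by simp⟩
  | succ I ih =>
    intro t ht
    by_cases h : t < 2 ^ I
    · obtain ⟨B, h1, h2, h3⟩ := ih t h
      exact ⟨B, fun i hi => (h1 i hi).trans (by omega), h2, by omega⟩
    · rw [pow_succ] at ht
      obtain ⟨B, h1, h2, h3⟩ := ih (t - 2 ^ I) (by omega)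
      have hI : I ∉ B := fun hI => absurd (h1 I hI) (lt_irrefl _)
      refine ⟨insert I B, ?_, ?_, ?_⟩
      · intro i hi
        rcases Finset.mem_insert.mp hi with rfl | hi
        · omega
        · have := h1 i hi; omega
      · rw [Finset.sum_insert hI, h2]; omega
      · rw [Finset.card_insert_of_notMem hI]; omega

/-- divisors realising `t / N` for small `t` -/
lemma Q4_bits_sum (I t N : ℕ) (ht : t < 2 ^ I) (hN : 0 < N) (hIN : 2 ^ I ∣ N) :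
    ∃ F : Finset ℕ, F.card ≤ I ∧ (∀ n ∈ F, n ∣ N) ∧ ∑ n ∈ F, (1 : ℚ) / n = (t : ℚ) / N := by
  classical
  obtain ⟨B, h1, h2, h3⟩ := Q4_bits I t ht
  set D := B.image (fun i => 2 ^ i) with hD
  have hDN : ∀ d ∈ D, d ∣ N := by
    intro d hd
    rw [hD, Finset.mem_image] at hd
    obtain ⟨i, hi, rfl⟩ := hd
    exact (pow_dvd_pow 2 (h1 i hi).le).trans hIN
  refine ⟨D.image (fun d => N / d), ?_, ?_, ?_⟩
  · exact Finset.card_image_le.trans (Finset.card_image_le.trans h3)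
  · intro n hn
    rw [Finset.mem_image] at hn
    obtain ⟨d, hd, rfl⟩ := hn
    exact Nat.div_dvd_of_dvd (hDN d hd)
  · rw [Q2_sum_image N hN D hDN]
    congr 1
    rw [hD, Finset.sum_image (fun x _ y _ h => Nat.pow_right_injective (le_refl 2) h)]
    rw [← h2]
    push_cast
    rfl

lemma Q4_assemble (s s2 C a b : ℕ) (S : Finset ℕ) (us : List ℕ) (A0 : ℕ) (I R0 I2 R02 L π : ℕ)
    -- greedy
    (hS2 : ∀ n ∈ S, 2 ≤ n) (hus0 : 0 < us.prod)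
    (hab : (a : ℚ) / b = ∑ n ∈ S, (1 : ℚ) / n + (A0 : ℚ) / us.prod)
    (hSus : ∀ n ∈ S, n ∣ us.prod) (hSlt : ∀ n ∈ S, (A0 : ℚ) / us.prod < 1 / n)
    -- reservoir 1
    (hus : ∀ w ∈ us, 2 ^ I < w ∧ w ≤ 2 ^ s ∧ Nat.Coprime w R0)
    (hR0 : 0 < R0) (hc : 1 ≤ C * Nat.log 2 s) (hRes : Q4_Res C s I R0)
    -- reservoir 2
    (hR02 : 0 < R02) (hRes2 : Q4_Res C s2 I2 R02)
    (hN2A : A0 * (2 ^ I2 * R02) ≤ us.prod) (hA0us : A0 < us.prod)
    (hR02L : R02 < 2 ^ (L + 1)) (hpR02 : ∀ p, p.Prime → p ∣ R02 → L < p)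
    (hL : L < 2 ^ I)
    -- the prime
    (hπ : π.Prime) (hπus : ¬ π ∣ us.prod) (hπR : ¬ π ∣ 2 ^ I * R0) (hπN2 : ¬ π ∣ 2 ^ I2 * R02)
    (hπ2 : ¬ π ∣ 2)
    (hsize : 4 * (C * Nat.log 2 s) * (2 ^ I * R0) * π ≤ 2 ^ s2) :
    ∃ T : Finset ℕ, (∀ n ∈ T, 2 ≤ n) ∧
      T.card ≤ S.card + C * Nat.log 2 s * us.length + I + C * Nat.log 2 s2 ∧
      ∑ n ∈ T, (1 : ℚ) / n = (a : ℚ) / b := by
  classical
  rcases Nat.eq_zero_or_pos A0 with hA0 | hA0
  · refine ⟨S, hS2, by omega, ?_⟩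
    rw [hab, hA0]; simp
  set c := C * Nat.log 2 s with hcdef
  set R := 2 ^ I * R0 with hRdef
  set N2 := 2 ^ I2 * R02 with hN2def
  have hRpos : 0 < R := by positivity
  have hN2pos : 0 < N2 := by positivity
  have hus' : (0 : ℚ) < us.prod := by exact_mod_cast hus0
  -- choice of h
  have hex : ∃ h : ℕ, 2 * c * us.prod ≤ A0 * N2 * 2 ^ h := by
    refine ⟨2 * c * us.prod, ?_⟩
    have h1 : 2 * c * us.prod < 2 ^ (2 * c * us.prod) := Nat.lt_two_pow_self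
    have h2 : 1 ≤ A0 * N2 := Nat.mul_pos hA0 hN2pos
    calc 2 * c * us.prod ≤ 1 * 2 ^ (2 * c * us.prod) := by rw [one_mul]; exact h1.le
      _ ≤ A0 * N2 * 2 ^ (2 * c * us.prod) := Nat.mul_le_mul_right _ h2
  obtain ⟨h, hh1, hh2⟩ : ∃ h : ℕ, 2 * c * us.prod ≤ A0 * N2 * 2 ^ h ∧
      A0 * N2 * 2 ^ h < 4 * c * us.prod := by
    have hspec := Nat.find_spec hex
    rcases Nat.eq_zero_or_pos (Nat.find hex) with h0 | h0
    · exfalso
      rw [h0, pow_zero, mul_one] at hspec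
      nlinarith
    · obtain ⟨h', hh'⟩ : ∃ h', Nat.find hex = h' + 1 := ⟨Nat.find hex - 1, by omega⟩
      have hmin := Nat.find_min hex (m := h') (by omega)
      refine ⟨Nat.find hex, hspec, ?_⟩
      rw [hh', pow_succ]
      push Not at hmin
      nlinarith
  set N := R * N2 * 2 ^ h with hNdef
  have hNpos : 0 < N := by positivity
  have hRN : R ∣ N := by rw [hNdef, mul_assoc]; exact Dvd.intro _ rfl
  have hN2N : N2 ∣ N := by rw [hNdef]; exact ⟨R * 2 ^ h, by ring⟩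
  have hN' : (0 : ℚ) < N := by exact_mod_cast hNpos
  have hA : c * R * (2 * us.prod - 1) ≤ A0 * N := by
    calc c * R * (2 * us.prod - 1) ≤ c * R * (2 * us.prod) := Nat.mul_le_mul_left _ (Nat.sub_le _ _)
      _ = R * (2 * c * us.prod) := by ring
      _ ≤ R * (A0 * N2 * 2 ^ h) := Nat.mul_le_mul_left _ hh1
      _ = A0 * N := by rw [hNdef]; ring
  obtain ⟨F2, q, hF2c, hF2d, hF2sum, hq⟩ :=
    clear I R0 s c hR0 hRes us hus N hRN hNpos (A0 * N) hA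
  have hsum1 : (A0 : ℚ) / us.prod = ∑ n ∈ F2, (1 : ℚ) / n + (q : ℚ) / N := by
    rw [← hF2sum, Nat.cast_mul]; field_simp
  -- q < 4 c R
  have hqlt : q < 4 * c * R := by
    have h1 : (q : ℚ) / N ≤ (A0 : ℚ) / us.prod := by
      rw [hsum1]
      have : 0 ≤ ∑ n ∈ F2, (1 : ℚ) / n := Finset.sum_nonneg (fun n _ => by positivity)
      linarith
    rw [div_le_div_iff₀ hN' hus'] at h1
    have h2 : q * us.prod ≤ A0 * N := by exact_mod_cast h1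
    have h3 : A0 * N < 4 * c * R * us.prod := by
      calc A0 * N = R * (A0 * N2 * 2 ^ h) := by rw [hNdef]; ring
        _ < R * (4 * c * us.prod) := Nat.mul_lt_mul_of_pos_left hh2 hRpos
        _ = 4 * c * R * us.prod := by ring
    exact Nat.lt_of_mul_lt_mul_right (h2.trans_lt h3)
  have hRq : R ≤ q := by
    calc R = 1 * R := (one_mul _).symm
      _ ≤ c * R := Nat.mul_le_mul_right _ hc
      _ ≤ q := hq
  have h2IR : 2 ^ I ≤ R := Nat.le_mul_of_pos_right _ hR0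
  -- shift
  obtain ⟨t, htL, htcop⟩ := Q4_shift q R02 L hR02 hR02L hpR02 (by omega)
  have htI : t < 2 ^ I := by omega
  have h2IN : 2 ^ I ∣ N := (Dvd.intro _ rfl : 2 ^ I ∣ R).trans hRN
  obtain ⟨F3, hF3c, hF3d, hF3sum⟩ := Q4_bits_sum I t N htI hNpos h2IN
  -- final step
  have hq' : 0 < q - t := by omega
  have hπR02 : Nat.Coprime π R02 := by
    rw [Nat.Prime.coprime_iff_not_dvd hπ]
    exact fun hd => hπN2 (hd.trans (Dvd.intro_left _ rfl))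
  have hcop : Nat.Coprime ((q - t) * π) R02 := Nat.Coprime.mul_left htcop hπR02
  have hsz : (q - t) * π ≤ 2 ^ s2 := by
    refine le_trans (Nat.mul_le_mul_right π ?_) hsize
    omega
  obtain ⟨F0, hF0ne, hF0c, hF0d, hF0sum⟩ :=
    hRes2 ((q - t) * π) (Nat.mul_pos hq' hπ.pos) hsz hcop 0
  rw [sub_zero] at hF0sum
  obtain ⟨F4, hF4c, hF4d, hF4sum⟩ :=
    final_step N N2 (q - t) π (C * Nat.log 2 s2) hπ hNpos hN2pos hq' hN2N F0 hF0ne hF0c hF0d hF0sum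
  have hcast : ((q - t : ℕ) : ℚ) = q - t := by
    rw [Nat.cast_sub (by omega)]
  have hsum2 : (q : ℚ) / N = ∑ n ∈ F3, (1 : ℚ) / n + ∑ n ∈ F4, (1 : ℚ) / n := by
    rw [hF3sum, ← hF4sum, hcast, ← add_div]; congr 1; ring
  have hπN : ¬ π ∣ us.prod * N := by
    intro hd
    rcases (Nat.Prime.dvd_mul hπ).mp hd with hd | hd
    · exact hπus hd
    rw [hNdef] at hd
    rcases (Nat.Prime.dvd_mul hπ).mp hd with hd | hd
    · rcases (Nat.Prime.dvd_mul hπ).mp hd with hd | hd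
      · exact hπR hd
      · exact hπN2 hd
    · exact hπ2 (hπ.dvd_of_dvd_pow hd)
  -- positivity of the members
  have hSpos : ∀ n ∈ S, 0 < n := fun n hn => by have := hS2 n hn; omega
  have hF2pos : ∀ n ∈ F2, 0 < n := fun n hn =>
    Nat.pos_of_dvd_of_pos (hF2d n hn).1 (by positivity)
  have hF3pos : ∀ n ∈ F3, 0 < n := fun n hn => Nat.pos_of_dvd_of_pos (hF3d n hn) hNpos
  have hF4pos : ∀ n ∈ F4, 0 < n := fun n hn => (hF4d n hn).1
  have hnn : ∀ F : Finset ℕ, 0 ≤ ∑ n ∈ F, (1 : ℚ) / n :=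
    fun F => Finset.sum_nonneg (fun n _ => by positivity)
  have hsingle : ∀ F : Finset ℕ, ∀ n ∈ F, (1 : ℚ) / n ≤ ∑ n ∈ F, (1 : ℚ) / n :=
    fun F n hn => Finset.single_le_sum (f := fun n : ℕ => (1 : ℚ) / n) (fun m _ => by positivity) hn
  have hle2 : ∀ n ∈ F2, (1 : ℚ) / n ≤ (A0 : ℚ) / us.prod := by
    intro n hn
    have := hsingle F2 n hn
    have h3 := hnn F3
    have h4 := hnn F4
    rw [hsum1, hsum2]; linarith
  have hle3 : ∀ n ∈ F3, (1 : ℚ) / n ≤ (A0 : ℚ) / us.prod := by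
    intro n hn
    have := hsingle F3 n hn
    have h3 := hnn F2
    have h4 := hnn F4
    rw [hsum1, hsum2]; linarith
  have hle4 : ∀ n ∈ F4, (1 : ℚ) / n ≤ (A0 : ℚ) / us.prod := by
    intro n hn
    have := hsingle F4 n hn
    have h3 := hnn F2
    have h4 := hnn F3
    rw [hsum1, hsum2]; linarith
  -- A0 < us.prod
  have hA0lt : (A0 : ℚ) / us.prod < 1 := by
    rw [div_lt_one hus']
    exact_mod_cast hA0us
  have htwo : ∀ n : ℕ, 0 < n → (1 : ℚ) / n ≤ (A0 : ℚ) / us.prod → 2 ≤ n := by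
    intro n hn hle
    by_contra hcon
    have : n = 1 := by omega
    rw [this, Nat.cast_one, div_one] at hle
    linarith
  -- disjointness
  have hd2 : Disjoint S F2 := by
    rw [Finset.disjoint_left]
    intro n hn hn2
    have h1 := hSlt n hn
    have h2 := hle2 n hn2
    linarith
  have hd3 : Disjoint (S ∪ F2) F3 := by
    rw [Finset.disjoint_left]
    intro n hn hn3
    rcases Finset.mem_union.mp hn with hn | hn
    · have h1 := hSlt n hn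
      have h2 := hle3 n hn3
      linarith
    · exact (hF2d n hn).2 (hF3d n hn3)
  have hd4 : Disjoint (S ∪ F2 ∪ F3) F4 := by
    rw [Finset.disjoint_left]
    intro n hn hn4
    have hπn := (hF4d n hn4).2
    apply hπN
    refine hπn.trans ?_
    rcases Finset.mem_union.mp hn with hn | hn
    · rcases Finset.mem_union.mp hn with hn | hn
      · exact (hSus n hn).mul_right _
      · exact (hF2d n hn).1
    · exact (hF3d n hn).trans (Dvd.intro_left _ rfl)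
  refine ⟨S ∪ F2 ∪ F3 ∪ F4, ?_, ?_, ?_⟩
  · intro n hn
    rcases Finset.mem_union.mp hn with hn | hn
    · rcases Finset.mem_union.mp hn with hn | hn
      · rcases Finset.mem_union.mp hn with hn | hn
        · exact hS2 n hn
        · exact htwo n (hF2pos n hn) (hle2 n hn)
      · exact htwo n (hF3pos n hn) (hle3 n hn)
    · exact htwo n (hF4pos n hn) (hle4 n hn)
  · calc (S ∪ F2 ∪ F3 ∪ F4).card ≤ (S ∪ F2 ∪ F3).card + F4.card := Finset.card_union_le _ _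
      _ ≤ (S ∪ F2).card + F3.card + F4.card := by
          have := Finset.card_union_le (S ∪ F2) F3; omega
      _ ≤ S.card + F2.card + F3.card + F4.card := by
          have := Finset.card_union_le S F2; omega
      _ ≤ _ := by omega
  · rw [Finset.sum_union hd4, Finset.sum_union hd3, Finset.sum_union hd2, hab, hsum1, hsum2]
    ring

/-- statement of the reservoir lemma (part P13) -/
def SCLStmt : Prop := ∃ C : ℕ, ∀ C3 : ℕ, ∃ s0 : ℕ, ∀ s ≥ s0, ∀ D : ℕ, 0 < D → D ≤ 2 ^ (C3 * s) →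
    ∃ I R0 : ℕ, Odd R0 ∧ Nat.Coprime R0 D ∧ I ≤ C * Nat.log 2 s ∧ s ^ 2 ≤ 2 ^ I ∧
      2 ^ I * R0 ≤ 2 ^ (C * s) ∧ (∀ p, p.Prime → p ∣ R0 → s ^ 2 < p) ∧
      ∀ w, 0 < w → w ≤ 2 ^ s → Nat.Coprime w R0 → ∀ r : ℤ, ∃ F : Finset ℕ, F.Nonempty ∧
        F.card ≤ C * Nat.log 2 s ∧
          (∀ d ∈ F, d ∣ 2 ^ I * R0) ∧ (w : ℤ) ∣ (∑ d ∈ F, (d : ℤ)) - r

/-- statement of part P12 -/
def PrimesStmt : Prop := ∃ m0 : ℕ, ∀ m ≥ m0, ∀ D : ℕ, 0 < D → D < 2 ^ (2 ^ (10 * m)) →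
    2 ^ (76 * m) ≤
      ((range (2 ^ (80 * m))).filter (fun p => p.Prime ∧ 2 ^ (40 * m) < p ∧ ¬ p ∣ D)).card

lemma Q4_log_aux (l : ℕ) : (l + 1) ^ 2 ≤ 4 * 2 ^ l := by
  induction l with
  | zero => norm_num
  | succ l ih =>
    rcases l with _ | _ | l
    · norm_num
    · norm_num
    · have h2 : (2:ℕ) ^ (l + 1 + 1 + 1) = 2 * 2 ^ (l + 1 + 1) := by rw [pow_succ]; ring
      have h3 : (l + 1 + 1 + 1 + 1) ^ 2 ≤ 2 * (l + 1 + 1 + 1) ^ 2 := by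
        have e1 : (l + 1 + 1 + 1 + 1) ^ 2 = l ^ 2 + 8 * l + 16 := by ring
        have e2 : 2 * (l + 1 + 1 + 1) ^ 2 = 2 * l ^ 2 + 12 * l + 18 := by ring
        rw [e1, e2]
        have : 0 ≤ l ^ 2 := Nat.zero_le _
        omega
      rw [h2]
      omega

lemma Q4_log_le (K s : ℕ) (hs : 4 * K ^ 2 ≤ s) (hs1 : 1 ≤ s) : K * (Nat.log 2 s + 1) ≤ s := by
  have h1 := Q4_log_aux (Nat.log 2 s)
  have h2 : 2 ^ Nat.log 2 s ≤ s := Nat.pow_log_le_self 2 (by omega)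
  have h3 : (K * (Nat.log 2 s + 1)) ^ 2 ≤ s ^ 2 := by
    calc (K * (Nat.log 2 s + 1)) ^ 2 = K ^ 2 * (Nat.log 2 s + 1) ^ 2 := by ring
      _ ≤ K ^ 2 * (4 * s) := Nat.mul_le_mul_left _ (h1.trans (Nat.mul_le_mul_left 4 h2))
      _ = 4 * K ^ 2 * s := by ring
      _ ≤ s * s := Nat.mul_le_mul_right _ hs
      _ = s ^ 2 := by ring
  exact (Nat.pow_le_pow_iff_left (by norm_num)).mp h3

/-- the numerical facts used in `Q4_core` -/
lemma Q4_num (C C3 J K1 K0 m0 s ℓ : ℕ) (hC1 : 1 ≤ C)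
    (hK1 : K1 = 4 * C3 + 4 * C + 8 * C ^ 2 + 2)
    (hK0 : K0 = 10 * C + 82 + C ^ 2 + K1) (hs4 : 4 * K0 ^ 2 ≤ s) (h2m0 : 2 ^ m0 ≤ s) (hs2 : 2 ≤ s)
    (hJ : J = 8 * C ^ 2 + 8) (hℓ : ℓ = Nat.log 2 s) :
    m0 ≤ ℓ ∧ 1 ≤ ℓ ∧ Nat.log 2 (4 * s) = ℓ + 2 ∧ s < 2 ^ (ℓ + 1) ∧ C ^ 2 ≤ s ∧ 8 * C ≤ s ∧
      K1 ≤ s ∧ C * (ℓ + 2) + 2 + 80 * ℓ ≤ s ∧ Nat.log 2 (8 * C * s) ≤ 2 * ℓ + 1 ∧
      C3 * (4 * s) + C * (4 * s) + 8 * C ^ 2 * s + 1 < 2 ^ (10 * ℓ) ∧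
      8 * C ^ 2 * s ≤ s * (J + 1) ∧ 8 * C ^ 2 * s < (4 * s) ^ 2 := by
  have hs0 : s ≠ 0 := by omega
  have hK0s := Q4_log_le K0 s hs4 (by omega)
  rw [← hℓ] at hK0s
  have hℓm0 : m0 ≤ ℓ := by
    rw [hℓ]; exact Nat.le_log_of_pow_le (by norm_num) h2m0
  have hℓ1 : 1 ≤ ℓ := by
    rw [hℓ]; exact Nat.le_log_of_pow_le (by norm_num) (by omega)
  have hℓlt : s < 2 ^ (ℓ + 1) := by rw [hℓ]; exact Nat.lt_pow_succ_log_self (by norm_num) s
  have hℓle : 2 ^ ℓ ≤ s := by rw [hℓ]; exact Nat.pow_log_le_self 2 hs0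
  have hlog4 : Nat.log 2 (4 * s) = ℓ + 2 := by
    rw [Nat.log_eq_iff (by omega)]
    constructor
    · rw [pow_add]; omega
    · have : (2:ℕ) ^ (ℓ + 2 + 1) = 4 * 2 ^ (ℓ + 1) := by rw [pow_add 2 (ℓ + 1) 2]; ring
      rw [this]; omega
  have hK0le : K0 ≤ s := by
    calc K0 = K0 * 1 := (mul_one _).symm
      _ ≤ K0 * (ℓ + 1) := Nat.mul_le_mul_left _ (by omega)
      _ ≤ s := hK0s
  have hCs : C ^ 2 ≤ s := by omega
  have h8Cs : 8 * C ≤ s := by omega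
  have hK1s : K1 ≤ s := by omega
  have hlin : (10 * C + 82) * (ℓ + 1) ≤ s := by
    calc (10 * C + 82) * (ℓ + 1) ≤ K0 * (ℓ + 1) := Nat.mul_le_mul_right _ (by omega)
      _ ≤ s := hK0s
  have hlin2 : C * (ℓ + 2) + 2 + 80 * ℓ ≤ (10 * C + 82) * (ℓ + 1) := by
    have e1 : C * (ℓ + 2) = C * ℓ + 2 * C := by ring
    have e2 : (10 * C + 82) * (ℓ + 1) = 10 * (C * ℓ) + 10 * C + 82 * ℓ + 82 := by ring
    rw [e1, e2]
    omega
  refine ⟨hℓm0, hℓ1, hlog4, hℓlt, hCs, h8Cs, hK1s, hlin2.trans hlin, ?_, ?_, ?_, ?_⟩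
  · have h1 : 8 * C * s < 2 ^ (2 * ℓ + 2) := by
      calc 8 * C * s ≤ s * s := Nat.mul_le_mul_right _ h8Cs
        _ < 2 ^ (ℓ + 1) * 2 ^ (ℓ + 1) := Nat.mul_lt_mul'' hℓlt hℓlt
        _ = 2 ^ (2 * ℓ + 2) := by rw [← pow_add]; congr 1; ring
    have hne : 8 * C * s ≠ 0 := by positivity
    have h2 : Nat.log 2 (8 * C * s) < 2 * ℓ + 2 := Nat.log_lt_of_lt_pow hne h1
    omega
  · have h3 : C3 * (4 * s) + C * (4 * s) + 8 * C ^ 2 * s + 1 < K1 * s := by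
      have e1 : K1 * s = C3 * (4 * s) + C * (4 * s) + 8 * C ^ 2 * s + 2 * s := by rw [hK1]; ring
      rw [e1]; omega
    have h4 : K1 * s ≤ 2 ^ (10 * ℓ) := by
      calc K1 * s ≤ s * s := Nat.mul_le_mul_right _ hK1s
        _ ≤ 2 ^ (ℓ + 1) * 2 ^ (ℓ + 1) := Nat.mul_le_mul hℓlt.le hℓlt.le
        _ = 2 ^ (ℓ + 1 + (ℓ + 1)) := by rw [pow_add 2 (ℓ + 1) (ℓ + 1)]
        _ ≤ 2 ^ (10 * ℓ) := Nat.pow_le_pow_right (by norm_num) (by omega)
    exact h3.trans_le h4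
  · rw [mul_comm s (J + 1)]
    exact Nat.mul_le_mul_right _ (by omega)
  · calc 8 * C ^ 2 * s ≤ 8 * s * s := Nat.mul_le_mul_right _ (by omega)
      _ < 16 * s * s := by
        have : 0 < s * s := by positivity
        have e1 : 8 * s * s = 8 * (s * s) := by ring
        have e2 : 16 * s * s = 16 * (s * s) := by ring
        rw [e1, e2]; omega
      _ = (4 * s) ^ 2 := by ring

theorem Q4_core (hSCL : SCLStmt) (hPr : PrimesStmt) :
    ∃ K s1 : ℕ, ∀ s ≥ s1, ∀ a b : ℕ, 1 ≤ a → a < b → 2 ^ (s - 1) ≤ b → b ≤ 2 ^ s →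
      ∃ T : Finset ℕ, (∀ n ∈ T, 2 ≤ n) ∧ T.card ≤ K * Nat.log 2 s ∧
        ∑ n ∈ T, (1 : ℚ) / n = (a : ℚ) / b := by
  classical
  obtain ⟨C', hSCL⟩ := hSCL
  obtain ⟨m0, hPr⟩ := hPr
  obtain ⟨C, hC⟩ : ∃ C, C = C' + 1 := ⟨_, rfl⟩
  obtain ⟨J, hJ⟩ : ∃ J, J = 8 * C ^ 2 + 8 := ⟨_, rfl⟩
  obtain ⟨C3, hC3⟩ : ∃ C3, C3 = 2 * J + 2 := ⟨_, rfl⟩
  obtain ⟨sg, hgreedy⟩ := greedy J
  obtain ⟨sa, hSa⟩ := hSCL C3
  obtain ⟨sb, hSb⟩ := hSCL 0
  obtain ⟨K1, hK1⟩ : ∃ K1, K1 = 4 * C3 + 4 * C + 8 * C ^ 2 + 2 := ⟨_, rfl⟩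
  obtain ⟨K0, hK0⟩ : ∃ K0, K0 = 10 * C + 82 + C ^ 2 + K1 := ⟨_, rfl⟩
  refine ⟨J + 6 + 3 * C * (2 * J + 2) + 6 * C,
    sg + sa + sb + 4 * K0 ^ 2 + 2 ^ m0 + 2, ?_⟩
  intro s hs a b ha hab hb1 hb2
  have hC1 : 1 ≤ C := by omega
  obtain ⟨hssg, hssa, hssb, hsK0, hsm0, hs2le⟩ :
      sg ≤ s ∧ sa ≤ s ∧ sb ≤ s ∧ 4 * K0 ^ 2 ≤ s ∧ 2 ^ m0 ≤ s ∧ 2 ≤ s := by
    have h0 : 0 < 2 ^ m0 := by positivity
    generalize 2 ^ m0 = P at hs h0
    generalize 4 * K0 ^ 2 = Q at hs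
    refine ⟨by omega, by omega, by omega, by omega, by omega, by omega⟩
  clear hs
  obtain ⟨ℓ, hℓ⟩ : ∃ ℓ, ℓ = Nat.log 2 s := ⟨_, rfl⟩
  obtain ⟨hℓm0, hℓ1, hlog4, hℓlt, hCs, h8Cs, hK1s, hlin, hlog8, hnum1, hnum2, hnum3⟩ :=
    Q4_num C C3 J K1 K0 m0 s ℓ hC1 hK1 hK0 hsK0 hsm0 hs2le hJ hℓ
  obtain ⟨S, us, A0, hS2, hScard, hus, hlen, heq, hSus, hle, hSlt⟩ :=
    hgreedy s hssg a b ha hab hb1 hb2
  have husprod : 0 < us.prod := by
    apply List.prod_pos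
    intro v hv
    have := (hus v hv).1
    exact lt_of_lt_of_le (by positivity) this
  have husle : us.prod ≤ 2 ^ (C3 * (4 * s)) := by
    calc us.prod ≤ (2 ^ (4 * s)) ^ us.length := List.prod_le_pow_card _ _ (fun x hx => (hus x hx).2)
      _ ≤ (2 ^ (4 * s)) ^ C3 := Nat.pow_le_pow_right (by positivity) (by rw [hC3]; exact hlen)
      _ = 2 ^ (C3 * (4 * s)) := by rw [← pow_mul, mul_comm]
  obtain ⟨I, R0, hR0odd, hR0cop, hI, hI2, hR, -, hRes⟩ :=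
    hSa (4 * s) (by omega) us.prod husprod husle
  obtain ⟨s2, hs2⟩ : ∃ s2, s2 = 8 * C * s := ⟨_, rfl⟩
  have hs2s : s ≤ s2 := by
    rw [hs2]; exact Nat.le_mul_of_pos_left _ (by omega)
  obtain ⟨I2, R02, hR02odd, -, -, -, hN2, hpR02, hRes2⟩ :=
    hSb s2 (hssb.trans hs2s) 1 Nat.one_pos Nat.one_le_two_pow
  have hC'C : C' ≤ C := by omega
  have hRes' : Q4_Res C (4 * s) I R0 := by
    intro w h1 h2 h3 r
    obtain ⟨F, h4, h5, h6⟩ := hRes w h1 h2 h3 r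
    exact ⟨F, h4, h5.trans (Nat.mul_le_mul_right _ hC'C), h6⟩
  have hRes2' : Q4_Res C s2 I2 R02 := by
    intro w h1 h2 h3 r
    obtain ⟨F, h4, h5, h6⟩ := hRes2 w h1 h2 h3 r
    exact ⟨F, h4, h5.trans (Nat.mul_le_mul_right _ hC'C), h6⟩
  have hR0pos : 0 < R0 := hR0odd.pos
  have hR02pos : 0 < R02 := hR02odd.pos
  have hR' : 2 ^ I * R0 ≤ 2 ^ (C * (4 * s)) :=
    hR.trans (Nat.pow_le_pow_right (by norm_num) (Nat.mul_le_mul_right _ hC'C))
  have hCs2 : C * s2 = 8 * C ^ 2 * s := by rw [hs2]; ring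
  have hN2' : 2 ^ I2 * R02 ≤ 2 ^ (C * s2) :=
    hN2.trans (Nat.pow_le_pow_right (by norm_num) (Nat.mul_le_mul_right _ hC'C))
  have hI' : I ≤ C * (ℓ + 2) := by
    rw [hlog4] at hI
    exact hI.trans (Nat.mul_le_mul_right _ hC'C)
  have husR : (A0 : ℚ) * 2 ^ (s * (J + 1)) ≤ us.prod := by
    have hpos : (0 : ℚ) < us.prod := by exact_mod_cast husprod
    rwa [div_mul_eq_mul_div, div_le_one hpos] at hle
  have husN : A0 * 2 ^ (s * (J + 1)) ≤ us.prod := by exact_mod_cast husR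
  have hN2J : 2 ^ I2 * R02 ≤ 2 ^ (s * (J + 1)) := by
    refine hN2'.trans (Nat.pow_le_pow_right (by norm_num) ?_)
    rw [hCs2]; exact hnum2
  have hN2A : A0 * (2 ^ I2 * R02) ≤ us.prod := (Nat.mul_le_mul_left A0 hN2J).trans husN
  have hA0us : A0 < us.prod := by
    have h2 : 2 ≤ 2 ^ (s * (J + 1)) := by
      calc 2 = 2 ^ 1 := by norm_num
        _ ≤ 2 ^ (s * (J + 1)) := Nat.pow_le_pow_right (by norm_num) (by
          have : 0 < s * (J + 1) := Nat.mul_pos (by omega) (by omega)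
          omega)
    have h3 : A0 * 2 ≤ us.prod := (Nat.mul_le_mul_left A0 h2).trans husN
    omega
  have husI : ∀ w ∈ us, 2 ^ I < w ∧ w ≤ 2 ^ (4 * s) ∧ Nat.Coprime w R0 := by
    intro w hw
    refine ⟨?_, (hus w hw).2, ?_⟩
    · refine lt_of_lt_of_le ?_ (hus w hw).1
      apply Nat.pow_lt_pow_right (by norm_num)
      omega
    · exact (Nat.Coprime.coprime_dvd_right (List.dvd_prod hw) hR0cop).symm
  -- the prime
  obtain ⟨D, hD⟩ : ∃ D, D = us.prod * (2 ^ I * R0) * (2 ^ I2 * R02) * 2 := ⟨_, rfl⟩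
  have hDpos : 0 < D := by rw [hD]; positivity
  have hDlt : D < 2 ^ (2 ^ (10 * ℓ)) := by
    have h1 : D ≤ 2 ^ (C3 * (4 * s)) * 2 ^ (C * (4 * s)) * 2 ^ (C * s2) * 2 := by
      rw [hD]
      exact Nat.mul_le_mul_right _ (Nat.mul_le_mul (Nat.mul_le_mul husle hR') hN2')
    have h2 : 2 ^ (C3 * (4 * s)) * 2 ^ (C * (4 * s)) * 2 ^ (C * s2) * 2
        = 2 ^ (C3 * (4 * s) + C * (4 * s) + C * s2 + 1) := by
      rw [pow_succ, pow_add, pow_add]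
    rw [h2, hCs2] at h1
    exact lt_of_le_of_lt h1 (Nat.pow_lt_pow_right (by norm_num) hnum1)
  have hcardP := hPr ℓ hℓm0 D hDpos hDlt
  have hne : ((range (2 ^ (80 * ℓ))).filter
      (fun p => p.Prime ∧ 2 ^ (40 * ℓ) < p ∧ ¬ p ∣ D)).Nonempty := by
    rw [← Finset.card_pos]
    exact lt_of_lt_of_le (by positivity) hcardP
  obtain ⟨π, hπ⟩ := hne
  rw [Finset.mem_filter, Finset.mem_range] at hπ
  obtain ⟨hπlt, hπp, -, hπD⟩ := hπ
  have hsize : 4 * (C * Nat.log 2 (4 * s)) * (2 ^ I * R0) * π ≤ 2 ^ s2 := by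
    rw [hlog4]
    have h1 : C * (ℓ + 2) ≤ 2 ^ (C * (ℓ + 2)) := Nat.lt_two_pow_self.le
    calc 4 * (C * (ℓ + 2)) * (2 ^ I * R0) * π
        ≤ 2 ^ 2 * 2 ^ (C * (ℓ + 2)) * 2 ^ (C * (4 * s)) * 2 ^ (80 * ℓ) :=
          Nat.mul_le_mul (Nat.mul_le_mul (Nat.mul_le_mul (by norm_num) h1) hR') hπlt.le
      _ = 2 ^ (2 + C * (ℓ + 2) + C * (4 * s) + 80 * ℓ) := by
          rw [pow_add, pow_add, pow_add]
      _ ≤ 2 ^ s2 := by
          apply Nat.pow_le_pow_right (by norm_num)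
          have h2 : s ≤ C * (4 * s) := by
            calc s ≤ 4 * s := by omega
              _ ≤ C * (4 * s) := Nat.le_mul_of_pos_left _ hC1
          have h3 : s2 = C * (4 * s) + C * (4 * s) := by rw [hs2]; ring
          omega
  have hclog : 1 ≤ C * Nat.log 2 (4 * s) := by
    rw [hlog4]; exact Nat.mul_pos hC1 (by omega)
  have hRL : R02 < 2 ^ (C * s2 + 1) := by
    have h1 : R02 ≤ 2 ^ I2 * R02 := Nat.le_mul_of_pos_left _ (by positivity)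
    have h2 : 2 ^ (C * s2) < 2 ^ (C * s2 + 1) := Nat.pow_lt_pow_right (by norm_num) (by omega)
    exact lt_of_le_of_lt (h1.trans hN2') h2
  have hpL : ∀ p, p.Prime → p ∣ R02 → C * s2 < p := by
    intro p hp1 hp2
    have h1 := hpR02 p hp1 hp2
    refine lt_of_le_of_lt ?_ h1
    have h2 : C ≤ s2 := by
      calc C ≤ 8 * C := by omega
        _ ≤ 8 * C * s := Nat.le_mul_of_pos_right _ (by omega)
        _ = s2 := hs2.symm
    calc C * s2 ≤ s2 * s2 := Nat.mul_le_mul_right _ h2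
      _ = s2 ^ 2 := by ring
  have hLI : C * s2 < 2 ^ I := by
    refine lt_of_lt_of_le ?_ hI2
    rw [hCs2]
    exact hnum3
  have hπ1 : ¬ π ∣ us.prod := fun h => hπD (by rw [hD, mul_assoc, mul_assoc]; exact h.mul_right _)
  have hπ2 : ¬ π ∣ 2 ^ I * R0 := fun h =>
    hπD (by rw [hD, mul_assoc]; exact (h.mul_left _).mul_right _)
  have hπ3 : ¬ π ∣ 2 ^ I2 * R02 := fun h => hπD (by rw [hD]; exact (h.mul_left _).mul_right _)
  have hπ4 : ¬ π ∣ 2 := fun h => hπD (by rw [hD]; exact h.mul_left _)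
  obtain ⟨T, hT2, hTc, hTs⟩ := Q4_assemble (4 * s) s2 C a b S us A0 I R0 I2 R02 (C * s2) π
    hS2 husprod heq hSus hSlt husI hR0pos hclog hRes' hR02pos hRes2' hN2A hA0us
    hRL hpL hLI hπp hπ1 hπ2 hπ3 hπ4 hsize
  refine ⟨T, hT2, hTc.trans ?_, hTs⟩
  rw [hlog4]
  have hlogs2 : Nat.log 2 s2 ≤ 2 * ℓ + 1 := by rw [hs2]; exact hlog8
  rw [← hℓ] at hScard ⊢
  calc S.card + C * (ℓ + 2) * us.length + I + C * Nat.log 2 s2
      ≤ (ℓ + J + 5) + C * (ℓ + 2) * (2 * J + 2) + C * (ℓ + 2) + C * (2 * ℓ + 1) :=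
        Nat.add_le_add (Nat.add_le_add (Nat.add_le_add hScard (Nat.mul_le_mul_left _ hlen)) hI')
          (Nat.mul_le_mul_left _ hlogs2)
    _ ≤ (J + 6) * ℓ + C * (3 * ℓ) * (2 * J + 2) + C * (3 * ℓ) + C * (3 * ℓ) := by
        have h1 : ℓ + J + 5 ≤ (J + 6) * ℓ := by
          have e1 : (J + 6) * ℓ = (J + 5) * ℓ + ℓ := by ring
          have e2 : J + 5 ≤ (J + 5) * ℓ := Nat.le_mul_of_pos_right _ hℓ1
          omega
        have h2 : ℓ + 2 ≤ 3 * ℓ := by omega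
        have h3 : 2 * ℓ + 1 ≤ 3 * ℓ := by omega
        exact Nat.add_le_add (Nat.add_le_add (Nat.add_le_add h1
          (Nat.mul_le_mul_right _ (Nat.mul_le_mul_left _ h2))) (Nat.mul_le_mul_left _ h2))
          (Nat.mul_le_mul_left _ h3)
    _ = (J + 6 + 3 * C * (2 * J + 2) + 6 * C) * ℓ := by ring

theorem Q4_final (hSCL : SCLStmt) (hPr : PrimesStmt) :
    ∃ C : ℝ, ∃ b₀ : ℕ, ∀ (a b : ℕ), b₀ ≤ b → 1 ≤ a → a < b →
      ∃ S : Finset ℕ, (∀ n ∈ S, 2 ≤ n) ∧ (S.card : ℝ) ≤ C * Real.log (Real.log (b : ℝ)) ∧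
        ∑ n ∈ S, (1 : ℚ) / (n : ℚ) = (a : ℚ) / (b : ℚ) := by
  obtain ⟨K, s1, hcore⟩ := Q4_core hSCL hPr
  refine ⟨4 * K, 2 ^ (s1 + 6), ?_⟩
  intro a b hb0 ha hab
  have hbpos : 0 < b := by omega
  obtain ⟨L, hL⟩ : ∃ L, L = Nat.log 2 b := ⟨_, rfl⟩
  have hLb : s1 + 6 ≤ L := by rw [hL]; exact Nat.le_log_of_pow_le (by norm_num) hb0
  have hb1 : 2 ^ L ≤ b := by rw [hL]; exact Nat.pow_log_le_self 2 hbpos.ne'
  have hb2 : b < 2 ^ (L + 1) := by rw [hL]; exact Nat.lt_pow_succ_log_self (by norm_num) b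
  clear hb0
  obtain ⟨T, hT2, hTc, hTs⟩ := hcore (L + 1) (by omega) a b ha hab (by simpa using hb1) hb2.le
  refine ⟨T, hT2, ?_, hTs⟩
  have hln2 : (1 : ℝ) / 2 ≤ Real.log 2 := by
    have := Real.log_two_gt_d9; linarith
  have hlnb : (L : ℝ) * Real.log 2 ≤ Real.log b := by
    rw [← Real.log_pow]
    apply Real.log_le_log (by positivity)
    exact_mod_cast hb1
  have hL6 : (6 : ℝ) ≤ L := by
    have : 6 ≤ L := by omega
    exact_mod_cast this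
  have hlnbL : (L : ℝ) / 2 ≤ Real.log b := by
    refine le_trans ?_ hlnb
    nlinarith
  have hlnb3 : 3 ≤ Real.log b := by linarith
  have hs_le : ((L + 1 : ℕ) : ℝ) ≤ Real.log b ^ 2 := by
    push_cast
    nlinarith
  have hlns : Real.log ((L + 1 : ℕ) : ℝ) ≤ 2 * Real.log (Real.log b) := by
    have h1 := Real.log_le_log (by positivity) hs_le
    rwa [Real.log_pow, Nat.cast_ofNat] at h1
  have hNl : (Nat.log 2 (L + 1) : ℝ) * Real.log 2 ≤ Real.log ((L + 1 : ℕ) : ℝ) := by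
    rw [← Real.log_pow]
    apply Real.log_le_log (by positivity)
    have := Nat.pow_log_le_self 2 (show L + 1 ≠ 0 by omega)
    exact_mod_cast this
  have hNl' : (Nat.log 2 (L + 1) : ℝ) ≤ 4 * Real.log (Real.log b) := by
    have h0 : (0 : ℝ) ≤ (Nat.log 2 (L + 1) : ℝ) := Nat.cast_nonneg _
    nlinarith
  calc (T.card : ℝ) ≤ ((K * Nat.log 2 (L + 1) : ℕ) : ℝ) := by exact_mod_cast hTc
    _ = (K : ℝ) * Nat.log 2 (L + 1) := by push_cast; ring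
    _ ≤ K * (4 * Real.log (Real.log b)) := mul_le_mul_of_nonneg_left hNl' (Nat.cast_nonneg _)
    _ = 4 * K * Real.log (Real.log b) := by ring

end Crest.Agent.E25
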