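import Mathlib

/-! Shared definitions for S0025 (Egyptian fractions with O(log log b) terms). -/

set_option autoImplicit false

namespace Crest.Agent.EF

/-- The pool of primes: primes in `(Y/4, Y]`. -/
def pool (Y : ℕ) : Finset ℕ := (Finset.Ioc (Y / 4) Y).filter Nat.Prime

/-- `h` divides a sum of two comparable distinct divisors of `M`. -/
def Good (M t h : ℕ) : Prop :=
  ∃ d₁ d₂ : ℕ, d₁ ∣ M ∧ d₂ ∣ M ∧ d₁ < d₂ ∧ d₂ ≤ 4 ^ t * d₁ ∧ h ∣ d₁ + d₂

/-- Every window of `2 ^ (3 t)` consecutive terms of a primitive arithmetic progression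
inside `[2, 2 ^ (10 t)]` contains a good number. -/
def Window (M t : ℕ) : Prop :=
  ∀ D r u : ℕ, Nat.Coprime D r →
    (∀ c, u ≤ c → c < u + 2 ^ (3 * t) → r + 2 ≤ D * c ∧ D * c ≤ r + 2 ^ (10 * t)) →
    ∃ c, u ≤ c ∧ c < u + 2 ^ (3 * t) ∧ Good M t (D * c - r)

end Crest.Agent.EF
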