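import Mathlib
import Crest.Agent.S0170AuxMove
import Crest.Prelude.Def_BoxFlow

/-! Combinatorial geometry of moving boxes. -/

set_option autoImplicit false

namespace Crest.Agent.S0170

open Filter Topology Crest.AnalysisR.BoxFlow

/-- position and half-widths of a box -/
abbrev Conf : Type := (Fin 3 → ℚ) × (Fin 3 → ℚ)

/-- the box of a configuration -/
def bx (c : Conf) : Set E3 := box c.1 c.2

/-- the affine map between two boxes -/
noncomputable def Af (c c' : Conf) (x : E3) : E3 :=
  fun j => (c'.1 j : ℝ) + ((c'.2 j / c.2 j : ℚ) : ℝ) * (x j - (c.1 j : ℝ))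

/-- positive widths -/
def Pos (c : Conf) : Prop := ∀ j, 0 < c.2 j

theorem Af_mem {c c' : Conf} (hc : Pos c) (hc' : Pos c') {x : E3} (hx : x ∈ bx c) : Af c c' x ∈ bx c' := by
  intro j
  have h1 : (0:ℝ) < c.2 j := by exact_mod_cast hc j
  have h2 : (0:ℝ) < c'.2 j := by exact_mod_cast hc' j
  have h3 := hx j
  unfold Af
  rw [add_sub_cancel_left, abs_mul]
  push_cast
  rw [abs_of_pos (div_pos h2 h1)]
  calc (c'.2 j : ℝ) / c.2 j * |x j - c.1 j| ≤ (c'.2 j : ℝ) / c.2 j * c.2 j := by gcongr
    _ = c'.2 j := by field_simp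

theorem Af_comp {c c' c'' : Conf} (hc : Pos c) (hc' : Pos c') (x : E3) :
    Af c' c'' (Af c c' x) = Af c c'' x := by
  funext j
  have h1 : (c.2 j : ℝ) ≠ 0 := by exact_mod_cast (hc j).ne'
  have h2 : (c'.2 j : ℝ) ≠ 0 := by exact_mod_cast (hc' j).ne'
  unfold Af
  push_cast
  field_simp
  ring

theorem Af_self {c : Conf} (hc : Pos c) (x : E3) : Af c c x = x := by
  funext j
  have h1 : (c.2 j) ≠ 0 := (hc j).ne'
  unfold Af
  rw [div_self h1]
  push_cast
  ring

/-- single-box moves -/
def Mv (Ω : Set E3) (c c' : Conf) : Prop := RealL Ω (bx c) (Af c c')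

theorem Mv.trans {Ω : Set E3} {c c' c'' : Conf} (hc : Pos c) (hc' : Pos c') (h : Mv Ω c c') (h' : Mv Ω c' c'') :
    Mv Ω c c'' := by
  have h1 := RealL.comp h h' (fun x hx => Af_mem hc hc' hx)
  exact h1.mono le_rfl le_rfl (fun x _ => (Af_comp hc hc' x).symm)

theorem Mv.mono {Ω Ω' : Set E3} {c c' : Conf} (h : Mv Ω c c') (hΩ : Ω ⊆ Ω') : Mv Ω' c c' :=
  RealL.mono h hΩ le_rfl (fun _ _ => rfl)

/-- all boxes simultaneously -/
def Reach {n : ℕ} (u v : Fin n → Conf) : Prop :=
  ∃ U Φ, Good U Φ ∧ ∀ i, ∀ x ∈ bx (u i), Φ 1 x = Af (u i) (v i) x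

theorem Reach.refl {n : ℕ} {u : Fin n → Conf} (hu : ∀ i, Pos (u i)) : Reach u u := by
  obtain ⟨U, Φ, hG, h1, _⟩ := RealL.id Set.univ Set.univ
  exact ⟨U, Φ, hG, fun i x _ => by rw [h1 x (Set.mem_univ x), Af_self (hu i)]⟩

theorem Reach.trans {n : ℕ} {u v w : Fin n → Conf} (hu : ∀ i, Pos (u i)) (hv : ∀ i, Pos (v i))
    (h : Reach u v) (h' : Reach v w) : Reach u w := by
  obtain ⟨U, Φ, hG, h1⟩ := h
  obtain ⟨U', Φ', hG', h1'⟩ := h'
  have key : ∀ x, Φ' (4 * 1 - 15/8) (Φ (4 * 1 - 9/8) x) = Φ' 1 (Φ 1 x) := by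
    intro x
    rw [hG.late _ _ (by norm_num : (5:ℝ)/8 < 4*1-9/8), hG'.late _ _ (by norm_num : (5:ℝ)/8 < 4*1-15/8)]
  refine ⟨_, _, hG.comp hG', ?_⟩
  intro i x hx
  rw [key, h1 i x hx, h1' i _ (Af_mem (hu i) (hv i) hx), Af_comp (hu i) (hv i)]

theorem Reach.update {n : ℕ} {u : Fin n → Conf} (hu : ∀ i, Pos (u i)) (i : Fin n) {c : Conf} {Ω : Set E3}
    (h : Mv Ω (u i) c) (hΩ : ∀ j, j ≠ i → ∀ x ∈ bx (u j), x ∉ Ω) : Reach u (Function.update u i c) := by
  obtain ⟨U, Φ, hG, h1, h2⟩ := h
  refine ⟨U, Φ, hG, fun j x hx => ?_⟩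
  rcases eq_or_ne j i with rfl | hj
  · rw [Function.update_self]; exact h1 x hx
  · rw [Function.update_of_ne hj, Af_self (hu j)]
    exact h2 x (hΩ j hj x hx)

/-- sequential moves -/
theorem Reach.seq {n : ℕ} {u v : Fin n → Conf} (hu : ∀ i, Pos (u i)) (hv : ∀ i, Pos (v i))
    (ρ : Fin n → ℕ) (hρ : Function.Injective ρ) (Ω : Fin n → Set E3)
    (hM : ∀ i, Mv (Ω i) (u i) (v i))
    (h1 : ∀ i j, ρ j < ρ i → ∀ x ∈ bx (v j), x ∉ Ω i)
    (h2 : ∀ i j, ρ i < ρ j → ∀ x ∈ bx (u j), x ∉ Ω i) : Reach u v := by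
  have key : ∀ m : ℕ, Reach u (fun i => if ρ i < m then v i else u i) := by
    intro m
    induction m with
    | zero => simpa using Reach.refl hu
    | succ m ih =>
      by_cases hex : ∃ i, ρ i = m
      · obtain ⟨i, hi⟩ := hex
        have hpos : ∀ j, Pos ((fun i => if ρ i < m then v i else u i) j) := by
          intro j
          simp only
          split_ifs
          · exact hv j
          · exact hu j
        have hM' : Mv (Ω i) ((fun i => if ρ i < m then v i else u i) i) (v i) := by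
          simp only [hi, lt_irrefl, if_false]
          exact hM i
        have hstep := Reach.update hpos i hM' (by
          intro j hj x hx
          have hx : x ∈ bx (if ρ j < m then v j else u j) := hx
          have hne : ρ j ≠ ρ i := fun h => hj (hρ h)
          split_ifs at hx with hlt
          · exact h1 i j (by omega) x hx
          · exact h2 i j (by omega) x hx)
        have e : Function.update (fun i => if ρ i < m then v i else u i) i (v i) =
            fun i => if ρ i < m + 1 then v i else u i := by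
          funext j
          rcases eq_or_ne j i with rfl | hj
          · rw [Function.update_self, if_pos (by omega)]
          · rw [Function.update_of_ne hj]
            have hne : ρ j ≠ ρ i := fun h => hj (hρ h)
            by_cases hlt : ρ j < m
            · rw [if_pos hlt, if_pos (by omega)]
            · rw [if_neg hlt, if_neg (by omega)]
        rw [e] at hstep
        exact ih.trans hu hpos hstep
      · have e : (fun i => if ρ i < m + 1 then v i else u i) = fun i => if ρ i < m then v i else u i := by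
          funext j
          have hne : ρ j ≠ m := fun h => hex ⟨j, h⟩
          by_cases hlt : ρ j < m
          · rw [if_pos hlt, if_pos (by omega)]
          · rw [if_neg hlt, if_neg (by omega)]
        rw [e]; exact ih
  have hfin := key (∑ i, ρ i + 1)
  have e : (fun i => if ρ i < ∑ i, ρ i + 1 then v i else u i) = v := by
    funext j
    rw [if_pos]
    exact Nat.lt_succ_of_le (Finset.single_le_sum (fun i _ => Nat.zero_le _) (Finset.mem_univ j))
  rwa [e] at hfin

/-! ### translations -/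

/-- translate a box along an axis to the position `X` -/
def mvTo (c : Conf) (i : Fin 3) (X : ℚ) : Conf := (Function.update c.1 i X, c.2)

/-- the region used by a translation -/
def Ωto (c : Conf) (i : Fin 3) (X ε : ℚ) : Set E3 :=
  {x | (∀ m, m ≠ i → |x m - c.1 m| < c.2 m + ε) ∧ ((min (c.1 i) X - c.2 i - ε : ℚ) : ℝ) < x i ∧
    x i < ((max (c.1 i) X + c.2 i + ε : ℚ) : ℝ)}

theorem Pos.mvTo {c : Conf} (hc : Pos c) (i : Fin 3) (X : ℚ) : Pos (mvTo c i X) := hc

theorem exists_ne (i : Fin 3) : ∃ j : Fin 3, i ≠ j := by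
  rcases eq_or_ne i 0 with rfl | h
  · exact ⟨1, by decide⟩
  · exact ⟨0, h⟩

theorem Mv.to {c : Conf} (hc : Pos c) (i : Fin 3) (X : ℚ) {ε : ℚ} (hε : 0 < ε) :
    Mv (Ωto c i X ε) c (S0170.mvTo c i X) := by
  obtain ⟨j, hij⟩ := exists_ne i
  have hX : (|X - c.1 i| = X - c.1 i ∧ c.1 i ≤ X) ∨ (|X - c.1 i| = -(X - c.1 i) ∧ X ≤ c.1 i) := by
    rcases le_total (c.1 i) X with h | h
    · left; exact ⟨abs_of_nonneg (by linarith), h⟩
    · right; exact ⟨abs_of_nonpos (by linarith), h⟩
  have hd0 : 0 ≤ |X - c.1 i| := abs_nonneg _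
  have hr : ∀ m, 0 ≤ Function.update c.2 i (c.2 i + |X - c.1 i|/2) m := by
    intro m
    rcases eq_or_ne m i with rfl | hm
    · rw [Function.update_self]; have := hc m; linarith
    · rw [Function.update_of_ne hm]; exact (hc m).le
  have hmove := RealL.move (Function.update c.1 i ((c.1 i + X)/2)) (Function.update c.2 i (c.2 i + |X - c.1 i|/2))
    ε i j (X - c.1 i) 0 hε hr hij (bx c) (by
      intro x hx
      have hxi := hx i
      rw [abs_le] at hxi
      have hX' : ((|X - c.1 i| : ℚ) : ℝ) = X - c.1 i ∧ (c.1 i : ℝ) ≤ X ∨ ((|X - c.1 i| : ℚ) : ℝ) = -(X - c.1 i) ∧ (X : ℝ) ≤ c.1 i := by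
        rcases hX with ⟨h1, h2⟩ | ⟨h1, h2⟩
        · left; rw [h1]; push_cast; exact ⟨rfl, by exact_mod_cast h2⟩
        · right; rw [h1]; push_cast; exact ⟨rfl, by exact_mod_cast h2⟩
      constructor
      · intro m
        rcases eq_or_ne m i with rfl | hm
        · rw [Function.update_self, Function.update_self, abs_le]
          rw [Rat.cast_add (c.2 m), Rat.cast_div, Rat.cast_div, Rat.cast_add (c.1 m)]
          push_cast at hX' ⊢
          rcases hX' with ⟨h1, h2⟩ | ⟨h1, h2⟩
          · rw [h1]; constructor <;> linarith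
          · rw [h1]; constructor <;> linarith
        · rw [Function.update_of_ne hm, Function.update_of_ne hm]; exact hx m
      · intro m
        rcases eq_or_ne m i with rfl | hm
        · rw [Function.update_self, Function.update_self, Function.update_self, abs_le]
          rw [Rat.cast_add (c.2 m), Rat.cast_div, Rat.cast_div, Rat.cast_add (c.1 m)]
          push_cast at hX' ⊢
          rcases hX' with ⟨h1, h2⟩ | ⟨h1, h2⟩
          · rw [h1]; constructor <;> linarith
          · rw [h1]; constructor <;> linarith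
        · rw [Function.update_of_ne hm, Function.update_of_ne hm, Function.update_of_ne hm]; exact hx m)
  refine hmove.mono ?_ le_rfl ?_
  · intro x hx
    refine ⟨fun m hm => ?_, ?_, ?_⟩
    · have := hx m
      rw [Function.update_of_ne hm, Function.update_of_ne hm] at this
      exact this
    · have := hx i
      rw [Function.update_self, Function.update_self, abs_lt] at this
      rcases hX with ⟨h1, h2⟩ | ⟨h1, h2⟩
      · rw [h1] at this; rw [min_eq_left h2]; push_cast at this ⊢; linarith [this.1]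
      · rw [h1] at this; rw [min_eq_right h2]; push_cast at this ⊢; linarith [this.1]
    · have := hx i
      rw [Function.update_self, Function.update_self, abs_lt] at this
      rcases hX with ⟨h1, h2⟩ | ⟨h1, h2⟩
      · rw [h1] at this; rw [max_eq_right h2]; push_cast at this ⊢; linarith [this.2]
      · rw [h1] at this; rw [max_eq_left h2]; push_cast at this ⊢; linarith [this.2]
  · intro x _
    funext m
    have h1 : (c.2 m) ≠ 0 := (hc m).ne'
    show ((Function.update c.1 i X m : ℚ) : ℝ) + ((c.2 m / c.2 m : ℚ) : ℝ) * (x m - (c.1 m : ℝ)) = _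
    rw [div_self h1]
    rcases eq_or_ne m i with rfl | hm
    · rw [Function.update_self, Function.update_self]; push_cast; ring
    · rw [Function.update_of_ne hm, Function.update_of_ne hm]; push_cast; ring

/-! ### shears and rescalings -/

/-- cubes -/
def cube (p : Fin 3 → ℚ) (m : ℚ) : Set E3 := box p (fun _ => m)

/-- open cubes -/
def ocube (p : Fin 3 → ℚ) (m : ℚ) : Set E3 := {x | ∀ l, |x l - p l| < m}

/-- shears -/
noncomputable def sh (p : Fin 3 → ℚ) (i j : Fin 3) (c : ℚ) (x : E3) : E3 :=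
  Function.update x i (x i + c * (x j - p j))

theorem sh_mem (p : Fin 3 → ℚ) (i j : Fin 3) (c m : ℚ) (hm : 0 ≤ m) (x : E3) (hx : x ∈ cube p m) :
    sh p i j c x ∈ cube p ((1 + |c|) * m) := by
  intro l
  have hc : (0:ℝ) ≤ |(c:ℝ)| := abs_nonneg _
  have hm' : (0:ℝ) ≤ m := by exact_mod_cast hm
  have e1 : |x i - p i| ≤ (m:ℝ) := hx i
  have e2 : |x j - p j| ≤ (m:ℝ) := hx j
  show |Function.update x i (x i + c * (x j - p j)) l - p l| ≤ (((1 + |c|) * m : ℚ) : ℝ)
  push_cast
  rcases eq_or_ne l i with rfl | hl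
  · rw [Function.update_self]
    have e3 : x l + c * (x j - p j) - p l = (x l - p l) + c * (x j - p j) := by ring
    rw [e3]
    calc _ ≤ |x l - p l| + |(c:ℝ) * (x j - p j)| := abs_add_le _ _
      _ ≤ m + |(c:ℝ)| * m := by rw [abs_mul]; gcongr
      _ = _ := by ring
  · rw [Function.update_of_ne hl]
    have e3 : |x l - p l| ≤ (m:ℝ) := hx l
    nlinarith

theorem cube_mono (p : Fin 3 → ℚ) {m M : ℚ} (h : m ≤ M) : cube p m ⊆ cube p M := by
  intro x hx l
  have h1 : |x l - p l| ≤ (m:ℝ) := hx l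
  have h2 : (m:ℝ) ≤ M := by exact_mod_cast h
  exact h1.trans h2

theorem RealL.shear (p : Fin 3 → ℚ) (i j : Fin 3) (hij : i ≠ j) (c m M : ℚ) (hm : 0 ≤ m)
    (hM : (1 + |c|) * m ≤ M) : RealL (ocube p (M + 1)) (cube p m) (sh p i j c) := by
  have hc : 0 ≤ |c| := abs_nonneg _
  have hmM : m ≤ M := by nlinarith
  have h := RealL.move p (fun _ => M) 1 i j (-(c * p j)) c one_pos (fun _ => hm.trans hmM) hij (cube p m) (by
    intro x hx
    refine ⟨cube_mono p hmM hx, ?_⟩
    have := cube_mono p hM (sh_mem p i j c m hm x hx)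
    have e : sh p i j c x = Function.update x i (x i + (((-(c * p j) : ℚ) : ℝ) + (c:ℝ) * x j)) := by
      unfold sh
      congr 1
      push_cast
      ring
    rw [e] at this
    exact this)
  refine h.mono ?_ le_rfl ?_
  · intro x hx l
    have := hx l
    push_cast at this ⊢
    exact this
  · intro x _
    unfold sh
    congr 1
    push_cast
    ring

/-- hyperbolic map -/
noncomputable def hy (p : Fin 3 → ℚ) (i j : Fin 3) (s : ℚ) (x : E3) : E3 :=
  Function.update (Function.update x i (p i + s * (x i - p i))) j (p j + (x j - p j) / s)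

theorem hy_eq (p : Fin 3 → ℚ) (i j : Fin 3) (hij : i ≠ j) (s : ℚ) (hs : 0 < s) (x : E3) :
    sh p i j (s-1) (sh p j i 1 (sh p i j ((1-s)/s) (sh p j i (-s) x))) = hy p i j s x := by
  have hs' : (s:ℝ) ≠ 0 := by exact_mod_cast hs.ne'
  funext l
  unfold sh hy
  rcases eq_or_ne l i with rfl | hi
  · simp only [Function.update_self, Function.update_of_ne hij, Function.update_of_ne hij.symm]
    push_cast
    field_simp
    ring
  · rcases eq_or_ne l j with rfl | hj
    · simp only [Function.update_self, Function.update_of_ne hij, Function.update_of_ne hij.symm,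
        Function.update_of_ne hi]
      push_cast
      field_simp
      ring
    · simp only [Function.update_of_ne hi, Function.update_of_ne hj]

theorem RealL.hyper (i j : Fin 3) (hij : i ≠ j) (s m : ℚ) (hs : 0 < s) (hm : 0 ≤ m) :
    ∃ M : ℚ, ∀ M' ≥ M, ∀ p, RealL (ocube p M') (cube p m) (hy p i j s) := by
  have hb : ∀ c : ℚ, 1 ≤ 1 + |c| := fun c => by have := abs_nonneg c; linarith
  set m1 := (1 + |(-s)|) * m with hm1
  set m2 := (1 + |(1-s)/s|) * m1 with hm2
  set m3 := (1 + |(1:ℚ)|) * m2 with hm3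
  set m4 := (1 + |s-1|) * m3 with hm4
  have h1 : m ≤ m1 := by rw [hm1]; nlinarith [hb (-s)]
  have h2 : m1 ≤ m2 := by rw [hm2]; nlinarith [hb ((1-s)/s)]
  have h3 : m2 ≤ m3 := by rw [hm3]; nlinarith [hb 1]
  have h4 : m3 ≤ m4 := by rw [hm4]; nlinarith [hb (s-1)]
  refine ⟨m4 + 1, fun M' hM' p => ?_⟩
  have r1 : RealL (ocube p (m4+1)) (cube p m) (sh p j i (-s)) := RealL.shear p j i hij.symm _ _ _ hm (by rw [← hm1]; linarith)
  have r2 : RealL (ocube p (m4+1)) (cube p m1) (sh p i j ((1-s)/s)) := RealL.shear p i j hij _ _ _ (by linarith) (by rw [← hm2]; linarith)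
  have r3 : RealL (ocube p (m4+1)) (cube p m2) (sh p j i 1) := RealL.shear p j i hij.symm _ _ _ (by linarith) (by rw [← hm3]; exact h4)
  have r4 : RealL (ocube p (m4+1)) (cube p m3) (sh p i j (s-1)) := RealL.shear p i j hij _ _ _ (by linarith) (by rw [← hm4])
  have r12 := r1.comp r2 (fun x hx => sh_mem p j i (-s) m hm x hx)
  have r123 := r12.comp r3 (fun x hx => sh_mem p i j _ m1 (by linarith) _ (sh_mem p j i (-s) m hm x hx))
  have r1234 := r123.comp r4 (fun x hx => sh_mem p j i _ m2 (by linarith) _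
    (sh_mem p i j _ m1 (by linarith) _ (sh_mem p j i (-s) m hm x hx)))
  refine r1234.mono ?_ le_rfl ?_
  · intro x hx l
    have h5 : |x l - p l| < ((m4 + 1 : ℚ) : ℝ) := hx l
    have h6 : ((m4 + 1 : ℚ) : ℝ) ≤ M' := by exact_mod_cast hM'
    exact h5.trans_le h6
  · intro x _
    exact (hy_eq p i j hij s hs x).symm

/-- hyperbolic rescaling of a box -/
theorem Mv.hyper (i j : Fin 3) (hij : i ≠ j) (s : ℚ) (hs : 0 < s) (h h' : Fin 3 → ℚ)
    (hh : ∀ m, 0 < h m) (hi : h' i = h i * s) (hj : h' j = h j / s) (hk : ∀ m, m ≠ i → m ≠ j → h' m = h m) :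
    ∃ M : ℚ, ∀ M' ≥ M, ∀ p, Mv (ocube p M') (p, h) (p, h') := by
  have hsum : ∀ l, h l ≤ ∑ m, h m := fun l =>
    Finset.single_le_sum (f := h) (fun m _ => (hh m).le) (Finset.mem_univ l)
  obtain ⟨M, hM⟩ := RealL.hyper i j hij s (∑ m, h m) hs (Finset.sum_nonneg (fun m _ => (hh m).le))
  refine ⟨M, fun M' hM' p => (hM M' hM' p).mono le_rfl ?_ ?_⟩
  · intro x hx l
    have h1 : |x l - p l| ≤ (h l : ℝ) := hx l
    have h2 : (h l : ℝ) ≤ ((∑ m, h m : ℚ) : ℝ) := by exact_mod_cast hsum l
    exact h1.trans h2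
  · intro x _
    funext l
    have hs' : (s:ℝ) ≠ 0 := by exact_mod_cast hs.ne'
    have hhl : (h l : ℝ) ≠ 0 := by exact_mod_cast (hh l).ne'
    show (p l : ℝ) + ((h' l / h l : ℚ) : ℝ) * (x l - (p l : ℝ)) = _
    unfold hy
    rcases eq_or_ne l j with rfl | hl
    · rw [Function.update_self, hj]
      push_cast
      field_simp
    · rw [Function.update_of_ne hl]
      rcases eq_or_ne l i with rfl | hl'
      · rw [Function.update_self, hi]
        push_cast
        field_simp
      · rw [Function.update_of_ne hl', hk l hl' hl]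
        push_cast
        field_simp
        ring

theorem Mv.deform (h k : Fin 3 → ℚ) (hh : ∀ m, 0 < h m) (hk : ∀ m, 0 < k m)
    (hv : ∏ m, k m / h m = 1) : ∃ M : ℚ, ∀ M' ≥ M, ∀ p, Mv (ocube p M') (p, h) (p, k) := by
  rw [Fin.prod_univ_three] at hv
  have h0 := hh 0
  have h1 := hh 1
  have h2 := hh 2
  have k0 := hk 0
  have k1 := hk 1
  have k2 := hk 2
  have hv' : k 0 * k 1 * k 2 = h 0 * h 1 * h 2 := by
    field_simp at hv
    linarith
  set g : Fin 3 → ℚ := fun m => if m = 0 then k 0 else if m = 1 then h 1 / (k 0 / h 0) else h 2 with hg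
  have g0 : g 0 = k 0 := by simp [hg]
  have g1 : g 1 = h 1 / (k 0 / h 0) := by simp [hg]
  have g2 : g 2 = h 2 := by simp [hg]
  have gpos : ∀ m, 0 < g m := by
    intro m
    fin_cases m
    · show 0 < g 0; rw [g0]; exact k0
    · show 0 < g 1; rw [g1]; positivity
    · show 0 < g 2; rw [g2]; exact h2
  obtain ⟨M1, hM1⟩ := Mv.hyper 0 1 (by decide) (k 0 / h 0) (by positivity) h g hh
    (by rw [g0]; field_simp) (by rw [g1]) (by
      intro m hm0 hm1
      have : m = 2 := by omega
      subst this; rw [g2])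
  obtain ⟨M2, hM2⟩ := Mv.hyper 1 2 (by decide) (k 1 / g 1) (div_pos k1 (gpos 1)) g k gpos
    (by have := (gpos 1).ne'; field_simp) (by
      rw [g2, g1]
      field_simp
      linarith) (by
      intro m hm0 hm1
      have : m = 0 := by omega
      subst this; rw [g0])
  refine ⟨max M1 M2, fun M' hM' p => ?_⟩
  exact Mv.trans (c' := (p, g)) hh gpos (hM1 M' ((le_max_left _ _).trans hM') p) (hM2 M' ((le_max_right _ _).trans hM') p)

end Crest.Agent.S0170
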