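import Mathlib
import Crest.Agent.S0170AuxGeom
import Crest.Prelude.Def_BoxFlow

/-! The three phases. -/

set_option autoImplicit false

namespace Crest.Agent.S0170

open Filter Topology Crest.AnalysisR.BoxFlow

theorem exists_rank {n : ℕ} (R : Fin n → ℚ) : ∃ σ : Fin n → ℕ, Function.Injective σ ∧ (∀ i, σ i < n) ∧
    ∀ i j, σ j < σ i → R j ≤ R i := by
  refine ⟨fun i => ((Tuple.sort R).symm i : ℕ), ?_, fun i => ((Tuple.sort R).symm i).2, ?_⟩
  · intro i j h
    exact (Tuple.sort R).symm.injective (Fin.ext h)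
  · intro i j h
    have hm := Tuple.monotone_sort R
    have h1 : (Tuple.sort R).symm j ≤ (Tuple.sort R).symm i := le_of_lt h
    have h2 := hm h1
    simpa using h2

theorem exists_small {ι : Type*} [Fintype ι] (f : ι → ℚ) (hf : ∀ x, 0 < f x) :
    ∃ δ : ℚ, 0 < δ ∧ δ ≤ 1 ∧ ∀ x, δ ≤ f x := by
  have hs : 0 ≤ ∑ x, 1 / f x := Finset.sum_nonneg (fun x _ => (by have := hf x; positivity))
  refine ⟨(1 + ∑ x, 1 / f x)⁻¹, by positivity, ?_, ?_⟩
  · exact inv_le_one_of_one_le₀ (by linarith)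
  · intro x
    have h1 : 1 / f x ≤ ∑ x, 1 / f x :=
      Finset.single_le_sum (f := fun x => 1 / f x) (fun x _ => (by have := hf x; positivity)) (Finset.mem_univ x)
    have h2 : 1 / f x ≤ 1 + ∑ x, 1 / f x := by linarith
    have h3 := hf x
    rw [inv_le_comm₀ (by positivity) h3, inv_eq_one_div]
    exact h2

theorem exists_big {ι : Type*} [Fintype ι] (f : ι → ℚ) : ∃ B : ℚ, 1 ≤ B ∧ ∀ x, f x ≤ B := by
  have hs : 0 ≤ ∑ x, |f x| := Finset.sum_nonneg (fun x _ => abs_nonneg _)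
  refine ⟨1 + ∑ x, |f x|, by linarith, fun x => ?_⟩
  have h1 : |f x| ≤ ∑ x, |f x| :=
    Finset.single_le_sum (f := fun x => |f x|) (fun x _ => abs_nonneg _) (Finset.mem_univ x)
  have := le_abs_self (f x)
  linarith

section slide

variable {n : ℕ} (c : Fin n → Conf) (ε B : ℚ) (σ : Fin n → ℕ) (off : ℕ)

/-- parking positions -/
def park (i : Fin n) : ℚ := 8 * B * ((off + 1 : ℕ) + (σ i : ℕ))

variable (hc : ∀ i, Pos (c i)) (hε : 0 < ε) (hε1 : ε ≤ 1) (hB : 1 ≤ B)
  (hB1 : ∀ i m, |(c i).1 m| ≤ B) (hB2 : ∀ i m, (c i).2 m ≤ B)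
  (hσ : ∀ i j, σ j < σ i → (c j).1 0 + (c j).2 0 ≤ (c i).1 0 + (c i).2 0)
  (hgap : ∀ i j, i ≠ j → ∃ m, (c i).2 m + (c j).2 m + ε ≤ |(c i).1 m - (c j).1 m|)

include hB hB1 in
theorem le_park (i : Fin n) : (c i).1 0 ≤ park B σ off i := by
  unfold park
  have h1 := le_of_abs_le (hB1 i 0)
  have h2 : (0:ℚ) ≤ (off : ℚ) := Nat.cast_nonneg _
  have h3 : (0:ℚ) ≤ (σ i : ℚ) := Nat.cast_nonneg _
  push_cast
  nlinarith

include hc hε hB hB1 hσ hgap in
theorem slide_A (i j : Fin n) (hij : σ j < σ i) (x : E3) (hx : x ∈ bx (c j)) :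
    x ∉ Ωto (c i) 0 (park B σ off i) ε := by
  rintro ⟨h1, h2, _⟩
  have hne : i ≠ j := by rintro rfl; exact lt_irrefl _ hij
  obtain ⟨m, hm⟩ := hgap i j hne
  have hmR : ((c i).2 m : ℝ) + (c j).2 m + ε ≤ |((c i).1 m : ℝ) - (c j).1 m| := by exact_mod_cast hm
  have hxm : |x m - (c j).1 m| ≤ ((c j).2 m : ℝ) := hx m
  rw [min_eq_left (le_park c B σ off hB hB1 i)] at h2
  push_cast at h2
  rcases eq_or_ne m 0 with rfl | hm0
  · have hR := hσ i j hij
    have hRR : ((c j).1 0 : ℝ) + (c j).2 0 ≤ (c i).1 0 + (c i).2 0 := by exact_mod_cast hR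
    have hp1 : (0:ℝ) < (c j).2 0 := by exact_mod_cast hc j 0
    have hε' : (0:ℝ) < ε := by exact_mod_cast hε
    rw [abs_le] at hxm
    rcases le_abs.1 hmR with h | h
    · linarith
    · linarith
  · have h3 := h1 m hm0
    have : |((c i).1 m : ℝ) - (c j).1 m| ≤ |x m - (c i).1 m| + |x m - (c j).1 m| := by
      have e : ((c i).1 m : ℝ) - (c j).1 m = (x m - (c j).1 m) - (x m - (c i).1 m) := by ring
      rw [e]
      have := abs_sub (x m - ((c j).1 m : ℝ)) (x m - ((c i).1 m : ℝ))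
      linarith
    linarith

include hε1 hB hB1 hB2 in
theorem slide_B (i j : Fin n) (hij : σ i < σ j) (x : E3) (hx : x ∈ bx (mvTo (c j) 0 (park B σ off j))) :
    x ∉ Ωto (c i) 0 (park B σ off i) ε := by
  rintro ⟨_, _, h3⟩
  rw [max_eq_right (le_park c B σ off hB hB1 i)] at h3
  have hx0 : |x 0 - ((Function.update (c j).1 0 (park B σ off j) 0 : ℚ) : ℝ)| ≤ ((c j).2 0 : ℝ) := hx 0
  rw [Function.update_self, abs_le] at hx0
  have b1 : ((c j).2 0 : ℝ) ≤ B := by exact_mod_cast hB2 j 0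
  have b2 : ((c i).2 0 : ℝ) ≤ B := by exact_mod_cast hB2 i 0
  have b3 : (1:ℝ) ≤ B := by exact_mod_cast hB
  have b4 : (ε:ℝ) ≤ 1 := by exact_mod_cast hε1
  have hs : ((σ i : ℝ)) + 1 ≤ σ j := by exact_mod_cast hij
  have hpark : ((park B σ off i : ℚ) : ℝ) + 8 * B ≤ ((park B σ off j : ℚ) : ℝ) := by
    unfold park
    push_cast
    nlinarith
  push_cast at h3
  linarith [hx0.1]

end slide

theorem mvTo_mvTo (c : Conf) (i : Fin 3) (X : ℚ) : mvTo (mvTo c i X) i (c.1 i) = c := by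
  unfold mvTo
  simp

theorem Ωto_symm (c : Conf) (i : Fin 3) (X ε : ℚ) : Ωto (mvTo c i X) i (c.1 i) ε ⊆ Ωto c i X ε := by
  rintro x ⟨h1, h2, h3⟩
  have e : (mvTo c i X).1 i = X := by unfold mvTo; simp
  rw [e] at h2 h3
  refine ⟨fun m hm => ?_, ?_, ?_⟩
  · have := h1 m hm
    have e2 : (mvTo c i X).1 m = c.1 m := by unfold mvTo; simp [hm]
    rw [e2] at this
    exact this
  · rw [min_comm]; exact h2
  · rw [max_comm]; exact h3

theorem Mv.from {c : Conf} (hc : Pos c) (i : Fin 3) (X : ℚ) {ε : ℚ} (hε : 0 < ε) :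
    Mv (Ωto c i X ε) (S0170.mvTo c i X) c := by
  have h := Mv.to (c := S0170.mvTo c i X) (Pos.mvTo hc i X) i (c.1 i) hε
  rw [mvTo_mvTo] at h
  exact h.mono (Ωto_symm c i X ε)

theorem reach_main {n : ℕ} (u v : Fin n → Conf) (hu : ∀ i, Pos (u i)) (hv : ∀ i, Pos (v i))
    (hvol : ∀ i, ∏ m, (v i).2 m / (u i).2 m = 1) (ε : ℚ) (hε : 0 < ε) (hε1 : ε ≤ 1)
    (hgu : ∀ i j, i ≠ j → ∃ m, (u i).2 m + (u j).2 m + ε ≤ |(u i).1 m - (u j).1 m|)
    (hgv : ∀ i j, i ≠ j → ∃ m, (v i).2 m + (v j).2 m + ε ≤ |(v i).1 m - (v j).1 m|) :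
    Reach u v := by
  choose M0 hM0 using fun i => Mv.deform (u i).2 (v i).2 (hu i) (hv i) (hvol i)
  obtain ⟨B1, hB1, hB1'⟩ := exists_big (fun x : Fin n × Fin 3 => |(u x.1).1 x.2|)
  obtain ⟨B2, hB2, hB2'⟩ := exists_big (fun x : Fin n × Fin 3 => (u x.1).2 x.2)
  obtain ⟨B3, hB3, hB3'⟩ := exists_big (fun x : Fin n × Fin 3 => |(v x.1).1 x.2|)
  obtain ⟨B4, hB4, hB4'⟩ := exists_big (fun x : Fin n × Fin 3 => (v x.1).2 x.2)
  obtain ⟨B5, hB5, hB5'⟩ := exists_big M0
  set B := B1 + B2 + B3 + B4 + B5 with hBdef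
  have hB : 1 ≤ B := by linarith
  have bu1 : ∀ i m, |(u i).1 m| ≤ B := fun i m => by have := hB1' (i, m); simp only at this; linarith
  have bu2 : ∀ i m, (u i).2 m ≤ B := fun i m => by have := hB2' (i, m); simp only at this; linarith
  have bv1 : ∀ i m, |(v i).1 m| ≤ B := fun i m => by have := hB3' (i, m); simp only at this; linarith
  have bv2 : ∀ i m, (v i).2 m ≤ B := fun i m => by have := hB4' (i, m); simp only at this; linarith
  have bM : ∀ i, M0 i ≤ B := fun i => by have := hB5' i; linarith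
  obtain ⟨σ, σinj, σlt, hσ⟩ := exists_rank (fun i => (u i).1 0 + (u i).2 0)
  obtain ⟨τ, τinj, τlt, hτ⟩ := exists_rank (fun i => (v i).1 0 + (v i).2 0)
  set X : Fin n → ℚ := park B σ 0 with hX
  set X' : Fin n → ℚ := park B τ n with hX'
  set P : Fin n → Conf := fun i => mvTo (u i) 0 (X i) with hP
  set Q : Fin n → Conf := fun i => mvTo (v i) 0 (X' i) with hQ
  have hPpos : ∀ i, Pos (P i) := fun i => (hu i).mvTo 0 _
  have hQpos : ∀ i, Pos (Q i) := fun i => (hv i).mvTo 0 _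
  -- phase 1
  have phase1 : Reach u P := by
    refine Reach.seq hu hPpos (fun i => n - 1 - σ i) ?_ (fun i => Ωto (u i) 0 (X i) ε) ?_ ?_ ?_
    · intro i j h
      apply σinj
      have := σlt i
      have := σlt j
      simp only at h
      omega
    · intro i; exact Mv.to (hu i) 0 (X i) hε
    · intro i j hij x hx
      have := σlt i
      have := σlt j
      exact slide_B u ε B σ 0 hε1 hB bu1 bu2 i j (by omega) x hx
    · intro i j hij x hx
      have := σlt i
      have := σlt j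
      exact slide_A u ε B σ 0 hu hε hB bu1 hσ hgu i j (by omega) x hx
  -- phase 3
  have phase3 : Reach Q v := by
    refine Reach.seq hQpos hv τ τinj (fun i => Ωto (v i) 0 (X' i) ε) ?_ ?_ ?_
    · intro i; exact Mv.from (hv i) 0 (X' i) hε
    · intro i j hij x hx
      exact slide_A v ε B τ n hv hε hB bv1 hτ hgv i j hij x hx
    · intro i j hij x hx
      exact slide_B v ε B τ n hε1 hB bv1 bv2 i j hij x hx
  -- phase 2
  have hBR : (1:ℝ) ≤ B := by exact_mod_cast hB
  have hεR : (ε:ℝ) ≤ 1 := by exact_mod_cast hε1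
  have phase2 : Reach P Q := by
    refine Reach.seq hPpos hQpos (fun i => (i : ℕ)) Fin.val_injective
      (fun i => {x | |x 0 - X i| < 2 * B ∨ 6 * (B:ℝ) < x 1 ∨ |x 0 - X' i| < 2 * B}) ?_ ?_ ?_
    · intro i
      have hui0 : ((u i).2 0 : ℝ) ≤ B := by exact_mod_cast bu2 i 0
      have hvi0 : ((v i).2 0 : ℝ) ≤ B := by exact_mod_cast bv2 i 0
      have hvi1 : ((v i).2 1 : ℝ) ≤ B := by exact_mod_cast bv2 i 1
      -- step 1
      have s1 := Mv.to (hPpos i) 1 (8 * B) hε
      set p1 : Fin 3 → ℚ := Function.update (Function.update (u i).1 0 (X i)) 1 (8 * B) with hp1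
      have s2 := hM0 i (B) (bM i) p1
      have s3 := Mv.to (c := (p1, (v i).2)) (hv i) 0 (X' i) hε
      set c3 := mvTo (p1, (v i).2) 0 (X' i) with hc3
      have s4 := Mv.to (c := c3) (hv i) 2 ((v i).1 2) hε
      set c4 := mvTo c3 2 ((v i).1 2) with hc4
      have s5 := Mv.to (c := c4) (hv i) 1 ((v i).1 1) hε
      have e5 : mvTo c4 1 ((v i).1 1) = Q i := by
        simp only [hc4, hc3, hQ, hp1, mvTo]
        congr 1
        funext m
        fin_cases m <;> simp [Function.update]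
      rw [e5] at s5
      set Ω : Set E3 := {x | |x 0 - X i| < 2 * B ∨ 6 * (B:ℝ) < x 1 ∨ |x 0 - X' i| < 2 * B} with hΩ
      have t1 : Mv Ω (P i) (p1, (u i).2) := by
        refine Mv.mono s1 ?_
        rintro x ⟨h1, _⟩
        left
        have h2 := h1 0 (by decide)
        have e : (P i).1 0 = X i := by simp [hP, mvTo]
        rw [e] at h2
        refine h2.trans_le ?_
        show ((u i).2 0 : ℝ) + ε ≤ 2 * B
        linarith
      have t2 : Mv Ω (p1, (u i).2) (p1, (v i).2) := by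
        refine Mv.mono s2 ?_
        intro x hx
        left
        have h2 := hx 0
        have e : p1 0 = X i := by simp [hp1]
        rw [e] at h2
        linarith
      have t3 : Mv Ω (p1, (v i).2) c3 := by
        refine Mv.mono s3 ?_
        rintro x ⟨h1, _⟩
        right; left
        have h2 := h1 1 (by decide)
        have e : p1 1 = 8 * B := by simp [hp1]
        simp only [e] at h2
        push_cast at h2
        rw [abs_lt] at h2
        linarith [h2.1]
      have t4 : Mv Ω c3 c4 := by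
        refine Mv.mono s4 ?_
        rintro x ⟨h1, _⟩
        right; right
        have h2 := h1 0 (by decide)
        have e : c3.1 0 = X' i := by simp [hc3, mvTo]
        rw [e] at h2
        refine h2.trans_le ?_
        show ((v i).2 0 : ℝ) + ε ≤ 2 * B
        linarith
      have t5 : Mv Ω c4 (Q i) := by
        refine Mv.mono s5 ?_
        rintro x ⟨h1, _⟩
        right; right
        have h2 := h1 0 (by decide)
        have e : c4.1 0 = X' i := by simp [hc4, hc3, mvTo]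
        rw [e] at h2
        refine h2.trans_le ?_
        show ((v i).2 0 : ℝ) + ε ≤ 2 * B
        linarith
      have q1 : Pos (p1, (u i).2) := hu i
      have q2 : Pos (p1, (v i).2) := hv i
      have q3 : Pos c3 := hv i
      have q4 : Pos c4 := hv i
      exact Mv.trans (hPpos i) q1 t1 (Mv.trans q1 q2 t2 (Mv.trans q2 q3 t3 (Mv.trans q3 q4 t4 t5)))
    · -- processed boxes sit at `Q j`
      intro i j hij x hx
      have hne : (τ i : ℝ) + 1 ≤ τ j ∨ (τ j : ℝ) + 1 ≤ τ i := by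
        have hij' : j ≠ i := fun h => by subst h; exact lt_irrefl _ hij
        have : τ i ≠ τ j := fun h => hij' (τinj h).symm
        rcases lt_or_gt_of_ne this with h | h
        · left; exact_mod_cast h
        · right; exact_mod_cast h
      have hx0 : |x 0 - ((Q j).1 0 : ℝ)| ≤ ((v j).2 0 : ℝ) := hx 0
      have hx1 : |x 1 - ((Q j).1 1 : ℝ)| ≤ ((v j).2 1 : ℝ) := hx 1
      have e0 : (Q j).1 0 = X' j := by simp [hQ, mvTo]
      have e1 : (Q j).1 1 = (v j).1 1 := by simp [hQ, mvTo]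
      rw [e0] at hx0
      rw [e1] at hx1
      have b0 : ((v j).2 0 : ℝ) ≤ B := by exact_mod_cast bv2 j 0
      have b1 : ((v j).2 1 : ℝ) ≤ B := by exact_mod_cast bv2 j 1
      have b2 : ((v j).1 1 : ℝ) ≤ B := by exact_mod_cast le_of_abs_le (bv1 j 1)
      have hσn : (σ i : ℝ) + 1 ≤ n := by exact_mod_cast σlt i
      have hτ0 : (0:ℝ) ≤ τ j := Nat.cast_nonneg _
      rw [abs_le] at hx0 hx1
      simp only [hX', hX, park] at hx0 ⊢
      push_cast at hx0 ⊢
      rintro (h | h | h)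
      · rw [abs_lt] at h
        nlinarith [h.1, h.2, hx0.1, hx0.2]
      · linarith
      · rw [abs_lt] at h
        rcases hne with hne | hne
        · nlinarith [h.1, h.2, hx0.1, hx0.2]
        · nlinarith [h.1, h.2, hx0.1, hx0.2]
    · -- unprocessed boxes sit at `P j`
      intro i j hij x hx
      have hne : (σ i : ℝ) + 1 ≤ σ j ∨ (σ j : ℝ) + 1 ≤ σ i := by
        have hij' : j ≠ i := fun h => by subst h; exact lt_irrefl _ hij
        have : σ i ≠ σ j := fun h => hij' (σinj h).symm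
        rcases lt_or_gt_of_ne this with h | h
        · left; exact_mod_cast h
        · right; exact_mod_cast h
      have hx0 : |x 0 - ((P j).1 0 : ℝ)| ≤ ((u j).2 0 : ℝ) := hx 0
      have hx1 : |x 1 - ((P j).1 1 : ℝ)| ≤ ((u j).2 1 : ℝ) := hx 1
      have e0 : (P j).1 0 = X j := by simp [hP, mvTo]
      have e1 : (P j).1 1 = (u j).1 1 := by simp [hP, mvTo]
      rw [e0] at hx0
      rw [e1] at hx1
      have b0 : ((u j).2 0 : ℝ) ≤ B := by exact_mod_cast bu2 j 0
      have b1 : ((u j).2 1 : ℝ) ≤ B := by exact_mod_cast bu2 j 1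
      have b2 : ((u j).1 1 : ℝ) ≤ B := by exact_mod_cast le_of_abs_le (bu1 j 1)
      have hσn : (σ j : ℝ) + 1 ≤ n := by exact_mod_cast σlt j
      have hτ0 : (0:ℝ) ≤ τ i := Nat.cast_nonneg _
      rw [abs_le] at hx0 hx1
      simp only [hX', hX, park] at hx0 ⊢
      push_cast at hx0 ⊢
      rintro (h | h | h)
      · rw [abs_lt] at h
        rcases hne with hne | hne
        · nlinarith [h.1, h.2, hx0.1, hx0.2]
        · nlinarith [h.1, h.2, hx0.1, hx0.2]
      · linarith
      · rw [abs_lt] at h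
        nlinarith [h.1, h.2, hx0.1, hx0.2]
  exact Reach.trans hu hPpos phase1 (Reach.trans hPpos hQpos phase2 phase3)

end Crest.Agent.S0170
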