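import Crest.Statements.S0170
import Crest.Agent.S0170AuxMain

set_option autoImplicit false
open scoped ContDiff
open Crest.AnalysisR.BoxFlow
open Crest Crest.AnalysisR

namespace Crest.Agent.S0170

/-- strict separation of disjoint boxes -/
theorem sep_of_disjoint {a h b k : Fin 3 → ℚ} (hh : ∀ j, 0 < h j) (hk : ∀ j, 0 < k j)
    (hd : Disjoint (box a h) (box b k)) : ∃ m, h m + k m < |a m - b m| := by
  by_contra hcon
  push Not at hcon
  have hcon' : ∀ m, |(a m : ℝ) - b m| ≤ (h m : ℝ) + k m := fun m => by exact_mod_cast hcon m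
  rw [Set.disjoint_left] at hd
  have hh' : ∀ j, (0:ℝ) < h j := fun j => by exact_mod_cast hh j
  have hk' : ∀ j, (0:ℝ) < k j := fun j => by exact_mod_cast hk j
  apply hd (a := fun m => max ((a m : ℝ) - h m) ((b m : ℝ) - k m))
  · intro m
    have h1 := hcon' m
    have h2 := hh' m
    have h3 := hk' m
    rw [abs_le] at h1 ⊢
    rcases max_cases ((a m : ℝ) - h m) ((b m : ℝ) - k m) with ⟨e, _⟩ | ⟨e, _⟩
    · simp only [e]; constructor <;> linarith
    · simp only [e]; constructor <;> linarith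
  · intro m
    have h1 := hcon' m
    have h2 := hh' m
    have h3 := hk' m
    rw [abs_le] at h1 ⊢
    rcases max_cases ((a m : ℝ) - h m) ((b m : ℝ) - k m) with ⟨e, _⟩ | ⟨e, _⟩
    · simp only [e]; constructor <;> linarith
    · simp only [e]; constructor <;> linarith

/-- uniform margin -/
theorem exists_margin {n : ℕ} (a h : Fin n → Fin 3 → ℚ) (hh : ∀ i j, 0 < h i j)
    (ha : Pairwise fun i i' => Disjoint (box (a i) (h i)) (box (a i') (h i'))) :
    ∃ δ : ℚ, 0 < δ ∧ δ ≤ 1 ∧ ∀ δ' : ℚ, 0 < δ' → δ' ≤ δ → ∀ i j, i ≠ j →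
      ∃ m, (1 + δ') * h i m + (1 + δ') * h j m + δ' ≤ |a i m - a j m| := by
  have hsep : ∀ x : {x : Fin n × Fin n // x.1 ≠ x.2}, ∃ m, h x.1.1 m + h x.1.2 m < |a x.1.1 m - a x.1.2 m| :=
    fun x => sep_of_disjoint (hh _) (hh _) (ha x.2)
  choose m hm using hsep
  obtain ⟨δ, h1, h2, h3⟩ := exists_small (fun x : {x : Fin n × Fin n // x.1 ≠ x.2} =>
    (|a x.1.1 (m x) - a x.1.2 (m x)| - (h x.1.1 (m x) + h x.1.2 (m x))) /
      (h x.1.1 (m x) + h x.1.2 (m x) + 1)) (fun x => by
        have := hm x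
        have e1 := hh x.1.1 (m x)
        have e2 := hh x.1.2 (m x)
        exact div_pos (by linarith) (by linarith))
  refine ⟨δ, h1, h2, fun δ' hp hle i j hij => ⟨m ⟨(i, j), hij⟩, ?_⟩⟩
  have e := h3 ⟨(i, j), hij⟩
  have e1 := hh i (m ⟨(i, j), hij⟩)
  have e2 := hh j (m ⟨(i, j), hij⟩)
  simp only at e
  rw [le_div_iff₀ (by linarith)] at e
  nlinarith


/-- Finitely many pairwise disjoint rational boxes in 3-space are carried onto disjoint target boxes, each a translated determinant-one positive diagonal rescaling of its source, by the time-one flow of a smooth, compactly supported, effective, divergence-free velocity field active only in [1/4,3/4]. The flow equals the prescribed affine map on a neighbourhood of each source box. Effective: computably approximable mixed derivatives at rational points and computable global derivative bounds. -/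
theorem result
    (n : ℕ) (a b h k : Fin n → Fin 3 → ℚ)
    (hh : ∀ i j, 0 < h i j) (hk : ∀ i j, 0 < k i j)
    (ha : Pairwise fun i i' => Disjoint (box (a i) (h i)) (box (a i') (h i')))
    (hb : Pairwise fun i i' => Disjoint (box (b i) (k i)) (box (b i') (k i')))
    (hvol : ∀ i, ∏ j : Fin 3, k i j / h i j = 1) :
    ∃ (U : Field) (Φ : ℝ → (Fin 3 → ℝ) → (Fin 3 → ℝ)),
      ContDiff ℝ ∞ U ∧ HasCompactSupport U ∧ Effective U ∧
      (∀ p : ℝ × (Fin 3 → ℝ), p.1 ∉ Set.Icc (1 / 4 : ℝ) (3 / 4) → U p = 0) ∧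
      (∀ p : ℝ × (Fin 3 → ℝ), spaceDiv U p = 0) ∧ IsFlow U Φ ∧
      ∀ i : Fin n, ∃ O : Set (Fin 3 → ℝ), IsOpen O ∧ box (a i) (h i) ⊆ O ∧
        ∀ x ∈ O, Φ 1 x = fun j => (b i j : ℝ) + ((k i j / h i j : ℚ) : ℝ) * (x j - (a i j : ℝ)) := by
  obtain ⟨δa, a1, a2, a3⟩ := exists_margin a h hh ha
  obtain ⟨δb, b1, b2, b3⟩ := exists_margin b k hk hb
  set δ := min δa δb with hδ
  have hδ0 : 0 < δ := lt_min a1 b1
  have hδ1 : δ ≤ 1 := (min_le_left _ _).trans a2
  have hpos1 : 0 < 1 + δ := by linarith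
  set u : Fin n → Conf := fun i => (a i, fun m => (1 + δ) * h i m) with hu
  set v : Fin n → Conf := fun i => (b i, fun m => (1 + δ) * k i m) with hv
  have hupos : ∀ i, Pos (u i) := fun i m => mul_pos hpos1 (hh i m)
  have hvpos : ∀ i, Pos (v i) := fun i m => mul_pos hpos1 (hk i m)
  have hratio : ∀ i m, (1 + δ) * k i m / ((1 + δ) * h i m) = k i m / h i m := fun i m =>
    mul_div_mul_left _ _ hpos1.ne'
  obtain ⟨U, Φ, hG, hΦ⟩ := reach_main u v hupos hvpos (fun i => by
      rw [← hvol i]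
      apply Finset.prod_congr rfl
      intro m _
      exact hratio i m) δ hδ0 hδ1
    (fun i j hij => a3 δ hδ0 (min_le_left _ _) i j hij)
    (fun i j hij => b3 δ hδ0 (min_le_right _ _) i j hij)
  obtain ⟨R, hR⟩ := hG.supp
  refine ⟨U, Φ, hG.eff.contDiff, ?_, hG.eff.effective, ?_, hG.div, hG.flow, ?_⟩
  · apply HasCompactSupport.intro (K := Set.Icc (3/8 : ℝ) (5/8) ×ˢ Metric.closedBall (0 : Fin 3 → ℝ) R)
      (isCompact_Icc.prod (isCompact_closedBall _ _))
    intro p hp
    by_cases hp1 : p.1 ∈ Set.Icc (3/8 : ℝ) (5/8)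
    · apply hR
      by_contra hle
      apply hp
      refine ⟨hp1, ?_⟩
      rw [mem_closedBall_zero_iff]
      exact not_lt.1 hle
    · apply hG.time
      by_contra hcon
      push Not at hcon
      exact hp1 ⟨hcon.1, hcon.2⟩
  · intro p hp
    apply hG.time
    by_contra hcon
    push Not at hcon
    apply hp
    constructor
    · linarith [hcon.1]
    · linarith [hcon.2]
  · intro i
    refine ⟨{x | ∀ m, |x m - (a i m : ℝ)| < (1 + δ) * h i m}, ?_, ?_, ?_⟩
    · have e : {x : Fin 3 → ℝ | ∀ m, |x m - (a i m : ℝ)| < (1 + δ) * h i m} =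
          ⋂ m, {x : Fin 3 → ℝ | |x m - (a i m : ℝ)| < (1 + δ) * h i m} := by
        ext x; simp
      rw [e]
      apply isOpen_iInter_of_finite
      intro m
      exact isOpen_lt (by fun_prop) continuous_const
    · intro x hx m
      have h1 := hx m
      have h2 : (0:ℝ) < h i m := by exact_mod_cast hh i m
      have h3 : (0:ℝ) < δ := by exact_mod_cast hδ0
      nlinarith
    · intro x hx
      have hx' : x ∈ bx (u i) := by
        intro m
        have h1 : |x m - (a i m : ℝ)| < (1 + δ) * h i m := hx m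
        show |x m - (a i m : ℝ)| ≤ (((1 + δ) * h i m : ℚ) : ℝ)
        push_cast
        exact h1.le
      rw [hΦ i x hx']
      funext m
      show (b i m : ℝ) + (((1 + δ) * k i m / ((1 + δ) * h i m) : ℚ) : ℝ) * (x m - (a i m : ℝ)) = _
      rw [hratio]

end Crest.Agent.S0170
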