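import Mathlib

/-! Primitive recursive arithmetic on `ℚ` with respect to Mathlib's `Primcodable ℚ`
(coming from `Denumerable ℚ`). -/

set_option autoImplicit false

namespace Crest.Agent.S0170

open Encodable Denumerable

/-- original code of a rational -/
def encE (q : ℚ) : ℕ := @encode ℚ Rat.instEncodable q

theorem encE_eq (q : ℚ) : encE q = Nat.pair (encode q.num) q.den := rfl

theorem encE_inj {q r : ℚ} (h : encE q = encE r) : q = r :=
  @encode_injective ℚ Rat.instEncodable _ _ h

/-- the set of codes -/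
abbrev RR : Set ℕ := Set.range (@encode ℚ Rat.instEncodable)

instance : DecidablePred (· ∈ RR) := @decidableRangeEncode ℚ Rat.instEncodable

instance : Infinite RR :=
  Infinite.of_injective _ (Equiv.ofInjective _ (@encode_injective ℚ Rat.instEncodable)).injective

theorem encE_ofNat (n : ℕ) : encE (ofNat ℚ n) = (Nat.Subtype.ofNat RR n : ℕ) := by
  have h : ofNat ℚ n = (@equivRangeEncode ℚ Rat.instEncodable).symm (Nat.Subtype.ofNat RR n) := rfl
  rw [h]
  have := (@equivRangeEncode ℚ Rat.instEncodable).apply_symm_apply (Nat.Subtype.ofNat RR n)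
  exact congrArg Subtype.val this

theorem encode_int (z : ℤ) : encode z = Equiv.intEquivNat z := rfl

theorem encode_int_ofNat (n : ℕ) : encode (n : ℤ) = 2 * n := rfl

theorem encode_int_negSucc (n : ℕ) : encode (Int.negSucc n) = 2 * n + 1 := rfl

theorem mem_RR (m : ℕ) : m ∈ RR ↔ 0 < m.unpair.2 ∧ Nat.Coprime ((m.unpair.1 + 1)/2) m.unpair.2 := by
  constructor
  · rintro ⟨q, rfl⟩
    have h : @encode ℚ Rat.instEncodable q = Nat.pair (encode q.num) q.den := rfl
    rw [h, Nat.unpair_pair]
    refine ⟨q.den_pos, ?_⟩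
    have hc := q.reduced
    rcases hq : q.num with n | n
    · rw [hq] at hc
      show Nat.Coprime ((2*n+1)/2) q.den
      rw [show (2*n+1)/2 = n by omega]
      exact hc
    · rw [hq] at hc
      show Nat.Coprime ((2*n+1+1)/2) q.den
      rw [show (2*n+1+1)/2 = n+1 by omega]
      exact hc
  · rintro ⟨h1, h2⟩
    rcases Nat.even_or_odd' m.unpair.1 with ⟨k, hk | hk⟩
    · refine ⟨⟨(k : ℤ), m.unpair.2, h1.ne', ?_⟩, ?_⟩
      · rw [hk, show (2*k+1)/2 = k by omega] at h2
        exact h2
      · show Nat.pair (encode (k : ℤ)) m.unpair.2 = m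
        rw [encode_int_ofNat, ← hk, Nat.pair_unpair]
    · refine ⟨⟨Int.negSucc k, m.unpair.2, h1.ne', ?_⟩, ?_⟩
      · rw [hk, show (2*k+1+1)/2 = k+1 by omega] at h2
        exact h2
      · show Nat.pair (encode (Int.negSucc k)) m.unpair.2 = m
        rw [encode_int_negSucc, ← hk, Nat.pair_unpair]

theorem coprime_iff (a b : ℕ) (hb : 0 < b) :
    Nat.Coprime a b ↔ ∀ x < b + 1, (¬ (a % x = 0)) ∨ (¬ (b % x = 0)) ∨ x ≤ 1 := by
  constructor
  · intro h x _
    by_cases h1 : a % x = 0
    · by_cases h2 : b % x = 0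
      · right; right
        have := Nat.dvd_gcd (Nat.dvd_of_mod_eq_zero h1) (Nat.dvd_of_mod_eq_zero h2)
        rw [Nat.Coprime] at h
        rw [h] at this
        exact Nat.le_of_dvd one_pos this
      · right; left; exact h2
    · left; exact h1
  · intro h
    have h1 := h (Nat.gcd a b) (Nat.lt_succ_of_le (Nat.gcd_le_right _ hb))
    rcases h1 with h1 | h1 | h1
    · exact absurd (Nat.mod_eq_zero_of_dvd (Nat.gcd_dvd_left a b)) h1
    · exact absurd (Nat.mod_eq_zero_of_dvd (Nat.gcd_dvd_right a b)) h1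
    · have : 0 < Nat.gcd a b := Nat.gcd_pos_of_pos_right _ hb
      exact le_antisymm h1 this

theorem primrec_mem_RR : PrimrecPred (fun m => m ∈ RR) := by
  have hu1 : Primrec (fun m : ℕ => m.unpair.1) := Primrec.fst.comp Primrec.unpair
  have hu2 : Primrec (fun m : ℕ => m.unpair.2) := Primrec.snd.comp Primrec.unpair
  have ha : Primrec (fun m : ℕ => (m.unpair.1 + 1)/2) :=
    Primrec.nat_div.comp (Primrec.succ.comp hu1) (Primrec.const 2)
  have h0 : PrimrecRel (fun (x : ℕ) (m : ℕ) => (¬ (((m.unpair.1 + 1)/2) % x = 0)) ∨ (¬ (m.unpair.2 % x = 0)) ∨ x ≤ 1) := by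
    apply PrimrecPred.or
    · apply PrimrecPred.not
      exact Primrec.eq.comp (Primrec.nat_mod.comp (ha.comp Primrec.snd) Primrec.fst) (Primrec.const 0)
    · apply PrimrecPred.or
      · apply PrimrecPred.not
        exact Primrec.eq.comp (Primrec.nat_mod.comp (hu2.comp Primrec.snd) Primrec.fst) (Primrec.const 0)
      · exact Primrec.nat_le.comp Primrec.fst (Primrec.const 1)
  have h1 : PrimrecRel (fun (n : ℕ) (m : ℕ) => ∀ x < n, (¬ (((m.unpair.1 + 1)/2) % x = 0)) ∨ (¬ (m.unpair.2 % x = 0)) ∨ x ≤ 1) :=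
    PrimrecRel.forall_lt h0
  have h2 : PrimrecPred (fun (m : ℕ) => ∀ x < m.unpair.2 + 1, (¬ (((m.unpair.1 + 1)/2) % x = 0)) ∨ (¬ (m.unpair.2 % x = 0)) ∨ x ≤ 1) :=
    h1.comp (Primrec.succ.comp hu2) Primrec.id
  have h3 : PrimrecPred (fun m : ℕ => 0 < m.unpair.2) := Primrec.nat_lt.comp (Primrec.const 0) hu2
  refine (h3.and h2).of_eq ?_
  intro m
  rw [mem_RR]
  constructor
  · rintro ⟨h, h'⟩
    exact ⟨h, (coprime_iff _ _ h).2 h'⟩
  · rintro ⟨h, h'⟩
    exact ⟨h, (coprime_iff _ _ h).1 h'⟩

/-- n-th code -/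
def ee (n : ℕ) : ℕ := (Nat.Subtype.ofNat RR n : ℕ)

theorem ee_lt_succ (n : ℕ) : ee n < ee (n+1) :=
  Nat.Subtype.lt_succ_self (Nat.Subtype.ofNat RR n)

theorem ee_strictMono : StrictMono ee := strictMono_nat_of_lt_succ ee_lt_succ

theorem ee_mem (n : ℕ) : ee n ∈ RR := (Nat.Subtype.ofNat RR n).2

theorem ee_surj (m : ℕ) (hm : m ∈ RR) : ∃ n, ee n = m := by
  obtain ⟨n, hn⟩ := Nat.Subtype.ofNat_surjective (s := RR) ⟨m, hm⟩
  exact ⟨n, congrArg Subtype.val hn⟩

theorem int_mem_RR (n : ℕ) : Nat.pair (2*n) 1 ∈ RR := by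
  rw [mem_RR, Nat.unpair_pair]
  simp

theorem ee_le (n : ℕ) : ee n ≤ Nat.pair (2*n) 1 := by
  induction n with
  | zero =>
    have : Nat.Subtype.ofNat RR 0 ≤ ⟨_, int_mem_RR 0⟩ := bot_le
    exact this
  | succ n ih =>
    have h : Nat.Subtype.ofNat RR n < ⟨_, int_mem_RR (n+1)⟩ := by
      show ee n < Nat.pair (2*(n+1)) 1
      exact lt_of_le_of_lt ih (Nat.pair_lt_pair_left _ (by omega))
    exact Nat.Subtype.succ_le_of_lt h

/-- the code used by `Primcodable ℚ` -/
def cQ (q : ℚ) : ℕ := @encode ℚ (Primcodable.toEncodable) q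

theorem ofNat_cQ (q : ℚ) : ofNat ℚ (cQ q) = q := ofNat_encode q

theorem cQ_ofNat (n : ℕ) : cQ (ofNat ℚ n) = n := encode_ofNat n

theorem primrec_cQ : Primrec cQ := Primrec.encode

theorem encE_eq_ee (q : ℚ) : encE q = ee (cQ q) := by
  have := encE_ofNat (cQ q)
  rw [ofNat_cQ] at this
  exact this

theorem cQ_le_encE (q : ℚ) : cQ q ≤ encE q := by
  rw [encE_eq_ee]; exact ee_strictMono.le_apply

/-- counting -/
def cnt (n : ℕ) : ℕ := Nat.rec 0 (fun m r => if m ∈ RR then r + 1 else r) n

theorem cnt_succ (n : ℕ) : cnt (n+1) = if n ∈ RR then cnt n + 1 else cnt n := rfl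

theorem primrec_cnt : Primrec cnt := by
  unfold cnt
  refine Primrec.nat_rec₁ (f := fun m r => if m ∈ RR then r + 1 else r) 0 ?_
  exact Primrec.ite (primrec_mem_RR.comp Primrec.fst) (Primrec.succ.comp Primrec.snd) Primrec.snd

theorem cnt_le_of_ee (n : ℕ) : cnt (ee n) = n := by
  have key : ∀ k n, k ≤ ee n → (∀ m < n, ee m < k) → cnt k = n := by
    intro k
    induction k with
    | zero =>
      intro n _ h2
      rcases n with _ | n
      · rfl
      · exact absurd (h2 n (Nat.lt_succ_self n)) (Nat.not_lt_zero _)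
    | succ k ih =>
      intro n h1 h2
      rw [cnt_succ]
      split_ifs with hk
      · obtain ⟨m, hm⟩ := ee_surj k hk
        have hmn : m < n := by
          by_contra hcon
          have := ee_strictMono.monotone (not_lt.1 hcon)
          omega
        have hm1 : n = m + 1 := by
          by_contra hne
          have h3 : m + 1 < n := by omega
          have h4 := h2 (m+1) h3
          have h5 := ee_lt_succ m
          omega
        subst hm1
        rw [ih m (by omega) (fun m' hm' => by have := ee_strictMono hm'; omega)]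
      · apply ih n (by omega)
        intro m hm
        have h3 := h2 m hm
        have h4 : ee m ≠ k := fun h => hk (h ▸ ee_mem m)
        omega
  exact key _ n le_rfl (fun m hm => ee_strictMono hm)

theorem ee_graph (n m : ℕ) : ee n = m ↔ (m ∈ RR ∧ cnt m = n) := by
  constructor
  · rintro rfl
    exact ⟨ee_mem n, cnt_le_of_ee n⟩
  · rintro ⟨h1, h2⟩
    obtain ⟨k, rfl⟩ := ee_surj m h1
    rw [cnt_le_of_ee] at h2
    rw [h2]

theorem primrec_ee : Primrec ee := by
  apply Primrec.of_graph
  · exact ⟨fun n => Nat.pair (2*n) 1, Primrec₂.natPair.comp (Primrec.nat_mul.comp (Primrec.const 2) Primrec.id) (Primrec.const 1), fun n => ee_le n⟩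
  · have h1 : PrimrecRel (fun (n m : ℕ) => m ∈ RR ∧ cnt m = n) :=
      (primrec_mem_RR.comp Primrec.snd).and (Primrec.eq.comp (primrec_cnt.comp Primrec.snd) Primrec.fst)
    exact PrimrecRel.of_eq h1 (fun n m => (ee_graph n m).symm)

theorem primrec_encE : Primrec encE :=
  (primrec_ee.comp primrec_cQ).of_eq (fun q => (encE_eq_ee q).symm)

/-- positive part of the numerator -/
def posN (q : ℚ) : ℕ := q.num.toNat
/-- negative part of the numerator -/
def negN (q : ℚ) : ℕ := (-q.num).toNat

theorem posN_eq (q : ℚ) : posN q = if (encE q).unpair.1 % 2 = 0 then (encE q).unpair.1 / 2 else 0 := by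
  rw [encE_eq, Nat.unpair_pair]
  unfold posN
  rcases hq : q.num with n | n
  · show n = if (2*n) % 2 = 0 then 2*n/2 else 0
    rw [if_pos (by omega)]; omega
  · show 0 = if (2*n+1) % 2 = 0 then (2*n+1)/2 else 0
    rw [if_neg (by omega)]

theorem negN_eq (q : ℚ) : negN q = if (encE q).unpair.1 % 2 = 0 then 0 else ((encE q).unpair.1 + 1) / 2 := by
  rw [encE_eq, Nat.unpair_pair]
  unfold negN
  rcases hq : q.num with n | n
  · show (-(n : ℤ)).toNat = if (2*n) % 2 = 0 then 0 else (2*n+1)/2
    rw [if_pos (by omega)]; omega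
  · show (-(Int.negSucc n)).toNat = if (2*n+1) % 2 = 0 then 0 else (2*n+1+1)/2
    rw [if_neg (by omega)]
    have : -(Int.negSucc n) = (n : ℤ) + 1 := by omega
    rw [this]; omega

theorem primrec_num1 : Primrec (fun q : ℚ => (encE q).unpair.1) :=
  Primrec.fst.comp (Primrec.unpair.comp primrec_encE)

theorem primrec_den : Primrec (fun q : ℚ => q.den) :=
  (Primrec.snd.comp (Primrec.unpair.comp primrec_encE)).of_eq (fun q => by rw [encE_eq, Nat.unpair_pair])

theorem primrec_posN : Primrec posN := by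
  refine Primrec.of_eq (f := fun q => if (encE q).unpair.1 % 2 = 0 then (encE q).unpair.1 / 2 else 0) ?_ (fun q => (posN_eq q).symm)
  exact Primrec.ite (Primrec.eq.comp (Primrec.nat_mod.comp primrec_num1 (Primrec.const 2)) (Primrec.const 0))
    (Primrec.nat_div.comp primrec_num1 (Primrec.const 2)) (Primrec.const 0)

theorem primrec_negN : Primrec negN := by
  refine Primrec.of_eq (f := fun q => if (encE q).unpair.1 % 2 = 0 then 0 else ((encE q).unpair.1 + 1) / 2) ?_ (fun q => (negN_eq q).symm)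
  exact Primrec.ite (Primrec.eq.comp (Primrec.nat_mod.comp primrec_num1 (Primrec.const 2)) (Primrec.const 0))
    (Primrec.const 0) (Primrec.nat_div.comp (Primrec.succ.comp primrec_num1) (Primrec.const 2))

theorem rat_eq_parts (q : ℚ) : q = ((posN q : ℚ) - negN q) / q.den := by
  have h1 : ((posN q : ℤ) - negN q) = q.num := by unfold posN negN; omega
  have h2 : ((posN q : ℚ) - negN q) = (q.num : ℚ) := by exact_mod_cast h1
  rw [h2, Rat.num_div_den]

/-- build a rational -/
def mkR (p n d : ℕ) : ℚ := ((p:ℚ) - n)/d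

theorem encode_int_le (z : ℤ) : @encode ℤ _ z ≤ 2 * z.natAbs := by
  rcases z with n | n
  · exact le_rfl
  · show 2*n+1 ≤ 2*(n+1); omega

theorem mkR_eq (p n d : ℕ) (hd : 0 < d) : mkR p n d = (((p:ℤ) - n : ℤ) : ℚ) / ((d : ℤ) : ℚ) := by
  unfold mkR; push_cast; rfl

theorem encE_mkR_le (p n d : ℕ) : encE (mkR p n d) ≤ Nat.pair (2*(p+n)) (d+1) := by
  have hmono : ∀ a b c e : ℕ, a ≤ c → b ≤ e → Nat.pair a b ≤ Nat.pair c e := by
    intro a b c e h1 h2
    rcases h1.eq_or_lt with rfl | h1
    · rcases h2.eq_or_lt with rfl | h2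
      · exact le_rfl
      · exact (Nat.pair_lt_pair_right _ h2).le
    · refine (Nat.pair_lt_pair_left _ h1).le.trans ?_
      rcases h2.eq_or_lt with rfl | h2
      · exact le_rfl
      · exact (Nat.pair_lt_pair_right _ h2).le
  rw [encE_eq]
  apply hmono
  · refine (encode_int_le _).trans ?_
    have : (mkR p n d).num.natAbs ≤ p + n := by
      rcases Nat.eq_zero_or_pos d with rfl | hd
      · unfold mkR; simp
      · rw [mkR_eq p n d hd]
        have hdvd : (((((p:ℤ) - n : ℤ) : ℚ) / ((d : ℤ) : ℚ)).num) ∣ ((p:ℤ) - n) := by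
          rw [← Rat.divInt_eq_div]
          exact Rat.num_dvd _ (by exact_mod_cast hd.ne')
        rcases eq_or_ne ((p:ℤ) - n) 0 with h0 | h0
        · rw [h0]; simp
        · have := Int.natAbs_dvd_natAbs.2 hdvd
          have h3 := Nat.le_of_dvd (Int.natAbs_pos.2 h0) this
          omega
    omega
  · rcases Nat.eq_zero_or_pos d with rfl | hd
    · unfold mkR; simp
    · rw [mkR_eq p n d hd]
      have : ((((((p:ℤ) - n : ℤ) : ℚ) / ((d : ℤ) : ℚ)).den : ℤ)) ∣ (d : ℤ) := by
        rw [← Rat.divInt_eq_div]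
        exact Rat.den_dvd _ _
      have h2 : ((((p:ℤ) - n : ℤ) : ℚ) / ((d : ℤ) : ℚ)).den ∣ d := by exact_mod_cast this
      exact (Nat.le_of_dvd hd h2).trans (Nat.le_succ d)

theorem mkR_graph (p n d : ℕ) (r : ℚ) : mkR p n d = r ↔
    ((d = 0 ∧ (posN r = 0 ∧ negN r = 0)) ∨ (¬ d = 0 ∧ posN r * d + n * r.den = p * r.den + negN r * d)) := by
  have hr := rat_eq_parts r
  have hden : (0:ℚ) < r.den := by exact_mod_cast r.den_pos
  rcases Nat.eq_zero_or_pos d with rfl | hd
  · simp only [true_and, not_true, false_and, or_false]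
    unfold mkR
    constructor
    · intro h
      have h0 : r = 0 := by rw [← h]; simp
      subst h0
      exact ⟨rfl, rfl⟩
    · rintro ⟨h1, h2⟩
      rw [hr, h1, h2]; simp
  · have hd' : (0:ℚ) < d := by exact_mod_cast hd
    have : ¬ d = 0 := hd.ne'
    simp only [this, false_and, not_false_iff, true_and, false_or]
    unfold mkR
    constructor
    · intro h
      have h2 : ((p:ℚ) - n)/d = ((posN r : ℚ) - negN r) / r.den := by rw [← hr]; exact h
      rw [div_eq_div_iff hd'.ne' hden.ne'] at h2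
      have h3 : ((posN r * d + n * r.den : ℕ) : ℚ) = ((p * r.den + negN r * d : ℕ) : ℚ) := by
        push_cast; linarith
      exact_mod_cast h3
    · intro h
      have h3 : ((posN r * d + n * r.den : ℕ) : ℚ) = ((p * r.den + negN r * d : ℕ) : ℚ) := by
        exact_mod_cast h
      push_cast at h3
      rw [hr, div_eq_div_iff hd'.ne' hden.ne']
      linarith

theorem primrec_mkR : Primrec (fun x : ℕ × ℕ × ℕ => mkR x.1 x.2.1 x.2.2) := by
  have h : Primrec (fun x : ℕ × ℕ × ℕ => cQ (mkR x.1 x.2.1 x.2.2)) := by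
    apply Primrec.of_graph
    · refine ⟨fun x => Nat.pair (2*(x.1+x.2.1)) (x.2.2+1), ?_, ?_⟩
      · exact Primrec₂.natPair.comp (Primrec.nat_mul.comp (Primrec.const 2)
          (Primrec.nat_add.comp Primrec.fst (Primrec.fst.comp Primrec.snd)))
          (Primrec.succ.comp (Primrec.snd.comp Primrec.snd))
      · intro x
        exact (cQ_le_encE _).trans (encE_mkR_le _ _ _)
    · have hp : Primrec (fun x : (ℕ × ℕ × ℕ) × ℕ => x.1.1) := Primrec.fst.comp Primrec.fst
      have hn : Primrec (fun x : (ℕ × ℕ × ℕ) × ℕ => x.1.2.1) := Primrec.fst.comp (Primrec.snd.comp Primrec.fst)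
      have hd : Primrec (fun x : (ℕ × ℕ × ℕ) × ℕ => x.1.2.2) := Primrec.snd.comp (Primrec.snd.comp Primrec.fst)
      have hr : Primrec (fun x : (ℕ × ℕ × ℕ) × ℕ => ofNat ℚ x.2) := (Primrec.ofNat ℚ).comp Primrec.snd
      have hrp := primrec_posN.comp hr
      have hrn := primrec_negN.comp hr
      have hrd := primrec_den.comp hr
      have h1 : PrimrecRel (fun (x : ℕ × ℕ × ℕ) (m : ℕ) =>
        ((x.2.2 = 0 ∧ (posN (ofNat ℚ m) = 0 ∧ negN (ofNat ℚ m) = 0)) ∨
          (¬ x.2.2 = 0 ∧ posN (ofNat ℚ m) * x.2.2 + x.2.1 * (ofNat ℚ m).den = x.1 * (ofNat ℚ m).den + negN (ofNat ℚ m) * x.2.2))) := by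
        apply PrimrecPred.or
        · apply PrimrecPred.and
          · exact Primrec.eq.comp hd (Primrec.const 0)
          · exact (Primrec.eq.comp hrp (Primrec.const 0)).and (Primrec.eq.comp hrn (Primrec.const 0))
        · apply PrimrecPred.and
          · exact (Primrec.eq.comp hd (Primrec.const 0)).not
          · exact Primrec.eq.comp
              (Primrec.nat_add.comp (Primrec.nat_mul.comp hrp hd) (Primrec.nat_mul.comp hn hrd))
              (Primrec.nat_add.comp (Primrec.nat_mul.comp hp hrd) (Primrec.nat_mul.comp hrn hd))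
      refine PrimrecRel.of_eq h1 (fun x m => ?_)
      rw [← mkR_graph]
      constructor
      · intro h; rw [h, cQ_ofNat]
      · intro h; rw [← h, ofNat_cQ]
  exact Primrec.encode_iff.1 h

section ops
variable {α : Type*} [Primcodable α]

theorem primrec_mkR' {f g h : α → ℕ} (hf : Primrec f) (hg : Primrec g) (hh : Primrec h) :
    Primrec (fun a => mkR (f a) (g a) (h a)) :=
  primrec_mkR.comp (Primrec.pair hf (Primrec.pair hg hh))

theorem ratAdd {f g : α → ℚ} (hf : Primrec f) (hg : Primrec g) : Primrec (fun a => f a + g a) := by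
  have h := primrec_mkR'
    (Primrec.nat_add.comp (Primrec.nat_mul.comp (primrec_posN.comp hf) (primrec_den.comp hg))
      (Primrec.nat_mul.comp (primrec_posN.comp hg) (primrec_den.comp hf)))
    (Primrec.nat_add.comp (Primrec.nat_mul.comp (primrec_negN.comp hf) (primrec_den.comp hg))
      (Primrec.nat_mul.comp (primrec_negN.comp hg) (primrec_den.comp hf)))
    (Primrec.nat_mul.comp (primrec_den.comp hf) (primrec_den.comp hg))
  refine h.of_eq (fun a => ?_)
  have h1 : ((f a).den : ℚ) ≠ 0 := by exact_mod_cast (f a).den_nz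
  have h2 : ((g a).den : ℚ) ≠ 0 := by exact_mod_cast (g a).den_nz
  conv_rhs => rw [rat_eq_parts (f a), rat_eq_parts (g a)]
  unfold mkR
  push_cast
  field_simp
  ring

theorem ratMul {f g : α → ℚ} (hf : Primrec f) (hg : Primrec g) : Primrec (fun a => f a * g a) := by
  have h := primrec_mkR'
    (Primrec.nat_add.comp (Primrec.nat_mul.comp (primrec_posN.comp hf) (primrec_posN.comp hg))
      (Primrec.nat_mul.comp (primrec_negN.comp hf) (primrec_negN.comp hg)))
    (Primrec.nat_add.comp (Primrec.nat_mul.comp (primrec_posN.comp hf) (primrec_negN.comp hg))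
      (Primrec.nat_mul.comp (primrec_negN.comp hf) (primrec_posN.comp hg)))
    (Primrec.nat_mul.comp (primrec_den.comp hf) (primrec_den.comp hg))
  refine h.of_eq (fun a => ?_)
  have h1 : ((f a).den : ℚ) ≠ 0 := by exact_mod_cast (f a).den_nz
  have h2 : ((g a).den : ℚ) ≠ 0 := by exact_mod_cast (g a).den_nz
  conv_rhs => rw [rat_eq_parts (f a), rat_eq_parts (g a)]
  unfold mkR
  push_cast
  field_simp
  ring

theorem ratNeg {f : α → ℚ} (hf : Primrec f) : Primrec (fun a => - f a) := by
  have h := primrec_mkR' (primrec_negN.comp hf) (primrec_posN.comp hf) (primrec_den.comp hf)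
  refine h.of_eq (fun a => ?_)
  conv_rhs => rw [rat_eq_parts (f a)]
  unfold mkR
  ring

theorem ratSub {f g : α → ℚ} (hf : Primrec f) (hg : Primrec g) : Primrec (fun a => f a - g a) :=
  (ratAdd hf (ratNeg hg)).of_eq (fun a => by ring)

theorem ratNat {f : α → ℕ} (hf : Primrec f) : Primrec (fun a => (f a : ℚ)) :=
  (primrec_mkR' hf (Primrec.const 0) (Primrec.const 1)).of_eq (fun a => by unfold mkR; simp)

theorem ratInv {f : α → ℚ} (hf : Primrec f) : Primrec (fun a => (f a)⁻¹) := by
  have h := primrec_mkR'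
    (Primrec.nat_mul.comp (primrec_den.comp hf) (primrec_posN.comp hf))
    (Primrec.nat_mul.comp (primrec_den.comp hf) (primrec_negN.comp hf))
    (Primrec.nat_mul.comp (Primrec.nat_add.comp (primrec_posN.comp hf) (primrec_negN.comp hf))
      (Primrec.nat_add.comp (primrec_posN.comp hf) (primrec_negN.comp hf)))
  refine h.of_eq (fun a => ?_)
  have h1 : ((f a).den : ℚ) ≠ 0 := by exact_mod_cast (f a).den_nz
  have hz : posN (f a) = 0 ∨ negN (f a) = 0 := by unfold posN negN; omega
  conv_rhs => rw [rat_eq_parts (f a)]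
  unfold mkR
  push_cast
  rcases hz with hz | hz
  · rw [hz]
    simp only [Nat.cast_zero, mul_zero, zero_sub, zero_add]
    rcases eq_or_ne (negN (f a) : ℚ) 0 with h0 | h0
    · rw [h0]; simp
    · field_simp
  · rw [hz]
    simp only [Nat.cast_zero, mul_zero, sub_zero, add_zero]
    rcases eq_or_ne (posN (f a) : ℚ) 0 with h0 | h0
    · rw [h0]; simp
    · field_simp

theorem ratDiv {f g : α → ℚ} (hf : Primrec f) (hg : Primrec g) : Primrec (fun a => f a / g a) :=
  (ratMul hf (ratInv hg)).of_eq (fun a => by rw [div_eq_mul_inv])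

theorem ratLe : PrimrecRel (fun q r : ℚ => q ≤ r) := by
  have h : PrimrecRel (fun q r : ℚ => negN (r - q) = 0) :=
    Primrec.eq.comp (primrec_negN.comp (ratSub Primrec.snd Primrec.fst)) (Primrec.const 0)
  refine PrimrecRel.of_eq h (fun q r => ?_)
  unfold negN
  constructor
  · intro h
    have h1 : 0 ≤ (r-q).num := by omega
    have h2 := Rat.num_nonneg.1 h1
    linarith
  · intro h
    have h2 : 0 ≤ (r-q).num := Rat.num_nonneg.2 (by linarith)
    omega

theorem ratMax {f g : α → ℚ} (hf : Primrec f) (hg : Primrec g) : Primrec (fun a => max (f a) (g a)) := by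
  have : Primrec (fun a => if f a ≤ g a then g a else f a) :=
    Primrec.ite (ratLe.comp hf hg) hg hf
  exact this.of_eq (fun a => by rw [max_def])

theorem ratMin {f g : α → ℚ} (hf : Primrec f) (hg : Primrec g) : Primrec (fun a => min (f a) (g a)) := by
  have : Primrec (fun a => if f a ≤ g a then f a else g a) :=
    Primrec.ite (ratLe.comp hf hg) hf hg
  exact this.of_eq (fun a => by rw [min_def])

theorem ratPow {f : α → ℚ} {g : α → ℕ} (hf : Primrec f) (hg : Primrec g) : Primrec (fun a => f a ^ g a) := by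
  have h : Primrec (fun a => (Nat.rec (1:ℚ) (fun _ r => r * f a) (g a) : ℚ)) :=
    Primrec.nat_rec' (f := g) (g := fun _ => (1:ℚ)) (h := fun a (x : ℕ × ℚ) => x.2 * f a) hg (Primrec.const 1)
      (ratMul (Primrec.snd.comp Primrec.snd) (hf.comp Primrec.fst))
  refine h.of_eq (fun a => ?_)
  generalize g a = n
  induction n with
  | zero => simp
  | succ n ih => rw [pow_succ, ← ih]

/-- an upper bound for the absolute value -/
def ubd (q : ℚ) : ℕ := posN q + negN q

theorem abs_le_ubd (q : ℚ) : |q| ≤ ubd q := by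
  have h := rat_eq_parts q
  have h1 : (1:ℚ) ≤ q.den := by exact_mod_cast q.den_pos
  have hz : posN q = 0 ∨ negN q = 0 := by unfold posN negN; omega
  unfold ubd
  rw [h, abs_div, abs_of_pos (by linarith : (0:ℚ) < q.den)]
  rw [div_le_iff₀ (by linarith)]
  rw [← h]
  push_cast
  have h2 : |(posN q : ℚ) - negN q| = posN q + negN q := by
    rcases hz with hz | hz
    · rw [hz]; simp
    · rw [hz]; simp
  rw [h2]
  nlinarith [(Nat.cast_nonneg (posN q) : (0:ℚ) ≤ _), (Nat.cast_nonneg (negN q) : (0:ℚ) ≤ _)]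

theorem primrec_ubd : Primrec ubd := Primrec.nat_add.comp primrec_posN primrec_negN

theorem ratListSum {f : α → List ℚ} (hf : Primrec f) : Primrec (fun a => (f a).sum) := by
  have h : Primrec (fun a => (f a).foldr (fun x y => x + y) 0) :=
    Primrec.list_foldr (h := fun _ (x : ℚ × ℚ) => x.1 + x.2) hf (Primrec.const (0:ℚ))
      (ratAdd (Primrec.fst.comp Primrec.snd) (Primrec.snd.comp Primrec.snd))
  refine h.of_eq (fun a => ?_)
  generalize f a = l
  induction l with
  | nil => rfl
  | cons x l ih => rw [List.foldr_cons, ih, List.sum_cons]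

end ops

end Crest.Agent.S0170
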