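import Mathlib

/-! A Rvachev-type smooth step function `FF` with `FF' x = FF (2x+1) - FF (2x-1)`,
`FF = 0` left of `-1`, `FF = 1` right of `1`, and its rational approximation. -/

set_option autoImplicit false

namespace Crest.Agent.S0170

open MeasureTheory intervalIntegral Set Filter Topology

/-- averaging operator -/
noncomputable def TT (f : ℝ → ℝ) (x : ℝ) : ℝ := (1/2) * ∫ u in (-1:ℝ)..1, f (2*x+u)

/-- the invariant properties -/
structure StepLike (f : ℝ → ℝ) : Prop where
  mono : Monotone f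
  left : ∀ x, x ≤ -1 → f x = 0
  right : ∀ x, 1 ≤ x → f x = 1
  lip : ∀ x y, x ≤ y → f y - f x ≤ y - x

namespace StepLike
variable {f : ℝ → ℝ} (hf : StepLike f)
include hf

theorem nonneg (x : ℝ) : 0 ≤ f x := by
  rcases le_total x (-1) with h | h
  · rw [hf.left x h]
  · rw [← hf.left (-1) le_rfl]; exact hf.mono h

theorem le_one (x : ℝ) : f x ≤ 1 := by
  rcases le_total 1 x with h | h
  · rw [hf.right x h]
  · rw [← hf.right 1 le_rfl]; exact hf.mono h

theorem lipschitz : LipschitzWith 1 f := by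
  apply LipschitzWith.of_dist_le_mul
  intro x y
  rw [Real.dist_eq, Real.dist_eq]
  simp only [NNReal.coe_one, one_mul]
  rcases le_total x y with h | h
  · have h1 := hf.lip x y h
    have h2 := hf.mono h
    rw [abs_sub_comm (f x), abs_sub_comm x, abs_of_nonneg (by linarith), abs_of_nonneg (by linarith)]
    exact h1
  · have h1 := hf.lip y x h
    have h2 := hf.mono h
    rw [abs_of_nonneg (by linarith), abs_of_nonneg (by linarith)]
    exact h1

theorem continuous : Continuous f := hf.lipschitz.continuous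

theorem intervalIntegrable (a b : ℝ) : IntervalIntegrable f volume a b :=
  hf.continuous.intervalIntegrable a b

end StepLike

theorem TT_eq (f : ℝ → ℝ) (x : ℝ) : TT f x = (1/2) * ∫ u in (2*x-1)..(2*x+1), f u := by
  unfold TT
  rw [intervalIntegral.integral_comp_add_left (fun u => f u) (2*x), ← sub_eq_add_neg]

theorem hasDerivAt_TT {f : ℝ → ℝ} (hf : Continuous f) (x : ℝ) :
    HasDerivAt (TT f) (f (2*x+1) - f (2*x-1)) x := by
  have key : TT f = fun x => (1/2) * ((∫ u in (0:ℝ)..(2*x+1), f u) - ∫ u in (0:ℝ)..(2*x-1), f u) := by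
    funext y
    rw [TT_eq, intervalIntegral.integral_interval_sub_left (hf.intervalIntegrable _ _) (hf.intervalIntegrable _ _)]
  have hG : ∀ y, HasDerivAt (fun y => ∫ u in (0:ℝ)..y, f u) (f y) y := fun y =>
    intervalIntegral.integral_hasDerivAt_right (hf.intervalIntegrable _ _)
      (hf.stronglyMeasurableAtFilter _ _) hf.continuousAt
  rw [key]
  have h1 : HasDerivAt (fun x : ℝ => 2*x+1) 2 x := by
    simpa using ((hasDerivAt_id x).const_mul 2).add_const 1
  have h2 : HasDerivAt (fun x : ℝ => 2*x-1) 2 x := by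
    simpa using ((hasDerivAt_id x).const_mul 2).sub_const 1
  have h3 := (hG (2*x+1)).comp x h1
  have h4 := (hG (2*x-1)).comp x h2
  have h5 := (h3.sub h4).const_mul (1/2)
  have e : f (2*x+1) - f (2*x-1) = 1/2 * (f (2*x+1)*2 - f (2*x-1)*2) := by ring
  rw [e]
  exact h5

theorem StepLike.TT {f : ℝ → ℝ} (hf : StepLike f) : StepLike (TT f) := by
  have hc := hf.continuous
  have hd := hasDerivAt_TT hc
  have hdiff : Differentiable ℝ (S0170.TT f) := fun x => (hd x).differentiableAt
  have hder : ∀ x, deriv (S0170.TT f) x = f (2*x+1) - f (2*x-1) := fun x => (hd x).deriv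
  refine ⟨?_, ?_, ?_, ?_⟩
  · apply monotone_of_deriv_nonneg hdiff
    intro x
    rw [hder]
    have := hf.mono (show 2*x-1 ≤ 2*x+1 by linarith)
    linarith
  · intro x hx
    rw [TT_eq]
    have : ∫ u in (2*x-1)..(2*x+1), f u = ∫ u in (2*x-1)..(2*x+1), (0:ℝ) := by
      apply intervalIntegral.integral_congr
      intro u hu
      rw [Set.uIcc_of_le (by linarith)] at hu
      exact hf.left u (by linarith [hu.2])
    rw [this]; simp
  · intro x hx
    rw [TT_eq]
    have : ∫ u in (2*x-1)..(2*x+1), f u = ∫ u in (2*x-1)..(2*x+1), (1:ℝ) := by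
      apply intervalIntegral.integral_congr
      intro u hu
      rw [Set.uIcc_of_le (by linarith)] at hu
      exact hf.right u (by linarith [hu.1])
    rw [this]; simp; ring
  · intro x y hxy
    have := Convex.image_sub_le_mul_sub_of_deriv_le (convex_univ) (f := S0170.TT f)
      hdiff.continuous.continuousOn hdiff.differentiableOn (C := 1) (by
        intro z _
        rw [hder]
        have h1 := hf.le_one (2*z+1)
        have h2 := hf.nonneg (2*z-1)
        linarith) x (mem_univ _) y (mem_univ _) hxy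
    linarith

/-- starting function -/
noncomputable def f0 (x : ℝ) : ℝ := max 0 (min 1 ((x+1)/2))

theorem stepLike_f0 : StepLike f0 := by
  refine ⟨?_, ?_, ?_, ?_⟩
  · intro x y h
    unfold f0
    apply max_le_max le_rfl
    apply min_le_min le_rfl
    linarith
  · intro x hx
    unfold f0
    rw [max_eq_left]
    apply le_trans (min_le_right _ _)
    linarith
  · intro x hx
    unfold f0
    rw [min_eq_left (by linarith)]
    norm_num
  · intro x y h
    unfold f0
    rcases max_cases 0 (min 1 ((x+1)/2)) with ⟨h1, h1'⟩ | ⟨h1, h1'⟩ <;>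
    rcases max_cases 0 (min 1 ((y+1)/2)) with ⟨h2, h2'⟩ | ⟨h2, h2'⟩ <;>
    rcases min_cases 1 ((x+1)/2) with ⟨h3, h3'⟩ | ⟨h3, h3'⟩ <;>
    rcases min_cases 1 ((y+1)/2) with ⟨h4, h4'⟩ | ⟨h4, h4'⟩ <;>
    rw [h1, h2] <;> linarith

/-- the iterates -/
noncomputable def ff : ℕ → ℝ → ℝ
  | 0 => f0
  | n+1 => TT (ff n)

theorem stepLike_ff (n : ℕ) : StepLike (ff n) := by
  induction n with
  | zero => exact stepLike_f0
  | succ n ih => exact ih.TT

theorem sand_succ {f g : ℝ → ℝ} (hf : StepLike f) (hg : StepLike g) {δ : ℝ}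
    (h : ∀ x, f (x-δ) ≤ g x ∧ g x ≤ f (x+δ)) :
    ∀ x, TT f (x-δ/2) ≤ TT g x ∧ TT g x ≤ TT f (x+δ/2) := by
  intro x
  have hc : ∀ a, IntervalIntegrable (fun u => f (a+u)) volume (-1) 1 := fun a =>
    (hf.continuous.comp (by fun_prop)).intervalIntegrable _ _
  have hc' : ∀ a, IntervalIntegrable (fun u => g (a+u)) volume (-1) 1 := fun a =>
    (hg.continuous.comp (by fun_prop)).intervalIntegrable _ _
  constructor
  · unfold TT
    apply mul_le_mul_of_nonneg_left _ (by norm_num)
    apply intervalIntegral.integral_mono_on (by norm_num) (hc _) (hc' _)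
    intro u _
    have := (h (2*x+u)).1
    convert this using 2
    ring
  · unfold TT
    apply mul_le_mul_of_nonneg_left _ (by norm_num)
    apply intervalIntegral.integral_mono_on (by norm_num) (hc' _) (hc _)
    intro u _
    have := (h (2*x+u)).2
    convert this using 2
    ring

theorem sand_ff (n : ℕ) : ∀ x, ff n (x-2*(1/2)^n) ≤ ff (n+1) x ∧ ff (n+1) x ≤ ff n (x+2*(1/2)^n) := by
  induction n with
  | zero =>
    intro x
    have h0 := stepLike_ff 0
    have h1 := stepLike_ff 1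
    simp only [pow_zero, mul_one]
    constructor
    · rcases le_total x 1 with h | h
      · rw [h0.left (x-2) (by linarith)]; exact h1.nonneg x
      · rw [h1.right x h]; exact h0.le_one _
    · rcases le_total x (-1) with h | h
      · rw [h1.left x h]; exact h0.nonneg _
      · rw [h0.right (x+2) (by linarith)]; exact h1.le_one _
  | succ n ih =>
    intro x
    have := sand_succ (stepLike_ff n) (stepLike_ff (n+1)) ih x
    have e : 2*(1/2:ℝ)^(n+1) = (2*(1/2)^n)/2 := by ring
    rw [e]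
    exact this

theorem dist_ff (n : ℕ) (x : ℝ) : dist (ff n x) (ff (n+1) x) ≤ 2 * (1/2)^n := by
  have hs := sand_ff n x
  have h := stepLike_ff n
  have hp : (0:ℝ) < 2*(1/2)^n := by positivity
  have h1 := h.lip x (x+2*(1/2)^n) (by linarith)
  have h2 := h.lip (x-2*(1/2)^n) x (by linarith)
  rw [Real.dist_eq, abs_le]
  constructor <;> linarith [hs.1, hs.2]

theorem exists_lim (x : ℝ) : ∃ y, Tendsto (fun n => ff n x) atTop (𝓝 y) :=
  cauchySeq_tendsto_of_complete
    (cauchySeq_of_le_geometric (1/2) 2 (by norm_num) (fun n => dist_ff n x))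

/-- the smooth step function -/
noncomputable def FF (x : ℝ) : ℝ := Classical.choose (exists_lim x)

theorem tendsto_FF (x : ℝ) : Tendsto (fun n => ff n x) atTop (𝓝 (FF x)) :=
  Classical.choose_spec (exists_lim x)

theorem dist_ff_FF (n : ℕ) (x : ℝ) : |ff n x - FF x| ≤ 4 * (1/2)^n := by
  have := dist_le_of_le_geometric_of_tendsto (1/2) 2 (by norm_num) (fun n => dist_ff n x)
    (tendsto_FF x) n
  rw [Real.dist_eq] at this
  calc |ff n x - FF x| ≤ 2 * (1/2)^n / (1 - 1/2) := this
    _ = 4 * (1/2)^n := by ring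

theorem stepLike_FF : StepLike FF := by
  refine ⟨?_, ?_, ?_, ?_⟩
  · intro x y h
    exact le_of_tendsto_of_tendsto' (tendsto_FF x) (tendsto_FF y) (fun n => (stepLike_ff n).mono h)
  · intro x hx
    have h := tendsto_FF x
    have : (fun n => ff n x) = fun _ => 0 := by funext n; exact (stepLike_ff n).left x hx
    rw [this] at h
    exact (tendsto_nhds_unique h tendsto_const_nhds)
  · intro x hx
    have h := tendsto_FF x
    have : (fun n => ff n x) = fun _ => 1 := by funext n; exact (stepLike_ff n).right x hx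
    rw [this] at h
    exact (tendsto_nhds_unique h tendsto_const_nhds)
  · intro x y h
    exact le_of_tendsto' ((tendsto_FF y).sub (tendsto_FF x)) (fun n => (stepLike_ff n).lip x y h)

theorem TT_sub_le {f g : ℝ → ℝ} (hf : Continuous f) (hg : Continuous g) {ε : ℝ}
    (h : ∀ x, |f x - g x| ≤ ε) (x : ℝ) : |TT f x - TT g x| ≤ ε := by
  have hc : IntervalIntegrable (fun u => f (2*x+u)) volume (-1) 1 :=
    (hf.comp (by fun_prop)).intervalIntegrable _ _
  have hc' : IntervalIntegrable (fun u => g (2*x+u)) volume (-1) 1 :=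
    (hg.comp (by fun_prop)).intervalIntegrable _ _
  unfold TT
  rw [← mul_sub, ← intervalIntegral.integral_sub hc hc', abs_mul]
  have : ‖∫ u in (-1:ℝ)..1, (f (2*x+u) - g (2*x+u))‖ ≤ ε * |1 - (-1:ℝ)| := by
    apply intervalIntegral.norm_integral_le_of_norm_le_const
    intro u _
    exact h _
  rw [Real.norm_eq_abs] at this
  norm_num at this ⊢
  linarith

theorem FF_fixed : TT FF = FF := by
  funext x
  have h1 : Tendsto (fun n => TT (ff n) x) atTop (𝓝 (FF x)) :=
    (tendsto_FF x).comp (tendsto_add_atTop_nat 1)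
  have h2 : Tendsto (fun n => TT (ff n) x) atTop (𝓝 (TT FF x)) := by
    rw [tendsto_iff_dist_tendsto_zero]
    have h0 : Tendsto (fun n : ℕ => 4 * (1/2:ℝ)^n) atTop (𝓝 0) := by
      have := (tendsto_pow_atTop_nhds_zero_of_lt_one (r := (1/2:ℝ)) (by norm_num) (by norm_num)).const_mul 4
      simpa using this
    refine squeeze_zero (fun _ => dist_nonneg) (fun n => ?_) h0
    rw [Real.dist_eq]
    exact TT_sub_le (stepLike_ff n).continuous stepLike_FF.continuous (dist_ff_FF n) x
  exact tendsto_nhds_unique h2 h1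

theorem hasDerivAt_FF (x : ℝ) : HasDerivAt FF (FF (2*x+1) - FF (2*x-1)) x := by
  have := hasDerivAt_TT stepLike_FF.continuous x
  rwa [FF_fixed] at this

theorem deriv_FF : deriv FF = fun x => FF (2*x+1) - FF (2*x-1) :=
  funext fun x => (hasDerivAt_FF x).deriv

theorem contDiff_FF : ContDiff ℝ (⊤ : ℕ∞) FF := by
  rw [contDiff_infty]
  intro n
  induction n with
  | zero => exact contDiff_zero.2 stepLike_FF.continuous
  | succ n ih =>
    rw [show ((n+1 : ℕ) : WithTop ℕ∞) = (n : WithTop ℕ∞) + 1 by norm_cast, contDiff_succ_iff_deriv]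
    refine ⟨fun x => (hasDerivAt_FF x).differentiableAt, by simp, ?_⟩
    rw [deriv_FF]
    exact (ih.comp (by fun_prop)).sub (ih.comp (by fun_prop))

/-- discrete averaging operator -/
noncomputable def TM (M : ℕ) (f : ℝ → ℝ) (x : ℝ) : ℝ :=
  (1/M) * ∑ i ∈ Finset.range M, f (2*x-1+2*i/M)

theorem TT_eq_M {M : ℕ} (hM : 0 < M) (f : ℝ → ℝ) (x : ℝ) :
    TT f x = (1/M) * ∫ s in (0:ℝ)..(0+M), f (2*x-1+2*s/M) := by
  have hM' : (M:ℝ) ≠ 0 := by positivity
  have h := intervalIntegral.integral_comp_mul_add (a := (0:ℝ)) (b := 0+M) (fun u => f u)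
    (c := 2/M) (by positivity) (2*x-1)
  have e : ∀ s : ℝ, 2*x-1+2*s/M = 2/M*s+(2*x-1) := by intro s; ring
  simp only [e]
  rw [h, TT_eq]
  have e1 : 2/(M:ℝ)*0+(2*x-1) = 2*x-1 := by ring
  have e2 : 2/(M:ℝ)*(0+M)+(2*x-1) = 2*x+1 := by field_simp; ring
  rw [e1, e2, smul_eq_mul]
  field_simp

theorem TM_bounds {f : ℝ → ℝ} (hf : StepLike f) {M : ℕ} (hM : 0 < M) (x : ℝ) :
    TM M f x ≤ TT f x ∧ TT f x ≤ TM M f x + 1/M := by
  have hM' : (0:ℝ) < M := by positivity
  have hmono : Monotone (fun s : ℝ => f (2*x-1+2*s/M)) := by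
    intro a b hab
    apply hf.mono
    have : 2*a/M ≤ 2*b/(M:ℝ) := by gcongr
    linarith
  have h1 := (hmono.monotoneOn (Icc 0 (0+(M:ℝ)))).sum_le_integral
  have h2 := (hmono.monotoneOn (Icc 0 (0+(M:ℝ)))).integral_le_sum
  rw [TT_eq_M hM]
  unfold TM
  have h3 : ∑ i ∈ Finset.range M, f (2*x-1+2*(0+((i+1:ℕ):ℝ))/M)
      = (∑ i ∈ Finset.range M, f (2*x-1+2*i/M)) + (f (2*x-1+2*M/M) - f (2*x-1+2*(0:ℕ)/M)) := by
    rw [← Finset.sum_range_sub (fun i : ℕ => f (2*x-1+2*i/M)), ← Finset.sum_add_distrib]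
    apply Finset.sum_congr rfl
    intro i _
    simp only [zero_add]
    ring
  have h4 : f (2*x-1+2*M/M) - f (2*x-1+2*(0:ℕ)/M) ≤ 1 := by
    have := hf.le_one (2*x-1+2*M/M)
    have := hf.nonneg (2*x-1+2*(0:ℕ)/M)
    linarith
  have h5 : ∑ i ∈ Finset.range M, f (2*x-1+2*(0+(i:ℝ))/M) = ∑ i ∈ Finset.range M, f (2*x-1+2*i/M) := by
    simp
  constructor
  · apply mul_le_mul_of_nonneg_left _ (by positivity)
    rw [← h5]
    exact h1
  · have h6 : (1/(M:ℝ)) * ∫ s in (0:ℝ)..(0+M), f (2*x-1+2*s/M) ≤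
        (1/(M:ℝ)) * ((∑ i ∈ Finset.range M, f (2*x-1+2*i/M)) + 1) := by
      apply mul_le_mul_of_nonneg_left _ (by positivity)
      rw [h3] at h2
      linarith
    calc _ ≤ _ := h6
      _ = _ := by ring

theorem TM_sub_le {f g : ℝ → ℝ} {M : ℕ} (hM : 0 < M) {ε : ℝ}
    (h : ∀ x, |f x - g x| ≤ ε) (x : ℝ) : |TM M f x - TM M g x| ≤ ε := by
  have hM' : (0:ℝ) < M := by positivity
  unfold TM
  rw [← mul_sub, ← Finset.sum_sub_distrib, abs_mul, abs_of_pos (by positivity : (0:ℝ) < 1/M)]
  have : |∑ i ∈ Finset.range M, (f (2*x-1+2*i/M) - g (2*x-1+2*i/M))| ≤ ∑ i ∈ Finset.range M, ε :=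
    (Finset.abs_sum_le_sum_abs _ _).trans (Finset.sum_le_sum fun i _ => h _)
  rw [Finset.sum_const, Finset.card_range, nsmul_eq_mul] at this
  calc 1/(M:ℝ) * |∑ i ∈ Finset.range M, (f (2*x-1+2*i/M) - g (2*x-1+2*i/M))|
      ≤ 1/(M:ℝ) * (M * ε) := by gcongr
    _ = ε := by field_simp

theorem TM_iter_ff {M : ℕ} (hM : 0 < M) (n : ℕ) : ∀ x, |(TM M)^[n] f0 x - ff n x| ≤ n / M := by
  induction n with
  | zero => intro x; simp [ff]
  | succ n ih =>
    intro x
    rw [Function.iterate_succ_apply']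
    have h1 := TM_sub_le hM ih x
    have h2 := TM_bounds (stepLike_ff n) hM x
    have h3 : |TM M (ff n) x - ff (n+1) x| ≤ 1/M := by
      show |TM M (ff n) x - TT (ff n) x| ≤ 1/M
      rw [abs_le]; constructor <;> linarith [h2.1, h2.2, (by positivity : (0:ℝ) ≤ 1/M)]
    calc |TM M ((TM M)^[n] f0) x - ff (n+1) x|
        ≤ |TM M ((TM M)^[n] f0) x - TM M (ff n) x| + |TM M (ff n) x - ff (n+1) x| := abs_sub_le _ _ _
      _ ≤ n/M + 1/M := add_le_add h1 h3
      _ = _ := by push_cast; ring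

/-- the list of offsets -/
def offs (M : ℕ) : ℕ → List ℚ
  | 0 => [0]
  | n+1 => (offs M n).flatMap (fun d => (List.range M).map (fun i : ℕ => 2*d-1+2*(i:ℚ)/M))

theorem TM_iter (M : ℕ) (n : ℕ) : ∀ (g : ℝ → ℝ) (x : ℝ), (TM M)^[n] g x =
    (((offs M n).map (fun d : ℚ => g (2^n*x+(d:ℝ)))).sum) / M^n := by
  induction n with
  | zero => intro g x; simp [offs]
  | succ n ih =>
    intro g x
    rw [Function.iterate_succ_apply, ih]
    have : ((offs M n).map (fun d : ℚ => TM M g (2^n*x+(d:ℝ)))).sum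
        = ((offs M (n+1)).map (fun d : ℚ => g (2^(n+1)*x+(d:ℝ)))).sum / M := by
      simp only [offs]
      generalize offs M n = l
      induction l with
      | nil => simp
      | cons a l ihl =>
        rw [List.map_cons, List.sum_cons, ihl, List.flatMap_cons, List.map_append, List.sum_append,
          List.map_map]
        have : TM M g (2^n*x+a) = ((List.range M).map ((fun d : ℚ => g (2^(n+1)*x+(d:ℝ))) ∘
            (fun i : ℕ => 2*a-1+2*(i:ℚ)/M))).sum / M := by
          unfold TM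
          rw [Finset.sum_range, ← List.sum_ofFn, List.ofFn_eq_map]
          rw [show (List.range M).map ((fun d : ℚ => g (2^(n+1)*x+(d:ℝ))) ∘ (fun i : ℕ => 2*a-1+2*(i:ℚ)/M))
            = (List.finRange M).map (fun i : Fin M => g (2*(2^n*x+a)-1+2*(i:ℕ)/M)) from ?_]
          · ring
          · rw [← List.map_coe_finRange_eq_range, List.map_map]
            apply List.map_congr_left
            intro i _
            simp only [Function.comp]
            congr 1
            push_cast
            ring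
        rw [this]
        ring
    rw [this, div_div, pow_succ (M:ℝ), mul_comm (M:ℝ)]

/-- rational starting function -/
def f0q (x : ℚ) : ℚ := max 0 (min 1 ((x+1)/2))

theorem f0q_cast (x : ℚ) : ((f0q x : ℚ) : ℝ) = f0 x := by
  unfold f0q f0
  push_cast
  rfl

/-- rational approximation of `FF` -/
def EF (q : ℚ) (N : ℕ) : ℚ :=
  ((offs (2*(N+3)*(N+1)) (N+3)).map (fun d => f0q (2^(N+3)*q+d))).sum
    / ((2*(N+3)*(N+1) : ℕ) : ℚ)^(N+3)

theorem EF_spec (q : ℚ) (N : ℕ) : |FF q - EF q N| ≤ 1 / ((N:ℝ)+1) := by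
  have hM : 0 < 2*(N+3)*(N+1) := by positivity
  have h1 := TM_iter_ff hM (N+3) q
  have h2 := dist_ff_FF (N+3) q
  have h3 : ((EF q N : ℚ) : ℝ) = (TM (2*(N+3)*(N+1)))^[N+3] f0 q := by
    rw [TM_iter]
    unfold EF
    push_cast
    congr 1
    rw [List.map_map]
    congr 1
    apply List.map_congr_left
    intro d _
    simp only [Function.comp, f0q_cast]
    push_cast
    rfl
  rw [h3]
  have hN : (0:ℝ) < (N:ℝ)+1 := by positivity
  have e1 : (((N+3 : ℕ):ℝ)) / ((2*(N+3)*(N+1) : ℕ) : ℝ) = 1/(2*((N:ℝ)+1)) := by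
    push_cast; field_simp
  have e2 : 4*(1/2:ℝ)^(N+3) ≤ 1/(2*((N:ℝ)+1)) := by
    have : ((N:ℝ)+1) ≤ 2^N := by
      have : N + 1 ≤ 2^N := Nat.lt_two_pow_self
      exact_mod_cast this
    rw [pow_add, one_div_pow, one_div_pow]
    rw [show 4 * (1/(2:ℝ)^N * (1/2^3)) = 1/(2*2^N) by ring]
    gcongr
  rw [e1] at h1
  rw [abs_sub_comm] at h2
  calc |FF q - (TM (2*(N+3)*(N+1)))^[N+3] f0 q|
      ≤ |FF q - ff (N+3) q| + |ff (N+3) q - (TM (2*(N+3)*(N+1)))^[N+3] f0 q| := abs_sub_le _ _ _
    _ ≤ 1/(2*((N:ℝ)+1)) + 1/(2*((N:ℝ)+1)) := by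
        apply add_le_add (h2.trans e2)
        rw [abs_sub_comm]; exact h1
    _ = 1/((N:ℝ)+1) := by field_simp; norm_num

end Crest.Agent.S0170
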