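import Mathlib
import Crest.Agent.S0170AuxRat
import Crest.Agent.S0170AuxStep
import Crest.Prelude.Def_BoxFlow

/-! Effectivity classes for functions of one variable and for velocity fields. -/

set_option autoImplicit false

namespace Crest.Agent.S0170

open Filter Topology

/-- primitively recursively approximable real-valued functions -/
def CR {α : Type*} [Primcodable α] (f : α → ℝ) : Prop :=
  ∃ E : α × ℕ → ℚ, Primrec E ∧ ∀ a n, |f a - E (a, n)| ≤ 1/((n:ℝ)+1)

section CR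
variable {α β : Type*} [Primcodable α] [Primcodable β]

theorem CR.congr {f g : α → ℝ} (hf : CR f) (h : ∀ a, f a = g a) : CR g := by
  have : f = g := funext h
  rwa [← this]

theorem CR.of_rat {g : α → ℚ} (hg : Primrec g) : CR (fun a => (g a : ℝ)) := by
  refine ⟨fun x => g x.1, hg.comp Primrec.fst, fun a n => ?_⟩
  simp only [sub_self, abs_zero]
  positivity

theorem CR.comp {f : α → ℝ} (hf : CR f) {g : β → α} (hg : Primrec g) : CR (fun b => f (g b)) := by
  obtain ⟨E, hE, h⟩ := hf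
  exact ⟨fun x => E (g x.1, x.2), hE.comp (Primrec.pair (hg.comp Primrec.fst) Primrec.snd),
    fun a n => h (g a) n⟩

theorem CR.add {f g : α → ℝ} (hf : CR f) (hg : CR g) : CR (fun a => f a + g a) := by
  obtain ⟨E, hE, h⟩ := hf
  obtain ⟨E', hE', h'⟩ := hg
  have h2 : Primrec (fun x : α × ℕ => (x.1, 2 * x.2 + 1)) :=
    Primrec.pair Primrec.fst (Primrec.succ.comp (Primrec.nat_mul.comp (Primrec.const 2) Primrec.snd))
  refine ⟨fun x => E (x.1, 2*x.2+1) + E' (x.1, 2*x.2+1), ratAdd (hE.comp h2) (hE'.comp h2), fun a n => ?_⟩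
  have e1 := h a (2*n+1)
  have e2 := h' a (2*n+1)
  push_cast at e1 e2 ⊢
  have e3 : f a + g a - (E (a, 2*n+1) + E' (a, 2*n+1)) = (f a - E (a, 2*n+1)) + (g a - E' (a, 2*n+1)) := by ring
  rw [e3]
  calc _ ≤ |f a - E (a, 2*n+1)| + |g a - E' (a, 2*n+1)| := abs_add_le _ _
    _ ≤ 1/(2*(n:ℝ)+1+1) + 1/(2*(n:ℝ)+1+1) := add_le_add e1 e2
    _ = 1/((n:ℝ)+1) := by field_simp; ring

theorem CR.mul {f g : α → ℝ} (hf : CR f) (hg : CR g) : CR (fun a => f a * g a) := by
  obtain ⟨E, hE, h⟩ := hf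
  obtain ⟨E', hE', h'⟩ := hg
  have h0 : Primrec (fun x : α × ℕ => (x.1, 0)) := Primrec.pair Primrec.fst (Primrec.const 0)
  have hN : Primrec (fun x : α × ℕ => (ubd (E (x.1,0)) + 1 + (ubd (E' (x.1,0)) + 1) + 1) * (x.2 + 1)) :=
    Primrec.nat_mul.comp (Primrec.succ.comp (Primrec.nat_add.comp (Primrec.succ.comp (primrec_ubd.comp (hE.comp h0)))
      (Primrec.succ.comp (primrec_ubd.comp (hE'.comp h0))))) (Primrec.succ.comp Primrec.snd)
  have h2 : Primrec (fun x : α × ℕ => (x.1, (ubd (E (x.1,0)) + 1 + (ubd (E' (x.1,0)) + 1) + 1) * (x.2 + 1))) :=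
    Primrec.pair Primrec.fst hN
  refine ⟨_, ratMul (hE.comp h2) (hE'.comp h2), fun a n => ?_⟩
  simp only
  set B1 : ℕ := ubd (E (a,0)) + 1 with hB1
  set B2 : ℕ := ubd (E' (a,0)) + 1 with hB2
  set N : ℕ := (B1 + B2 + 1) * (n+1) with hN
  have e1 := h a N
  have e2 := h' a N
  have f1 : |f a| ≤ B1 := by
    have := h a 0
    have h3 : |((E (a,0) : ℚ) : ℝ)| ≤ ubd (E (a,0)) := by exact_mod_cast abs_le_ubd (E (a,0))
    have h4 : |f a| ≤ |f a - E (a,0)| + |((E (a,0) : ℚ) : ℝ)| := by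
      have := abs_add_le (f a - E (a,0)) (E (a,0) : ℝ)
      simpa using this
    rw [hB1]; push_cast; norm_num at this; linarith
  have f2 : |g a| ≤ B2 := by
    have := h' a 0
    have h3 : |((E' (a,0) : ℚ) : ℝ)| ≤ ubd (E' (a,0)) := by exact_mod_cast abs_le_ubd (E' (a,0))
    have h4 : |g a| ≤ |g a - E' (a,0)| + |((E' (a,0) : ℚ) : ℝ)| := by
      have := abs_add_le (g a - E' (a,0)) (E' (a,0) : ℝ)
      simpa using this
    rw [hB2]; push_cast; norm_num at this; linarith
  have hN1 : (0:ℝ) < (N:ℝ) + 1 := by positivity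
  have hle1 : 1/((N:ℝ)+1) ≤ 1 := by
    rw [div_le_one hN1]; linarith [(Nat.cast_nonneg N : (0:ℝ) ≤ N)]
  have f3 : |((E' (a,N) : ℚ) : ℝ)| ≤ B2 + 1 := by
    have h4 : |((E' (a,N) : ℚ) : ℝ)| ≤ |g a - E' (a,N)| + |g a| := by
      have := abs_add_le (g a) (-(g a - E' (a,N) : ℝ))
      rw [abs_neg] at this
      have e : g a + -(g a - (E' (a,N) : ℝ)) = E' (a,N) := by ring
      rw [e] at this
      linarith
    linarith
  push_cast
  have e3 : f a * g a - (E (a, N)) * (E' (a, N)) = f a * (g a - E' (a, N)) + (f a - E (a, N)) * E' (a, N) := by ring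
  rw [e3]
  have B1n : (0:ℝ) ≤ B1 := Nat.cast_nonneg _
  have B2n : (0:ℝ) ≤ B2 := Nat.cast_nonneg _
  calc |f a * (g a - E' (a, N)) + (f a - E (a, N)) * E' (a, N)|
      ≤ |f a * (g a - E' (a, N))| + |(f a - E (a, N)) * E' (a, N)| := abs_add_le _ _
    _ = |f a| * |g a - E' (a, N)| + |f a - E (a, N)| * |((E' (a, N) : ℚ) : ℝ)| := by rw [abs_mul, abs_mul]
    _ ≤ B1 * (1/((N:ℝ)+1)) + (1/((N:ℝ)+1)) * (B2 + 1) := by gcongr
    _ = (B1 + B2 + 1) / ((N:ℝ)+1) := by ring
    _ ≤ 1/((n:ℝ)+1) := by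
        rw [div_le_div_iff₀ hN1 (by positivity)]
        rw [hN]; push_cast; nlinarith

theorem CR.neg {f : α → ℝ} (hf : CR f) : CR (fun a => - f a) := by
  obtain ⟨E, hE, h⟩ := hf
  refine ⟨fun x => - E x, ratNeg hE, fun a n => ?_⟩
  have := h a n
  push_cast
  rw [show -f a - -(E (a,n) : ℝ) = -(f a - E (a,n)) by ring, abs_neg]
  exact this

theorem list_sum_sub_le {β : Type*} (l : List β) (u : β → ℝ) (v : β → ℚ) (ε : ℝ)
    (h : ∀ b, |u b - v b| ≤ ε) : |(l.map u).sum - (((l.map v).sum : ℚ) : ℝ)| ≤ l.length * ε := by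
  induction l with
  | nil => simp
  | cons b l ih =>
    rw [List.map_cons, List.sum_cons, List.map_cons, List.sum_cons, List.length_cons]
    push_cast at ih ⊢
    have := h b
    calc _ = |(u b - v b) + ((l.map u).sum - ((((l.map v)).map (fun q : ℚ => (q : ℝ))).sum))| := by
            congr 1; ring
      _ ≤ |u b - v b| + |(l.map u).sum - ((((l.map v)).map (fun q : ℚ => (q : ℝ))).sum)| := abs_add_le _ _
      _ ≤ ε + l.length * ε := add_le_add this ih
      _ = _ := by ring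

theorem CR.listSum {L : α → List β} (hL : Primrec L) {F : α × β → ℝ} (hF : CR F) :
    CR (fun a => ((L a).map (fun b => F (a, b))).sum) := by
  obtain ⟨E, hE, h⟩ := hF
  have hlen : Primrec (fun x : α × ℕ => (L x.1).length * (x.2 + 1)) :=
    Primrec.nat_mul.comp (Primrec.list_length.comp (hL.comp Primrec.fst)) (Primrec.succ.comp Primrec.snd)
  have hE2 : Primrec₂ (fun (x : α × ℕ) (b : β) => E ((x.1, b), (L x.1).length * (x.2 + 1))) :=
    hE.comp (Primrec.pair (Primrec.pair (Primrec.fst.comp Primrec.fst) Primrec.snd) (hlen.comp Primrec.fst))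
  refine ⟨fun x => ((L x.1).map (fun b => E ((x.1, b), (L x.1).length * (x.2+1)))).sum,
    ratListSum (Primrec.list_map (hL.comp Primrec.fst) hE2), fun a n => ?_⟩
  have := list_sum_sub_le (L a) (fun b => F (a, b)) (fun b => E ((a, b), (L a).length * (n+1)))
    (1/(((L a).length * (n+1) : ℕ) + 1)) (fun b => h (a, b) _)
  refine this.trans ?_
  have hl : (0:ℝ) ≤ (L a).length := Nat.cast_nonneg _
  rw [mul_one_div, div_le_div_iff₀ (by positivity) (by positivity)]
  push_cast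
  nlinarith

end CR

/-! ### `FF` is computable -/

theorem primrec_offs : Primrec (fun x : ℕ × ℕ => offs x.1 x.2) := by
  have hh : Primrec₂ (fun (x : ℕ × ℕ) (y : ℕ × List ℚ) =>
      y.2.flatMap (fun d => (List.range x.1).map (fun i : ℕ => 2*d-1+2*(i:ℚ)/x.1))) := by
    apply Primrec.list_flatMap (Primrec.snd.comp Primrec.snd)
    apply Primrec.list_map (Primrec.list_range.comp (Primrec.fst.comp (Primrec.fst.comp Primrec.fst)))
    apply ratAdd
    · apply ratSub _ (Primrec.const 1)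
      exact ratMul (Primrec.const 2) (Primrec.snd.comp Primrec.fst)
    · apply ratDiv
      · exact ratMul (Primrec.const 2) (ratNat Primrec.snd)
      · exact ratNat (Primrec.fst.comp (Primrec.fst.comp (Primrec.fst.comp Primrec.fst)))
  have h : Primrec (fun x : ℕ × ℕ => (Nat.rec ([0] : List ℚ) (fun n l => l.flatMap (fun d => (List.range x.1).map (fun i : ℕ => 2*d-1+2*(i:ℚ)/x.1))) x.2 : List ℚ)) :=
    Primrec.nat_rec' (f := fun x : ℕ × ℕ => x.2) (g := fun _ => ([0] : List ℚ))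
      (h := fun x y => y.2.flatMap (fun d => (List.range x.1).map (fun i : ℕ => 2*d-1+2*(i:ℚ)/x.1)))
      Primrec.snd (Primrec.const _) hh
  refine h.of_eq ?_
  rintro ⟨M, n⟩
  simp only
  induction n with
  | zero => rfl
  | succ n ih => simp only [offs]; rw [← ih]

theorem primrec_f0q : Primrec f0q := by
  unfold f0q
  apply ratMax (Primrec.const 0)
  apply ratMin (Primrec.const 1)
  exact ratDiv (ratAdd Primrec.id (Primrec.const 1)) (Primrec.const 2)

theorem primrec_EF : Primrec (fun x : ℚ × ℕ => EF x.1 x.2) := by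
  unfold EF
  have h3 : Primrec (fun x : ℚ × ℕ => x.2 + 3) := Primrec.nat_add.comp Primrec.snd (Primrec.const 3)
  have hM : Primrec (fun x : ℚ × ℕ => 2*(x.2+3)*(x.2+1)) :=
    Primrec.nat_mul.comp (Primrec.nat_mul.comp (Primrec.const 2) h3) (Primrec.succ.comp Primrec.snd)
  apply ratDiv
  · apply ratListSum
    apply Primrec.list_map (primrec_offs.comp (Primrec.pair hM h3))
    apply primrec_f0q.comp
    apply ratAdd
    · apply ratMul
      · exact ratPow (Primrec.const 2) (h3.comp Primrec.fst)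
      · exact Primrec.fst.comp Primrec.fst
    · exact Primrec.snd
  · exact ratPow (ratNat hM) h3

theorem CR_FF : CR (fun q : ℚ => FF q) :=
  ⟨fun x => EF x.1 x.2, primrec_EF, fun q N => EF_spec q N⟩

/-- coefficients and offsets for the iterated derivatives of `FF` -/
def WW : ℕ → List (ℚ × ℚ)
  | 0 => [(1, 0)]
  | k+1 => (WW k).flatMap (fun so => [(so.1 * 2^k, 2*so.2+1), (-(so.1 * 2^k), 2*so.2-1)])

/-- iterated derivatives of `FF` -/
noncomputable def DF (k : ℕ) (x : ℝ) : ℝ :=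
  ((WW k).map (fun so : ℚ × ℚ => (so.1:ℝ) * FF (2^k*x + so.2))).sum

theorem DF_zero : DF 0 = FF := by
  funext x
  simp [DF, WW]

theorem hasDerivAt_DF (k : ℕ) (x : ℝ) : HasDerivAt (DF k) (DF (k+1) x) x := by
  unfold DF
  simp only [WW]
  generalize WW k = l
  induction l with
  | nil => simpa using! hasDerivAt_const x (0:ℝ)
  | cons a l ih =>
    simp only [List.map_cons, List.sum_cons, List.flatMap_cons, List.map_append, List.sum_append]
    refine HasDerivAt.add ?_ ih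
    have h1 : HasDerivAt (fun x : ℝ => 2^k*x+(a.2:ℝ)) (2^k) x := by
      simpa using ((hasDerivAt_id x).const_mul ((2:ℝ)^k)).add_const (a.2:ℝ)
    have h2 := ((hasDerivAt_FF (2^k*x+(a.2:ℝ))).comp x h1).const_mul (a.1:ℝ)
    refine HasDerivAt.congr_deriv h2 ?_
    push_cast
    have e1 : 2*(2^k*x+(a.2:ℝ))+1 = 2^(k+1)*x+(2*(a.2:ℝ)+1) := by ring
    have e2 : 2*(2^k*x+(a.2:ℝ))-1 = 2^(k+1)*x+(2*(a.2:ℝ)-1) := by ring
    rw [e1, e2]
    simp only [List.map_nil, List.sum_nil]
    ring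

theorem primrec_WW : Primrec WW := by
  have hh : Primrec₂ (fun (k : ℕ) (l : List (ℚ × ℚ)) =>
      l.flatMap (fun so => [(so.1 * 2^k, 2*so.2+1), (-(so.1 * 2^k), 2*so.2-1)])) := by
    apply Primrec.list_flatMap Primrec.snd
    have h1 : Primrec (fun x : (ℕ × List (ℚ × ℚ)) × (ℚ × ℚ) => x.2.1 * 2^x.1.1) :=
      ratMul (Primrec.fst.comp Primrec.snd) (ratPow (Primrec.const 2) (Primrec.fst.comp Primrec.fst))
    have h2 : Primrec (fun x : (ℕ × List (ℚ × ℚ)) × (ℚ × ℚ) => 2 * x.2.2) :=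
      ratMul (Primrec.const 2) (Primrec.snd.comp Primrec.snd)
    apply Primrec.list_cons.comp (Primrec.pair h1 (ratAdd h2 (Primrec.const 1)))
    exact Primrec.list_cons.comp (Primrec.pair (ratNeg h1) (ratSub h2 (Primrec.const 1))) (Primrec.const [])
  refine (Primrec.nat_rec₁ ([(1,0)] : List (ℚ × ℚ)) hh).of_eq ?_
  intro k
  induction k with
  | zero => rfl
  | succ k ih => simp only [WW]; rw [← ih]

theorem CR_DF : CR (fun x : ℕ × ℚ => DF x.1 x.2) := by
  have h : CR (fun x : ℕ × ℚ => ((WW x.1).map (fun so => (fun y : (ℕ × ℚ) × (ℚ × ℚ) =>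
      (y.2.1:ℝ) * FF (((2^y.1.1*y.1.2 + y.2.2 : ℚ)) : ℝ)) (x, so))).sum) := by
    refine CR.listSum (F := fun y : (ℕ × ℚ) × (ℚ × ℚ) =>
      (y.2.1:ℝ) * FF (((2^y.1.1*y.1.2 + y.2.2 : ℚ)) : ℝ)) (primrec_WW.comp Primrec.fst) ?_
    apply CR.mul
    · exact CR.of_rat (Primrec.fst.comp Primrec.snd)
    · apply CR_FF.comp
      apply ratAdd
      · exact ratMul (ratPow (Primrec.const 2) (Primrec.fst.comp Primrec.fst)) (Primrec.snd.comp Primrec.fst)
      · exact Primrec.snd.comp Primrec.snd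
  refine h.congr ?_
  intro x
  unfold DF
  congr 1
  apply List.map_congr_left
  intro so _
  push_cast
  rfl

theorem primrec_natListSum {α : Type*} [Primcodable α] {f : α → List ℕ} (hf : Primrec f) : Primrec (fun a => (f a).sum) := by
  have h : Primrec (fun a => (f a).foldr (fun x y => x + y) 0) :=
    Primrec.list_foldr (h := fun _ (x : ℕ × ℕ) => x.1 + x.2) hf (Primrec.const (0:ℕ))
      (Primrec.nat_add.comp (Primrec.fst.comp Primrec.snd) (Primrec.snd.comp Primrec.snd))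
  refine h.of_eq (fun a => ?_)
  generalize f a = l
  induction l with
  | nil => rfl
  | cons x l ih => rw [List.foldr_cons, ih, List.sum_cons]

theorem bound_DF : ∃ B : ℕ → ℕ, Primrec B ∧ ∀ k x, |DF k x| ≤ B k := by
  refine ⟨fun k => ((WW k).map (fun so => ubd so.1)).sum, ?_, ?_⟩
  · apply primrec_natListSum
    apply Primrec.list_map primrec_WW
    exact primrec_ubd.comp (Primrec.fst.comp Primrec.snd)
  · intro k x
    show |DF k x| ≤ ((((WW k).map (fun so => ubd so.1)).sum : ℕ) : ℝ)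
    unfold DF
    generalize WW k = l
    induction l with
    | nil => simp
    | cons a l ih =>
      simp only [List.map_cons, List.sum_cons]
      push_cast at ih ⊢
      refine (abs_add_le _ _).trans (add_le_add ?_ ih)
      rw [abs_mul]
      have h1 : |(a.1:ℝ)| ≤ ubd a.1 := by exact_mod_cast abs_le_ubd a.1
      have h2 : |FF (2^k*x+(a.2:ℝ))| ≤ 1 := by
        rw [abs_of_nonneg (stepLike_FF.nonneg _)]
        exact stepLike_FF.le_one _
      calc _ ≤ (ubd a.1 : ℝ) * 1 := by gcongr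
        _ = _ := by ring

/-! ### effective functions of one variable -/

/-- effective smooth functions of one variable -/
def Eff1 (f : ℝ → ℝ) : Prop :=
  ∃ D : ℕ → ℝ → ℝ, D 0 = f ∧ (∀ k x, HasDerivAt (D k) (D (k+1) x) x) ∧
    CR (fun x : ℕ × ℚ => D x.1 x.2) ∧ ∃ B : ℕ → ℕ, Primrec B ∧ ∀ k x, |D k x| ≤ B k

theorem Eff1.FF : Eff1 FF := ⟨DF, DF_zero, hasDerivAt_DF, CR_DF, bound_DF⟩

theorem Eff1.comp_affine {f : ℝ → ℝ} (hf : Eff1 f) (c d : ℚ) : Eff1 (fun x => f (c * x + d)) := by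
  obtain ⟨D, h0, hD, hC, B, hB, hb⟩ := hf
  refine ⟨fun k x => c^k * D k (c*x+d), ?_, ?_, ?_, fun k => (ubd c)^k * B k, ?_, ?_⟩
  · funext x; simp [h0]
  · intro k x
    have h1 : HasDerivAt (fun x : ℝ => (c:ℝ)*x+(d:ℝ)) (c:ℝ) x := by
      simpa using ((hasDerivAt_id x).const_mul (c:ℝ)).add_const (d:ℝ)
    have h2 := ((hD k (c*x+d)).comp x h1).const_mul ((c:ℝ)^k)
    have e : (c:ℝ)^k * (D (k+1) (c*x+d) * c) = (c:ℝ)^(k+1) * D (k+1) (c*x+d) := by ring
    exact HasDerivAt.congr_deriv h2 e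
  · have h1 : CR (fun x : ℕ × ℚ => ((c^x.1 : ℚ) : ℝ)) := CR.of_rat (ratPow (Primrec.const c) Primrec.fst)
    have h2 : Primrec (fun x : ℕ × ℚ => (x.1, c * x.2 + d)) :=
      Primrec.pair Primrec.fst (ratAdd (ratMul (Primrec.const c) Primrec.snd) (Primrec.const d))
    refine (h1.mul (hC.comp h2)).congr ?_
    intro x
    push_cast
    rfl
  · refine Primrec.nat_mul.comp ?_ hB
    exact (Primrec.nat_rec₁ (f := fun _ r => r * ubd c) 1 (Primrec.nat_mul.comp Primrec.snd (Primrec.const _))).of_eq (fun k => by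
      induction k with
      | zero => rfl
      | succ k ih => rw [pow_succ, ← ih])
  · intro k x
    rw [abs_mul, abs_pow]
    have h1 : |(c:ℝ)| ≤ ubd c := by exact_mod_cast abs_le_ubd c
    push_cast
    have := hb k (c*x+d)
    gcongr

theorem Eff1.add {f g : ℝ → ℝ} (hf : Eff1 f) (hg : Eff1 g) : Eff1 (fun x => f x + g x) := by
  obtain ⟨D, h0, hD, hC, B, hB, hb⟩ := hf
  obtain ⟨D', h0', hD', hC', B', hB', hb'⟩ := hg
  refine ⟨fun k x => D k x + D' k x, ?_, ?_, ?_, fun k => B k + B' k, ?_, ?_⟩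
  · funext x; simp [h0, h0']
  · intro k x; exact (hD k x).add (hD' k x)
  · exact hC.add hC'
  · exact Primrec.nat_add.comp hB hB'
  · intro k x
    push_cast
    exact (abs_add_le _ _).trans (add_le_add (hb k x) (hb' k x))

theorem Eff1.const_mul {f : ℝ → ℝ} (hf : Eff1 f) (c : ℚ) : Eff1 (fun x => c * f x) := by
  obtain ⟨D, h0, hD, hC, B, hB, hb⟩ := hf
  refine ⟨fun k x => c * D k x, ?_, ?_, ?_, fun k => ubd c * B k, ?_, ?_⟩
  · funext x; simp [h0]
  · intro k x; exact (hD k x).const_mul _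
  · exact (CR.of_rat (Primrec.const c)).mul hC
  · exact Primrec.nat_mul.comp (Primrec.const _) hB
  · intro k x
    rw [abs_mul]
    have h1 : |(c:ℝ)| ≤ ubd c := by exact_mod_cast abs_le_ubd c
    push_cast
    have := hb k x
    gcongr

theorem Eff1.sub {f g : ℝ → ℝ} (hf : Eff1 f) (hg : Eff1 g) : Eff1 (fun x => f x - g x) := by
  have := hf.add (hg.const_mul (-1))
  convert this using 2
  push_cast
  ring

theorem Eff1.zero : Eff1 (fun _ => 0) := by
  have := Eff1.FF.const_mul 0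
  simpa using this

theorem Eff1.deriv {f : ℝ → ℝ} (hf : Eff1 f) : Eff1 (deriv f) := by
  obtain ⟨D, h0, hD, hC, B, hB, hb⟩ := hf
  refine ⟨fun k x => D (k+1) x, ?_, ?_, ?_, fun k => B (k+1), ?_, ?_⟩
  · funext x; rw [← h0]; exact ((hD 0 x).deriv).symm
  · intro k x; exact hD (k+1) x
  · exact hC.comp (Primrec.pair (Primrec.succ.comp Primrec.fst) Primrec.snd)
  · exact hB.comp Primrec.succ
  · intro k x; exact hb _ _

theorem Eff1.hasDerivAt {f : ℝ → ℝ} (hf : Eff1 f) (x : ℝ) : HasDerivAt f (_root_.deriv f x) x := by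
  obtain ⟨D, h0, hD, hC, B, hB, hb⟩ := hf
  have := hD 0 x
  rw [h0] at this
  exact this.differentiableAt.hasDerivAt

theorem tower_contDiff {D : ℕ → ℝ → ℝ} (hD : ∀ k x, HasDerivAt (D k) (D (k+1) x) x) (k : ℕ) :
    ContDiff ℝ (⊤ : ℕ∞) (D k) := by
  rw [contDiff_infty]
  intro n
  induction n generalizing k with
  | zero =>
    apply contDiff_zero.2
    exact continuous_iff_continuousAt.2 (fun x => (hD k x).continuousAt)
  | succ n ih =>
    rw [show ((n+1 : ℕ) : WithTop ℕ∞) = (n : WithTop ℕ∞) + 1 by norm_cast, contDiff_succ_iff_deriv]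
    refine ⟨fun x => (hD k x).differentiableAt, by simp, ?_⟩
    have : _root_.deriv (D k) = D (k+1) := funext (fun x => (hD k x).deriv)
    rw [this]
    exact ih (k+1)

theorem Eff1.contDiff {f : ℝ → ℝ} (hf : Eff1 f) : ContDiff ℝ (⊤ : ℕ∞) f := by
  obtain ⟨D, h0, hD, _⟩ := hf
  rw [← h0]
  exact tower_contDiff hD 0

theorem Eff1.mul_id {f : ℝ → ℝ} (hf : Eff1 f) (R : ℕ) (hR : ∀ x : ℝ, (R:ℝ) < |x| → f x = 0) :
    Eff1 (fun x => x * f x) := by
  obtain ⟨D, h0, hD, hC, B, hB, hb⟩ := hf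
  have hsupp : ∀ k x, (R:ℝ) < |x| → D k x = 0 := by
    intro k
    induction k with
    | zero => intro x hx; rw [h0]; exact hR x hx
    | succ k ih =>
      intro x hx
      have hopen : IsOpen {x : ℝ | (R:ℝ) < |x|} := isOpen_lt continuous_const continuous_abs
      have h1 : D k =ᶠ[𝓝 x] fun _ => 0 := by
        filter_upwards [hopen.mem_nhds hx] with y hy using ih y hy
      have h2 : HasDerivAt (D k) 0 x := (hasDerivAt_const x (0:ℝ)).congr_of_eventuallyEq h1
      exact (hD k x).unique h2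
  refine ⟨fun k x => x * D k x + k * D (k-1) x, ?_, ?_, ?_, fun k => R * B k + k * B (k-1), ?_, ?_⟩
  · funext x; simp [h0]
  · intro k x
    have h1 := (hasDerivAt_id x).mul (hD k x)
    rcases k with _ | k
    · have h2 : HasDerivAt (fun x => x * D 0 x) (1 * D 0 x + x * D (0+1) x) x := h1
      have e : (fun x => x * D 0 x + ((0:ℕ):ℝ) * D (0-1) x) = fun x => x * D 0 x := by
        funext y; simp
      show HasDerivAt (fun x => x * D 0 x + ((0:ℕ):ℝ) * D (0-1) x) (x * D (0+1) x + ((0+1:ℕ):ℝ) * D (0+1-1) x) x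
      rw [e]
      refine h2.congr_deriv ?_
      simp; ring
    · have h3 := (hD k x).const_mul ((k+1:ℕ):ℝ)
      have h2 : HasDerivAt (fun x => x * D (k+1) x + ((k+1:ℕ):ℝ) * D k x)
        (1 * D (k+1) x + x * D (k+1+1) x + ((k+1:ℕ):ℝ) * D (k+1) x) x := h1.add h3
      have e : (fun x => x * D (k+1) x + ((k+1:ℕ):ℝ) * D (k+1-1) x) = fun x => x * D (k+1) x + ((k+1:ℕ):ℝ) * D k x := by
        funext y; simp
      show HasDerivAt (fun x => x * D (k+1) x + ((k+1:ℕ):ℝ) * D (k+1-1) x) (x * D (k+1+1) x + ((k+1+1:ℕ):ℝ) * D (k+1+1-1) x) x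
      rw [e]
      refine h2.congr_deriv ?_
      rw [show k + 1 + 1 - 1 = k + 1 from rfl]
      push_cast
      ring
  · refine CR.congr (f := fun x : ℕ × ℚ => (x.2:ℝ) * D x.1 x.2 + ((x.1 : ℚ) : ℝ) * D (x.1-1) x.2) ?_ ?_
    · apply CR.add
      · exact (CR.of_rat Primrec.snd).mul hC
      · apply CR.mul (CR.of_rat (ratNat Primrec.fst))
        exact hC.comp (Primrec.pair (Primrec.nat_sub.comp Primrec.fst (Primrec.const 1)) Primrec.snd)
    · intro x; push_cast; rfl
  · apply Primrec.nat_add.comp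
    · exact Primrec.nat_mul.comp (Primrec.const _) hB
    · exact Primrec.nat_mul.comp Primrec.id (hB.comp (Primrec.nat_sub.comp Primrec.id (Primrec.const 1)))
  · intro k x
    push_cast
    refine (abs_add_le _ _).trans (add_le_add ?_ ?_)
    · rcases lt_or_ge (R:ℝ) |x| with h | h
      · rw [hsupp k x h]; simp; positivity
      · rw [abs_mul]; exact mul_le_mul h (hb k x) (abs_nonneg _) (Nat.cast_nonneg _)
    · rw [abs_mul, Nat.abs_cast]
      exact mul_le_mul_of_nonneg_left (hb _ _) (Nat.cast_nonneg _)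

end Crest.Agent.S0170
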