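import Mathlib
import Crest.Agent.S0170AuxEff
import Crest.Prelude.Def_BoxFlow

/-! Effective velocity fields. -/

set_option autoImplicit false

namespace Crest.Agent.S0170

open Filter Topology Crest.AnalysisR.BoxFlow

/-- space-time -/
abbrev ST : Type := ℝ × (Fin 3 → ℝ)

/-- coordinates of a space-time point -/
def crd (p : ST) (d : Fin 4) : ℝ := Fin.cases (motive := fun _ => ℝ) p.1 (fun m => p.2 m) d

/-- product function -/
def TP (gg : Fin 4 → ℝ → ℝ) (p : ST) : ℝ := ∏ d, gg d (crd p d)

theorem TP_eq (gg : Fin 4 → ℝ → ℝ) (p : ST) : TP gg p = gg 0 p.1 * ∏ m : Fin 3, gg m.succ (p.2 m) := by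
  unfold TP
  rw [Fin.prod_univ_succ]
  rfl

theorem crd_add (p : ST) (s : ℝ) (d d' : Fin 4) :
    crd (p + s • direction d) d' = Function.update (crd p) d (crd p d + s) d' := by
  rcases eq_or_ne d' d with rfl | h
  · rw [Function.update_self]
    refine Fin.cases ?_ (fun m => ?_) d'
    · simp [crd, direction]
    · simp [crd, direction]
  · rw [Function.update_of_ne h]
    revert h
    refine Fin.cases ?_ (fun m => ?_) d <;> refine Fin.cases ?_ (fun m' => ?_) d'
    · intro h; exact absurd rfl h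
    · intro h; simp [crd, direction]
    · intro h; simp [crd, direction]
    · intro h
      have : m' ≠ m := fun h' => h (by rw [h'])
      simp [crd, direction, this]

theorem TP_line (gg : Fin 4 → ℝ → ℝ) (p : ST) (s : ℝ) (d : Fin 4) :
    TP gg (p + s • direction d) = gg d (crd p d + s) * ∏ d' ∈ Finset.univ.erase d, gg d' (crd p d') := by
  unfold TP
  rw [← Finset.mul_prod_erase Finset.univ _ (Finset.mem_univ d)]
  rw [crd_add, Function.update_self]
  congr 1
  apply Finset.prod_congr rfl
  intro d' hd'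
  rw [crd_add, Function.update_of_ne (Finset.ne_of_mem_erase hd')]

theorem contDiff_crd (d : Fin 4) : ContDiff ℝ (⊤ : ℕ∞) (fun p : ST => crd p d) := by
  refine Fin.cases ?_ (fun m => ?_) d
  · exact contDiff_fst
  · show ContDiff ℝ (⊤ : ℕ∞) (fun p : ST => p.2 m)
    exact (contDiff_apply ℝ ℝ m).comp contDiff_snd

theorem contDiff_TP {gg : Fin 4 → ℝ → ℝ} (h : ∀ d, ContDiff ℝ (⊤ : ℕ∞) (gg d)) :
    ContDiff ℝ (⊤ : ℕ∞) (TP gg) := by
  unfold TP
  apply contDiff_prod
  intro d _
  exact (h d).comp (contDiff_crd d)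

theorem fderiv_eq_line {u : ST → ℝ} {p v : ST} (hu : DifferentiableAt ℝ u p) {g' : ℝ}
    (h : HasDerivAt (fun s : ℝ => u (p + s • v)) g' 0) : fderiv ℝ u p v = g' := by
  have h1 : HasDerivAt (fun s : ℝ => p + s • v) v 0 := by
    have := ((hasDerivAt_id (0:ℝ)).smul_const v).const_add p
    simpa using this
  have h3 : HasFDerivAt u (fderiv ℝ u p) (p + (0:ℝ) • v) := by
    simpa using hu.hasFDerivAt
  have h2 := h3.comp_hasDerivAt (0:ℝ) h1
  exact h2.unique h

theorem fderiv_TP {gg : Fin 4 → ℝ → ℝ} (h : ∀ d, ContDiff ℝ (⊤ : ℕ∞) (gg d)) (p : ST) (d : Fin 4)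
    {g' : ℝ → ℝ} (hg' : ∀ x, HasDerivAt (gg d) (g' x) x) :
    fderiv ℝ (TP gg) p (direction d) = TP (Function.update gg d g') p := by
  apply fderiv_eq_line
  · exact (contDiff_TP h).differentiable (by simp) p
  · simp only [TP_line]
    have h1 : HasDerivAt (fun s : ℝ => gg d (crd p d + s)) (g' (crd p d)) 0 := by
      have h2 : HasDerivAt (fun s : ℝ => crd p d + s) 1 0 := by
        simpa using (hasDerivAt_id (0:ℝ)).const_add (crd p d)
      have h3 : HasDerivAt (gg d) (g' (crd p d)) (crd p d + 0) := by simpa using hg' (crd p d)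
      have := h3.comp (0:ℝ) h2
      simpa using! this
    have h4 := h1.mul_const (∏ d' ∈ Finset.univ.erase d, gg d' (crd p d'))
    refine h4.congr_deriv ?_
    unfold TP
    rw [← Finset.mul_prod_erase Finset.univ _ (Finset.mem_univ d), Function.update_self]
    congr 1
    apply Finset.prod_congr rfl
    intro d' hd'
    rw [Function.update_of_ne (Finset.ne_of_mem_erase hd')]

/-- scalar mixed derivatives -/
noncomputable def mdS : List (Fin 4) → (ST → ℝ) → ST → ℝ
  | [], u => u
  | d :: ds, u => fun p => fderiv ℝ (mdS ds u) p (direction d)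

theorem contDiff_mdS (ds : List (Fin 4)) {u : ST → ℝ} (hu : ContDiff ℝ (⊤ : ℕ∞) u) :
    ContDiff ℝ (⊤ : ℕ∞) (mdS ds u) := by
  induction ds with
  | nil => exact hu
  | cons d ds ih =>
    show ContDiff ℝ (⊤ : ℕ∞) (fun p => fderiv ℝ (mdS ds u) p (direction d))
    exact (ih.fderiv_right (m := (⊤ : ℕ∞)) (by simp)).clm_apply contDiff_const

theorem mdS_add (ds : List (Fin 4)) {u v : ST → ℝ} (hu : ContDiff ℝ (⊤ : ℕ∞) u)
    (hv : ContDiff ℝ (⊤ : ℕ∞) v) : mdS ds (fun p => u p + v p) = fun p => mdS ds u p + mdS ds v p := by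
  induction ds with
  | nil => rfl
  | cons d ds ih =>
    funext p
    show fderiv ℝ (mdS ds (fun p => u p + v p)) p (direction d) = _
    rw [ih, fderiv_fun_add ((contDiff_mdS ds hu).differentiable (by simp) p)
      ((contDiff_mdS ds hv).differentiable (by simp) p)]
    rfl

theorem mdS_TP {D : Fin 4 → ℕ → ℝ → ℝ} (hD : ∀ d k x, HasDerivAt (D d k) (D d (k+1) x) x)
    (ds : List (Fin 4)) : mdS ds (TP (fun d => D d 0)) = TP (fun d => D d (ds.count d)) := by
  induction ds with
  | nil => rfl
  | cons d ds ih =>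
    funext p
    show fderiv ℝ (mdS ds (TP (fun d => D d 0))) p (direction d) = _
    rw [ih, fderiv_TP (fun d => tower_contDiff (hD d) _) p d (hD d _)]
    congr 1
    funext d'
    rcases eq_or_ne d' d with rfl | h
    · rw [Function.update_self, List.count_cons_self]
    · rw [Function.update_of_ne h, List.count_cons_of_ne h.symm]

/-- effective scalar functions on space-time -/
inductive EffS : (ST → ℝ) → Prop
  | term (gg : Fin 4 → ℝ → ℝ) (h : ∀ d, Eff1 (gg d)) : EffS (TP gg)
  | add {u v : ST → ℝ} (hu : EffS u) (hv : EffS v) : EffS (fun p => u p + v p)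

theorem EffS.contDiff {u : ST → ℝ} (hu : EffS u) : ContDiff ℝ (⊤ : ℕ∞) u := by
  induction hu with
  | term gg h => exact contDiff_TP (fun d => (h d).contDiff)
  | add _ _ ih1 ih2 => exact ih1.add ih2

theorem EffS.zero : EffS (fun _ => 0) := by
  have := EffS.term (fun _ _ => 0) (fun _ => Eff1.zero)
  have e : TP (fun _ _ => 0) = fun _ => 0 := by
    funext p; unfold TP; simp
  rwa [e] at this

theorem EffS.rescale {u : ST → ℝ} (hu : EffS u) (r c d : ℚ) :
    EffS (fun p => r * u (c * p.1 + d, p.2)) := by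
  induction hu with
  | term gg h =>
    have h1 : ∀ d', Eff1 (Function.update gg 0 (fun x => r * gg 0 (c * x + d)) d') := by
      intro d'
      rcases eq_or_ne d' 0 with rfl | hne
      · rw [Function.update_self]
        exact ((h 0).comp_affine c d).const_mul r
      · rw [Function.update_of_ne hne]; exact h d'
    have := EffS.term _ h1
    convert this using 2 with p
    rw [TP_eq, TP_eq, Function.update_self]
    simp only [Function.update_of_ne (Fin.succ_ne_zero _)]
    ring
  | add _ _ ih1 ih2 =>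
    have := EffS.add ih1 ih2
    convert this using 2 with p
    ring

theorem primrec_count (d : Fin 4) : Primrec (fun l : List (Fin 4) => l.count d) := by
  have h : Primrec (fun l : List (Fin 4) => l.foldr (fun a n => if a = d then n + 1 else n) 0) :=
    Primrec.list_foldr (h := fun _ (x : Fin 4 × ℕ) => if x.1 = d then x.2 + 1 else x.2) Primrec.id (Primrec.const (0:ℕ))
      (Primrec.ite (Primrec.eq.comp (Primrec.fst.comp Primrec.snd) (Primrec.const d))
        (Primrec.succ.comp (Primrec.snd.comp Primrec.snd)) (Primrec.snd.comp Primrec.snd))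
  refine h.of_eq (fun l => ?_)
  induction l with
  | nil => rfl
  | cons x l ih =>
    rw [List.foldr_cons, ih, List.count_cons]
    by_cases hx : x = d
    · simp [hx]
    · simp [hx]

/-- rational space-time coordinates -/
def qcrd (q : ℚ × (Fin 3 → ℚ)) (d : Fin 4) : ℚ := Fin.cases (motive := fun _ => ℚ) q.1 (fun m => q.2 m) d

theorem primrec_qcrd (d : Fin 4) : Primrec (fun q : ℚ × (Fin 3 → ℚ) => qcrd q d) := by
  refine Fin.cases ?_ (fun m => ?_) d
  · exact Primrec.fst
  · show Primrec (fun q : ℚ × (Fin 3 → ℚ) => q.2 m)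
    exact Primrec.fin_app.comp Primrec.snd (Primrec.const m)

theorem crd_qcrd (q : ℚ × (Fin 3 → ℚ)) (d : Fin 4) : crd ((q.1 : ℝ), ratPoint q.2) d = qcrd q d := by
  refine Fin.cases ?_ (fun m => ?_) d
  · rfl
  · rfl

theorem CR.prod4 {α : Type*} [Primcodable α] {f : Fin 4 → α → ℝ} (hf : ∀ d, CR (f d)) :
    CR (fun a => ∏ d, f d a) := by
  refine ((((hf 0).mul (hf 1)).mul (hf 2)).mul (hf 3)).congr ?_
  intro a
  rw [Fin.prod_univ_four]

theorem EffS.cr {u : ST → ℝ} (hu : EffS u) :
    CR (fun x : List (Fin 4) × (ℚ × (Fin 3 → ℚ)) => mdS x.1 u ((x.2.1 : ℝ), ratPoint x.2.2)) := by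
  induction hu with
  | term gg h =>
    choose D h0 hD hC hB using h
    have e : gg = fun d => D d 0 := by funext d; rw [h0]
    rw [e]
    refine CR.congr (f := fun x : List (Fin 4) × (ℚ × (Fin 3 → ℚ)) =>
      ∏ d, D d (x.1.count d) (qcrd x.2 d)) ?_ ?_
    · apply CR.prod4
      intro d
      exact (hC d).comp (Primrec.pair ((primrec_count d).comp Primrec.fst) ((primrec_qcrd d).comp Primrec.snd))
    · intro x
      rw [mdS_TP hD]
      unfold TP
      apply Finset.prod_congr rfl
      intro d _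
      rw [crd_qcrd]
  | add hu hv ih1 ih2 =>
    refine (ih1.add ih2).congr ?_
    intro x
    rw [mdS_add _ hu.contDiff hv.contDiff]

theorem EffS.bound {u : ST → ℝ} (hu : EffS u) :
    ∃ B : List (Fin 4) → ℕ, Primrec B ∧ ∀ ds p, |mdS ds u p| ≤ B ds := by
  induction hu with
  | term gg h =>
    choose D h0 hD hC B hB hb using h
    have e : gg = fun d => D d 0 := by funext d; rw [h0]
    rw [e]
    refine ⟨fun ds => B 0 (ds.count 0) * B 1 (ds.count 1) * B 2 (ds.count 2) * B 3 (ds.count 3), ?_, ?_⟩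
    · exact Primrec.nat_mul.comp (Primrec.nat_mul.comp (Primrec.nat_mul.comp ((hB 0).comp (primrec_count 0))
        ((hB 1).comp (primrec_count 1))) ((hB 2).comp (primrec_count 2))) ((hB 3).comp (primrec_count 3))
    · intro ds p
      rw [mdS_TP hD]
      unfold TP
      rw [Fin.prod_univ_four, abs_mul, abs_mul, abs_mul]
      push_cast
      have b0 := hb 0 (ds.count 0) (crd p 0)
      have b1 := hb 1 (ds.count 1) (crd p 1)
      have b2 := hb 2 (ds.count 2) (crd p 2)
      have b3 := hb 3 (ds.count 3) (crd p 3)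
      gcongr
  | add hu hv ih1 ih2 =>
    obtain ⟨B, hB, hb⟩ := ih1
    obtain ⟨B', hB', hb'⟩ := ih2
    refine ⟨fun ds => B ds + B' ds, Primrec.nat_add.comp hB hB', fun ds p => ?_⟩
    rw [mdS_add _ hu.contDiff hv.contDiff]
    push_cast
    exact (abs_add_le _ _).trans (add_le_add (hb ds p) (hb' ds p))

theorem contDiff_mixed (ds : List (Fin 4)) {U : Field} (hU : ContDiff ℝ (⊤ : ℕ∞) U) :
    ContDiff ℝ (⊤ : ℕ∞) (mixedDeriv ds U) := by
  induction ds with
  | nil => exact hU
  | cons d ds ih =>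
    show ContDiff ℝ (⊤ : ℕ∞) (fun p => fderiv ℝ (mixedDeriv ds U) p (direction d))
    exact (ih.fderiv_right (m := (⊤ : ℕ∞)) (by simp)).clm_apply contDiff_const

theorem mixedDeriv_eq (ds : List (Fin 4)) {U : Field} (hU : ContDiff ℝ (⊤ : ℕ∞) U) (j : Fin 3) (p : ST) :
    mixedDeriv ds U p j = mdS ds (fun p => U p j) p := by
  induction ds generalizing p with
  | nil => rfl
  | cons d ds ih =>
    show fderiv ℝ (mixedDeriv ds U) p (direction d) j = fderiv ℝ (mdS ds (fun p => U p j)) p (direction d)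
    have h1 : mdS ds (fun p => U p j) = fun p => mixedDeriv ds U p j := by
      funext q; rw [ih]
    rw [h1]
    have h2 : DifferentiableAt ℝ (mixedDeriv ds U) p := (contDiff_mixed ds hU).differentiable (by simp) p
    have h3 := hasFDerivAt_pi'.1 h2.hasFDerivAt j
    rw [h3.fderiv]
    rfl

/-- componentwise effective fields -/
def EffF (U : Field) : Prop := ∀ j, EffS (fun p => U p j)

theorem EffF.contDiff {U : Field} (hU : EffF U) : ContDiff ℝ (⊤ : ℕ∞) U :=
  contDiff_pi.2 (fun j => (hU j).contDiff)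

theorem EffF.zero : EffF (fun _ => 0) := fun _ => EffS.zero

theorem EffF.add {U V : Field} (hU : EffF U) (hV : EffF V) : EffF (fun p => U p + V p) :=
  fun j => (hU j).add (hV j)

theorem EffF.rescale {U : Field} (hU : EffF U) (r c d : ℚ) :
    EffF (fun p => (r:ℝ) • U (c * p.1 + d, p.2)) :=
  fun j => (hU j).rescale r c d

theorem EffF.effective {U : Field} (hU : EffF U) : Effective U := by
  have hcr := fun j => (hU j).cr
  have hbd := fun j => (hU j).bound
  choose E hE hEs using hcr
  choose B hB hBs using hbd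
  refine ⟨fun x j => E j ((x.1, x.2.1), x.2.2), fun ds => B 0 ds + B 1 ds + B 2 ds, ?_, ?_, ?_, ?_⟩
  · apply Primrec.to_comp
    rw [Primrec.fin_curry]
    have h1 : Primrec₂ (fun (j : Fin 3) (x : List (Fin 4) × (ℚ × (Fin 3 → ℚ)) × ℕ) => E j ((x.1, x.2.1), x.2.2)) := by
      rw [Primrec.fin_curry₁]
      intro j
      exact (hE j).comp (Primrec.pair (Primrec.pair Primrec.fst (Primrec.fst.comp Primrec.snd))
        (Primrec.snd.comp Primrec.snd))
    exact h1.swap
  · apply Primrec.to_comp
    exact Primrec.nat_add.comp (Primrec.nat_add.comp (hB 0) (hB 1)) (hB 2)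
  · intro ds t q n j
    rw [mixedDeriv_eq ds hU.contDiff]
    exact hEs j (ds, (t, q)) n
  · intro ds p j
    rw [mixedDeriv_eq ds hU.contDiff]
    refine (hBs j ds p).trans ?_
    have h0 : (0:ℝ) ≤ B 0 ds := Nat.cast_nonneg _
    have h1 : (0:ℝ) ≤ B 1 ds := Nat.cast_nonneg _
    have h2 : (0:ℝ) ≤ B 2 ds := Nat.cast_nonneg _
    push_cast
    fin_cases j
    · show (B 0 ds : ℝ) ≤ _; linarith
    · show (B 1 ds : ℝ) ≤ _; linarith
    · show (B 2 ds : ℝ) ≤ _; linarith

end Crest.Agent.S0170
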