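import Mathlib
import Crest.Agent.S0170AuxField
import Crest.Prelude.Def_BoxFlow

/-! Flows: composition and the elementary moves. -/

set_option autoImplicit false

namespace Crest.Agent.S0170

open Filter Topology Crest.AnalysisR.BoxFlow

/-- three-space -/
abbrev E3 : Type := Fin 3 → ℝ

/-- admissible fields with their flows -/
structure Good (U : Field) (Φ : ℝ → E3 → E3) : Prop where
  eff : EffF U
  time : ∀ p : ST, (p.1 < 3/8 ∨ 5/8 < p.1) → U p = 0
  supp : ∃ R : ℝ, ∀ p : ST, R < ‖p.2‖ → U p = 0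
  div : ∀ p, spaceDiv U p = 0
  flow : IsFlow U Φ
  early : ∀ t x, t < 3/8 → Φ t x = x
  late : ∀ t x, 5/8 < t → Φ t x = Φ 1 x

theorem spaceDiv_eq {U : Field} (hU : ContDiff ℝ (⊤ : ℕ∞) U) (p : ST) :
    spaceDiv U p = ∑ j : Fin 3, fderiv ℝ (fun p => U p j) p (direction j.succ) := by
  unfold spaceDiv
  apply Finset.sum_congr rfl
  intro j _
  have h2 : DifferentiableAt ℝ U p := hU.differentiable (by simp) p
  have h3 := hasFDerivAt_pi'.1 h2.hasFDerivAt j
  rw [h3.fderiv]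
  have hd : direction j.succ = (0, Pi.single j 1) := by
    unfold direction
    rw [dif_neg (Fin.succ_ne_zero j)]
    simp
  rw [hd]
  rfl

theorem spaceDiv_zero (p : ST) : spaceDiv (fun _ => 0) p = 0 := by
  unfold spaceDiv; simp

theorem spaceDiv_add {U V : Field} (hU : ContDiff ℝ (⊤ : ℕ∞) U) (hV : ContDiff ℝ (⊤ : ℕ∞) V) (p : ST) :
    spaceDiv (fun p => U p + V p) p = spaceDiv U p + spaceDiv V p := by
  unfold spaceDiv
  rw [← Finset.sum_add_distrib]
  apply Finset.sum_congr rfl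
  intro j _
  rw [fderiv_fun_add (hU.differentiable (by simp) p) (hV.differentiable (by simp) p)]
  rfl

theorem fderiv_rescale {u : ST → ℝ} (hu : ContDiff ℝ (⊤ : ℕ∞) u) (r c d : ℝ) (p : ST) (j : Fin 3) :
    fderiv ℝ (fun p : ST => r * u (c * p.1 + d, p.2)) p (direction j.succ) =
      r * fderiv ℝ u (c * p.1 + d, p.2) (direction j.succ) := by
  apply fderiv_eq_line
  · have h1 : ContDiff ℝ (⊤ : ℕ∞) (fun p : ST => r * u (c * p.1 + d, p.2)) := by
      apply contDiff_const.mul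
      apply hu.comp
      exact ((contDiff_const.mul contDiff_fst).add contDiff_const).prodMk contDiff_snd
    exact h1.differentiable (by simp) p
  · have hd : direction j.succ = (0, Pi.single j 1) := by
      unfold direction
      rw [dif_neg (Fin.succ_ne_zero j)]
      simp
    have h3 : HasDerivAt (fun s : ℝ => u ((c * p.1 + d, p.2) + s • direction j.succ))
        (fderiv ℝ u (c * p.1 + d, p.2) (direction j.succ)) 0 := by
      have h1 : HasDerivAt (fun s : ℝ => ((c * p.1 + d, p.2) : ST) + s • direction j.succ) (direction j.succ) 0 := by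
        have := ((hasDerivAt_id (0:ℝ)).smul_const (direction j.succ)).const_add ((c * p.1 + d, p.2) : ST)
        simpa using this
      have h2 : HasFDerivAt u (fderiv ℝ u (c * p.1 + d, p.2)) (((c * p.1 + d, p.2) : ST) + (0:ℝ) • direction j.succ) := by
        have := (hu.differentiable (by simp) ((c * p.1 + d, p.2) : ST)).hasFDerivAt
        simpa using this
      exact h2.comp_hasDerivAt (0:ℝ) h1
    have h4 := h3.const_mul r
    have e : (fun s : ℝ => (fun p : ST => r * u (c * p.1 + d, p.2)) (p + s • direction j.succ)) =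
        fun s => r * u ((c * p.1 + d, p.2) + s • direction j.succ) := by
      funext s
      rw [hd]
      simp
    rw [e]
    exact h4

theorem spaceDiv_rescale {U : Field} (hU : ContDiff ℝ (⊤ : ℕ∞) U) (r c d : ℝ) (p : ST) :
    spaceDiv (fun p => r • U (c * p.1 + d, p.2)) p = r * spaceDiv U (c * p.1 + d, p.2) := by
  have h1 : ContDiff ℝ (⊤ : ℕ∞) (fun p : ST => r • U (c * p.1 + d, p.2)) := by
    have h0 : ContDiff ℝ (⊤ : ℕ∞) (fun p : ST => U (c * p.1 + d, p.2)) := by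
      apply hU.comp
      exact ((contDiff_const.mul contDiff_fst).add contDiff_const).prodMk contDiff_snd
    exact h0.const_smul r
  rw [spaceDiv_eq h1, spaceDiv_eq hU, Finset.mul_sum]
  apply Finset.sum_congr rfl
  intro j _
  have hj : ContDiff ℝ (⊤ : ℕ∞) (fun p => U p j) := contDiff_pi.1 hU j
  exact fderiv_rescale hj r c d p j

theorem Good.comp {U1 U2 : Field} {Φ1 Φ2 : ℝ → E3 → E3} (h1 : Good U1 Φ1) (h2 : Good U2 Φ2) :
    Good (fun p => (4:ℝ) • U1 (4 * p.1 - 9/8, p.2) + (4:ℝ) • U2 (4 * p.1 - 15/8, p.2))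
      (fun t x => Φ2 (4 * t - 15/8) (Φ1 (4 * t - 9/8) x)) := by
  have he1 : EffF (fun p => (4:ℝ) • U1 (4 * p.1 - 9/8, p.2)) := by
    have := h1.eff.rescale 4 4 (-9/8)
    have e : (fun p : ST => (((4:ℚ):ℝ)) • U1 (((4:ℚ):ℝ) * p.1 + ((-9/8 : ℚ):ℝ), p.2)) =
        fun p => (4:ℝ) • U1 (4 * p.1 - 9/8, p.2) := by
      funext p
      rw [show ((4:ℚ):ℝ) * p.1 + ((-9/8 : ℚ):ℝ) = 4 * p.1 - 9/8 by push_cast; ring]
      norm_num
    rwa [e] at this
  have he2 : EffF (fun p => (4:ℝ) • U2 (4 * p.1 - 15/8, p.2)) := by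
    have := h2.eff.rescale 4 4 (-15/8)
    have e : (fun p : ST => (((4:ℚ):ℝ)) • U2 (((4:ℚ):ℝ) * p.1 + ((-15/8 : ℚ):ℝ), p.2)) =
        fun p => (4:ℝ) • U2 (4 * p.1 - 15/8, p.2) := by
      funext p
      rw [show ((4:ℚ):ℝ) * p.1 + ((-15/8 : ℚ):ℝ) = 4 * p.1 - 15/8 by push_cast; ring]
      norm_num
    rwa [e] at this
  refine ⟨he1.add he2, ?_, ?_, ?_, ?_, ?_, ?_⟩
  · intro p hp
    rw [h1.time _ _, h2.time _ _]
    · simp
    · simp only
      rcases hp with hp | hp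
      · left; linarith
      · right; linarith
    · simp only
      rcases hp with hp | hp
      · left; linarith
      · right; linarith
  · obtain ⟨R1, hR1⟩ := h1.supp
    obtain ⟨R2, hR2⟩ := h2.supp
    refine ⟨max R1 R2, fun p hp => ?_⟩
    rw [hR1 (4 * p.1 - 9/8, p.2) (lt_of_le_of_lt (le_max_left _ _) hp),
      hR2 (4 * p.1 - 15/8, p.2) (lt_of_le_of_lt (le_max_right _ _) hp)]
    simp
  · intro p
    rw [spaceDiv_add he1.contDiff he2.contDiff]
    have e1 := spaceDiv_rescale h1.eff.contDiff 4 4 (-9/8) p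
    have e2 := spaceDiv_rescale h2.eff.contDiff 4 4 (-15/8) p
    have f1 : (fun p : ST => (4:ℝ) • U1 (4 * p.1 + -9/8, p.2)) = fun p => (4:ℝ) • U1 (4 * p.1 - 9/8, p.2) := by
      funext q; rw [show 4 * q.1 + -9/8 = 4 * q.1 - 9/8 by ring]
    have f2 : (fun p : ST => (4:ℝ) • U2 (4 * p.1 + -15/8, p.2)) = fun p => (4:ℝ) • U2 (4 * p.1 - 15/8, p.2) := by
      funext q; rw [show 4 * q.1 + -15/8 = 4 * q.1 - 15/8 by ring]
    rw [f1] at e1
    rw [f2] at e2
    rw [e1, e2, h1.div, h2.div]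
    simp
  · constructor
    · intro x
      simp only
      rw [h1.early _ _ (by norm_num), h2.early _ _ (by norm_num)]
    · intro t x
      rcases lt_or_ge t (9/16) with ht | ht
      · have hev : (fun s => Φ2 (4 * s - 15/8) (Φ1 (4 * s - 9/8) x)) =ᶠ[𝓝 t] fun s => Φ1 (4 * s - 9/8) x := by
          filter_upwards [eventually_lt_nhds ht] with s hs
          exact h2.early _ _ (by linarith)
        have hd1 : HasDerivAt (fun s : ℝ => 4 * s - 9/8) 4 t := by
          simpa using ((hasDerivAt_id t).const_mul 4).sub_const (9/8)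
        have hd := (h1.flow.2 (4*t-9/8) x).scomp t hd1
        have hd' : HasDerivAt (fun s => Φ1 (4 * s - 9/8) x) ((4:ℝ) • U1 (4*t-9/8, Φ1 (4*t-9/8) x)) t := hd
        refine (hd'.congr_of_eventuallyEq hev).congr_deriv ?_
        show (4:ℝ) • U1 (4*t-9/8, Φ1 (4*t-9/8) x) = (4:ℝ) • U1 (4*t-9/8, Φ2 (4*t-15/8) (Φ1 (4*t-9/8) x)) +
          (4:ℝ) • U2 (4*t-15/8, Φ2 (4*t-15/8) (Φ1 (4*t-9/8) x))
        rw [h2.early _ _ (by linarith : 4*t-15/8 < 3/8), h2.time (4*t-15/8, _) (Or.inl (by show 4*t-15/8 < 3/8; linarith))]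
        simp
      · have hev : (fun s => Φ2 (4 * s - 15/8) (Φ1 (4 * s - 9/8) x)) =ᶠ[𝓝 t] fun s => Φ2 (4 * s - 15/8) (Φ1 1 x) := by
          filter_upwards [eventually_gt_nhds (show (7:ℝ)/16 < t by linarith)] with s hs
          rw [h1.late _ _ (by linarith)]
        have hd1 : HasDerivAt (fun s : ℝ => 4 * s - 15/8) 4 t := by
          simpa using ((hasDerivAt_id t).const_mul 4).sub_const (15/8)
        have hd := (h2.flow.2 (4*t-15/8) (Φ1 1 x)).scomp t hd1
        have hd' : HasDerivAt (fun s => Φ2 (4 * s - 15/8) (Φ1 1 x)) ((4:ℝ) • U2 (4*t-15/8, Φ2 (4*t-15/8) (Φ1 1 x))) t := hd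
        refine (hd'.congr_of_eventuallyEq hev).congr_deriv ?_
        show (4:ℝ) • U2 (4*t-15/8, Φ2 (4*t-15/8) (Φ1 1 x)) = (4:ℝ) • U1 (4*t-9/8, Φ2 (4*t-15/8) (Φ1 (4*t-9/8) x)) +
          (4:ℝ) • U2 (4*t-15/8, Φ2 (4*t-15/8) (Φ1 (4*t-9/8) x))
        rw [h1.late _ _ (by linarith : 5/8 < 4*t-9/8), h1.time (4*t-9/8, _) (Or.inr (by show 5/8 < 4*t-9/8; linarith))]
        simp
  · intro t x ht
    rw [h1.early _ _ (by linarith), h2.early _ _ (by linarith)]
  · intro t x ht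
    rw [h1.late _ _ (by linarith : 5/8 < 4*t-9/8), h2.late _ _ (by linarith : 5/8 < 4*t-15/8),
      h1.late _ _ (by norm_num : (5:ℝ)/8 < 4*1-9/8), h2.late _ _ (by norm_num : (5:ℝ)/8 < 4*1-15/8)]

/-- the map `F` on `S` is realized by an admissible flow that fixes everything outside `Ω` -/
def RealL (Ω S : Set E3) (F : E3 → E3) : Prop :=
  ∃ U Φ, Good U Φ ∧ (∀ x ∈ S, Φ 1 x = F x) ∧ (∀ x, x ∉ Ω → Φ 1 x = x)

theorem RealL.id (Ω S : Set E3) : RealL Ω S (fun x => x) := by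
  refine ⟨fun _ => 0, fun _ x => x, ⟨EffF.zero, fun _ _ => rfl, ⟨0, fun _ _ => rfl⟩, spaceDiv_zero, ⟨fun _ => rfl, fun t x => ?_⟩,
    fun _ _ _ => rfl, fun _ _ _ => rfl⟩, fun _ _ => rfl, fun _ _ => rfl⟩
  exact hasDerivAt_const t x

theorem RealL.mono {Ω Ω' S S' : Set E3} {F F' : E3 → E3} (h : RealL Ω S F) (hΩ : Ω ⊆ Ω') (hS : S' ⊆ S)
    (hF : ∀ x ∈ S', F' x = F x) : RealL Ω' S' F' := by
  obtain ⟨U, Φ, hG, h1, h2⟩ := h
  exact ⟨U, Φ, hG, fun x hx => by rw [hF x hx]; exact h1 x (hS hx), fun x hx => h2 x (fun h => hx (hΩ h))⟩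

theorem RealL.comp {Ω S S' : Set E3} {F F' : E3 → E3} (h : RealL Ω S F) (h' : RealL Ω S' F')
    (hm : ∀ x ∈ S, F x ∈ S') : RealL Ω S (fun x => F' (F x)) := by
  obtain ⟨U, Φ, hG, h1, h2⟩ := h
  obtain ⟨U', Φ', hG', h1', h2'⟩ := h'
  have key : ∀ x, Φ' (4 * 1 - 15/8) (Φ (4 * 1 - 9/8) x) = Φ' 1 (Φ 1 x) := by
    intro x
    rw [hG.late _ _ (by norm_num : (5:ℝ)/8 < 4*1-9/8), hG'.late _ _ (by norm_num : (5:ℝ)/8 < 4*1-15/8)]
  refine ⟨_, _, hG.comp hG', ?_, ?_⟩
  · intro x hx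
    rw [key, h1 x hx, h1' _ (hm x hx)]
  · intro x hx
    rw [key, h2 x hx, h2' x hx]

end Crest.Agent.S0170
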