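import Crest.Agent.T22RW
import Crest.Agent.T22X

/-! S0222: the random walk theorem, final form. -/

set_option autoImplicit false

namespace Crest.Agent.T22

open Finset Crest.Agent.ThS Crest.Agent.T22Num
open scoped Nat

/-- **the random walk theorem** -/
theorem RW (ε : ℝ) (hε : 0 < ε) :
    ∃ M : ℕ, ∀ m, M ≤ m → ∀ zeta : Equiv.Perm (Fin m) → ℝ, RWHyp m zeta →
      ((m.factorial : ℕ) : ℝ) * cvPow zeta 120 1 - (∑ g, zeta g) ^ 120 ≤ ε :=
  RW_of_X X1' X2' ε hε

end Crest.Agent.T22
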