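import Mathlib

/-! S0085: tensor powers of a balanced Boolean function. -/

set_option autoImplicit false
set_option linter.unusedSectionVars false
set_option linter.unusedVariables false

namespace Crest.Agent.T85

open Finset

/-- sign of a bit -/
def sg (b : Bool) : ℝ := if b then 1 else -1

theorem sg_mul_self (b : Bool) : sg b * sg b = 1 := by cases b <;> simp [sg]

theorem sg_mul_eq (a b : Bool) : sg a * sg b = if a = b then 1 else -1 := by
  cases a <;> cases b <;> simp [sg]

section gen

variable {ι κ : Type} [Fintype ι] [DecidableEq ι] [Fintype κ] [DecidableEq κ]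

/-- unnormalised Fourier coefficient -/
noncomputable def coef (f : (ι → Bool) → Bool) (S : Finset ι) : ℝ :=
  ∑ x : ι → Bool, sg (f x) * ∏ i ∈ S, sg (x i)

theorem sum_prod_pow (x y : ι → Bool) :
    ∑ T : Finset ι, (∏ i ∈ T, sg (x i)) * (∏ i ∈ T, sg (y i))
      = if x = y then (2 : ℝ) ^ Fintype.card ι else 0 := by
  have h : ∑ T : Finset ι, (∏ i ∈ T, sg (x i)) * (∏ i ∈ T, sg (y i))
      = ∏ i, (1 + sg (x i) * sg (y i)) := by
    rw [Finset.prod_one_add]
    rw [Finset.powerset_univ]
    apply sum_congr rfl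
    intro T _
    rw [prod_mul_distrib]
  rw [h]
  by_cases hxy : x = y
  · subst hxy
    rw [if_pos rfl]
    have : ∀ i, (1 + sg (x i) * sg (x i)) = (2 : ℝ) := by
      intro i; rw [sg_mul_self]; norm_num
    simp [this]
  · rw [if_neg hxy]
    obtain ⟨i, hi⟩ := Function.ne_iff.mp hxy
    apply prod_eq_zero (mem_univ i)
    rw [sg_mul_eq, if_neg hi]
    norm_num

theorem inversion (f : (ι → Bool) → Bool) (y : ι → Bool) :
    (2 : ℝ) ^ Fintype.card ι * sg (f y) = ∑ T : Finset ι, coef f T * ∏ i ∈ T, sg (y i) := by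
  unfold coef
  simp_rw [sum_mul]
  rw [sum_comm]
  have : ∀ x : ι → Bool, ∑ T : Finset ι, sg (f x) * (∏ i ∈ T, sg (x i)) * ∏ i ∈ T, sg (y i)
      = sg (f x) * (if x = y then (2 : ℝ) ^ Fintype.card ι else 0) := by
    intro x
    rw [← sum_prod_pow x y, mul_sum]
    apply sum_congr rfl
    intro T _
    ring
  simp_rw [this]
  simp [mul_comm]

/-- the sum of a product function over all the assignments of one block -/
theorem sum_chi (S : Finset κ) :
    ∑ z : κ → Bool, ∏ j ∈ S, sg (z j) = if S = ∅ then (2 : ℝ) ^ Fintype.card κ else 0 := by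
  by_cases hS : S = ∅
  · subst hS
    simp
  · rw [if_neg hS]
    obtain ⟨j, hj⟩ := nonempty_iff_ne_empty.mpr hS
    -- flip coordinate j
    have h : ∑ z : κ → Bool, ∏ j ∈ S, sg (z j) = ∑ z : κ → Bool, - ∏ j ∈ S, sg (z j) := by
      apply Finset.sum_nbij' (fun z => Function.update z j (!(z j)))
        (fun z => Function.update z j (!(z j)))
      · intro z _; exact mem_univ _
      · intro z _; exact mem_univ _
      · intro z _; simp
      · intro z _; simp
      · intro z _
        rw [← mul_prod_erase S _ hj, ← mul_prod_erase S _ hj]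
        have h1 : ∏ i ∈ S.erase j, sg (Function.update z j (!(z j)) i)
            = ∏ i ∈ S.erase j, sg (z i) := by
          apply prod_congr rfl
          intro i hi
          rw [Function.update_of_ne (ne_of_mem_erase hi)]
        rw [h1, Function.update_self]
        cases hz : z j <;> simp [sg]
    rw [sum_neg_distrib] at h
    linarith

/-- composition -/
def comp (f : (ι → Bool) → Bool) (g : (κ → Bool) → Bool) : (ι × κ → Bool) → Bool :=
  fun x => f (fun i => g (fun j => x (i, j)))

/-- section of a set -/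
def sec (S : Finset (ι × κ)) (i : ι) : Finset κ := univ.filter (fun j => (i, j) ∈ S)

theorem prod_sec (S : Finset (ι × κ)) (x : ι × κ → Bool) :
    ∏ p ∈ S, sg (x p) = ∏ i, ∏ j ∈ sec S i, sg (x (i, j)) := by
  have h1 : ∏ p ∈ S, sg (x p) = ∏ p : ι × κ, if p ∈ S then sg (x p) else 1 := by
    rw [Finset.prod_ite_mem, univ_inter]
  rw [h1, Fintype.prod_prod_type]
  apply prod_congr rfl
  intro i _
  unfold sec
  rw [prod_filter]

theorem card_sec (S : Finset (ι × κ)) : S.card = ∑ i, (sec S i).card := by
  have h1 : S.card = ∑ p : ι × κ, if p ∈ S then 1 else 0 := by simp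
  rw [h1, Fintype.sum_prod_type]
  apply sum_congr rfl
  intro i _
  unfold sec
  rw [card_filter]

theorem coef_comp (f : (ι → Bool) → Bool) (g : (κ → Bool) → Bool) (S : Finset (ι × κ)) :
    (2 : ℝ) ^ Fintype.card ι * coef (comp f g) S
      = ∑ T : Finset ι, coef f T * ∏ i, (if i ∈ T then coef g (sec S i)
          else if sec S i = ∅ then (2 : ℝ) ^ Fintype.card κ else 0) := by
  have h0 : (2 : ℝ) ^ Fintype.card ι * coef (comp f g) S
      = ∑ x : ι × κ → Bool, ((2 : ℝ) ^ Fintype.card ι * sg (f (fun i => g (fun j => x (i, j)))))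
        * ∏ p ∈ S, sg (x p) := by
    unfold coef
    rw [mul_sum]
    apply sum_congr rfl
    intro x _
    unfold comp
    ring
  rw [h0]
  simp_rw [inversion f, sum_mul]
  rw [sum_comm]
  apply sum_congr rfl
  intro T _
  have h1 : ∀ x : ι × κ → Bool,
      coef f T * (∏ i ∈ T, sg (g (fun j => x (i, j)))) * ∏ p ∈ S, sg (x p)
      = coef f T * ∏ i, ((if i ∈ T then sg (g (fun j => x (i, j))) else 1)
          * ∏ j ∈ sec S i, sg (x (i, j))) := by
    intro x
    rw [prod_sec, prod_mul_distrib, Finset.prod_ite_mem, univ_inter, mul_assoc]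
  simp_rw [h1]
  rw [← mul_sum]
  congr 1
  have h2 : ∑ x : ι × κ → Bool, ∏ i, ((if i ∈ T then sg (g (fun j => x (i, j))) else 1)
          * ∏ j ∈ sec S i, sg (x (i, j)))
      = ∑ w : ι → κ → Bool, ∏ i, ((if i ∈ T then sg (g (w i)) else 1)
          * ∏ j ∈ sec S i, sg (w i j)) :=
    Fintype.sum_equiv (Equiv.curry ι κ Bool) _ _ (fun x => rfl)
  rw [h2]
  have h3 := (Finset.prod_univ_sum (fun _ : ι => (univ : Finset (κ → Bool)))
    (fun i (z : κ → Bool) => (if i ∈ T then sg (g z) else 1) * ∏ j ∈ sec S i, sg (z j)))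
  rw [Fintype.piFinset_univ] at h3
  rw [← h3]
  apply prod_congr rfl
  intro i _
  by_cases hi : i ∈ T
  · simp only [if_pos hi]; rfl
  · simp only [if_neg hi, one_mul]
    exact sum_chi _

/-- balanced, degree at most `d`, singleton sum `s` -/
structure Good (f : (ι → Bool) → Bool) (d : ℕ) (s : ℝ) : Prop where
  bal : coef f ∅ = 0
  deg : ∀ S : Finset ι, d < S.card → coef f S = 0
  sing : (∑ i, coef f {i}) / (2 : ℝ) ^ Fintype.card ι = s

theorem sec_empty (i : ι) : sec (∅ : Finset (ι × κ)) i = ∅ := by
  unfold sec; simp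

theorem sec_single (a : ι) (b : κ) (i : ι) :
    sec ({(a, b)} : Finset (ι × κ)) i = if i = a then {b} else ∅ := by
  unfold sec
  ext j
  by_cases h : i = a
  · subst h; simp
  · simp [h]

theorem Good.comp {f : (ι → Bool) → Bool} {g : (κ → Bool) → Bool} {d e : ℕ} {s t : ℝ}
    (hf : Good f d s) (hg : Good g e t) : Good (T85.comp f g) (d * e) (s * t) where
  bal := by
    have h := coef_comp f g ∅
    have h2 : ∑ T : Finset ι, coef f T * ∏ i, (if i ∈ T then coef g (sec (∅ : Finset (ι × κ)) i)
          else if sec (∅ : Finset (ι × κ)) i = ∅ then (2 : ℝ) ^ Fintype.card κ else 0) = 0 := by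
      apply sum_eq_zero
      intro T _
      by_cases hT : T = ∅
      · subst hT
        rw [hf.bal, zero_mul]
      · obtain ⟨i, hi⟩ := nonempty_iff_ne_empty.mpr hT
        have : ∏ i, (if i ∈ T then coef g (sec (∅ : Finset (ι × κ)) i)
          else if sec (∅ : Finset (ι × κ)) i = ∅ then (2 : ℝ) ^ Fintype.card κ else 0) = 0 := by
          apply prod_eq_zero (mem_univ i)
          rw [if_pos hi, sec_empty, hg.bal]
        rw [this, mul_zero]
    rw [h2] at h
    have h3 : (2 : ℝ) ^ Fintype.card ι ≠ 0 := by positivity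
    exact (mul_eq_zero.mp h).resolve_left h3
  deg := by
    intro S hS
    have h := coef_comp f g S
    have h2 : ∑ T : Finset ι, coef f T * ∏ i, (if i ∈ T then coef g (sec S i)
          else if sec S i = ∅ then (2 : ℝ) ^ Fintype.card κ else 0) = 0 := by
      apply sum_eq_zero
      intro T _
      by_contra hne
      have hT : coef f T ≠ 0 := left_ne_zero_of_mul hne
      have hP := right_ne_zero_of_mul hne
      rw [prod_ne_zero_iff] at hP
      have hTd : T.card ≤ d := by
        by_contra hlt
        exact hT (hf.deg T (not_le.mp hlt))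
      have h5 : ∀ i, (sec S i).card ≤ if i ∈ T then e else 0 := by
        intro i
        have h6 := hP i (mem_univ i)
        by_cases hi : i ∈ T
        · rw [if_pos hi] at h6 ⊢
          by_contra hlt
          exact h6 (hg.deg _ (not_le.mp hlt))
        · rw [if_neg hi] at h6 ⊢
          by_cases hs : sec S i = ∅
          · rw [hs]; simp
          · rw [if_neg hs] at h6; exact absurd rfl h6
      have h7 : S.card ≤ T.card * e := by
        rw [card_sec]
        refine (sum_le_sum fun i _ => h5 i).trans ?_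
        rw [sum_ite_mem, univ_inter, sum_const, smul_eq_mul]
      have h8 : T.card * e ≤ d * e := Nat.mul_le_mul_right e hTd
      omega
    rw [h2] at h
    have h3 : (2 : ℝ) ^ Fintype.card ι ≠ 0 := by positivity
    exact (mul_eq_zero.mp h).resolve_left h3
  sing := by
    have hcard : ∀ a : ι, (2 : ℝ) ^ Fintype.card (ι × κ)
        = (2 : ℝ) ^ Fintype.card κ * ((2 : ℝ) ^ Fintype.card κ) ^ (Fintype.card ι - 1) := by
      intro a
      have h1 : 0 < Fintype.card ι := Fintype.card_pos_iff.mpr ⟨a⟩
      rw [Fintype.card_prod, ← pow_mul, ← pow_add]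
      congr 1
      obtain ⟨c, hc⟩ : ∃ c, Fintype.card ι = c + 1 := ⟨Fintype.card ι - 1, by omega⟩
      rw [hc]
      simp only [Nat.add_sub_cancel]
      ring
    have key : ∀ (a : ι) (b : κ), (2 : ℝ) ^ Fintype.card ι * coef (T85.comp f g) {(a, b)}
        = coef f {a} * (coef g {b} * ((2 : ℝ) ^ Fintype.card κ) ^ (Fintype.card ι - 1)) := by
      intro a b
      rw [coef_comp f g {(a, b)}]
      rw [sum_eq_single ({a} : Finset ι)]
      · congr 1
        rw [← mul_prod_erase univ _ (mem_univ a)]
        rw [if_pos (mem_singleton_self a), sec_single, if_pos rfl]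
        congr 1
        have : ∀ i ∈ univ.erase a, (if i ∈ ({a} : Finset ι) then coef g (sec {(a, b)} i)
          else if sec ({(a, b)} : Finset (ι × κ)) i = ∅ then (2 : ℝ) ^ Fintype.card κ else 0)
            = (2 : ℝ) ^ Fintype.card κ := by
          intro i hi
          have hia : i ≠ a := ne_of_mem_erase hi
          rw [if_neg (by simpa using hia), sec_single, if_neg hia, if_pos rfl]
        rw [prod_congr rfl this, prod_const, card_erase_of_mem (mem_univ a), card_univ]
      · intro T _ hT
        by_cases ha : a ∈ T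
        · have : ∃ i ∈ T, i ≠ a := by
            by_contra hno
            push Not at hno
            apply hT
            ext i
            constructor
            · intro hi; simpa using hno i hi
            · intro hi
              have : i = a := by simpa using hi
              rw [this]; exact ha
          obtain ⟨i, hi, hia⟩ := this
          have h0 : ∏ i, (if i ∈ T then coef g (sec {(a, b)} i)
            else if sec ({(a, b)} : Finset (ι × κ)) i = ∅ then (2 : ℝ) ^ Fintype.card κ else 0) = 0 := by
            apply prod_eq_zero (mem_univ i)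
            rw [if_pos hi, sec_single, if_neg hia, hg.bal]
          rw [h0, mul_zero]
        · have h0 : ∏ i, (if i ∈ T then coef g (sec {(a, b)} i)
            else if sec ({(a, b)} : Finset (ι × κ)) i = ∅ then (2 : ℝ) ^ Fintype.card κ else 0) = 0 := by
            apply prod_eq_zero (mem_univ a)
            rw [if_neg ha, sec_single, if_pos rfl, if_neg (singleton_ne_empty b)]
          rw [h0, mul_zero]
      · intro h; exact absurd (mem_univ _) h
    have h2n : (2 : ℝ) ^ Fintype.card ι ≠ 0 := by positivity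
    rw [Fintype.sum_prod_type, ← hf.sing, ← hg.sing, div_mul_div_comm, sum_mul_sum, sum_div, sum_div]
    apply sum_congr rfl
    intro a _
    rw [sum_div, sum_div]
    apply sum_congr rfl
    intro b _
    have hk := key a b
    have h3 : coef (T85.comp f g) {(a, b)}
        = coef f {a} * (coef g {b} * ((2 : ℝ) ^ Fintype.card κ) ^ (Fintype.card ι - 1))
          / (2 : ℝ) ^ Fintype.card ι := by
      rw [eq_div_iff h2n, mul_comm]; exact hk
    rw [h3, hcard a]
    have h2m : ((2 : ℝ) ^ Fintype.card κ) ^ (Fintype.card ι - 1) ≠ 0 := by positivity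
    field_simp

end gen

/-- transport along an equivalence -/
theorem Good.transport {ι ι' : Type} [Fintype ι] [DecidableEq ι] [Fintype ι'] [DecidableEq ι']
    (e : ι ≃ ι') {f : (ι → Bool) → Bool} {d : ℕ} {s : ℝ} (hf : Good f d s) :
    Good (fun x : ι' → Bool => f (x ∘ e)) d s := by
  have h : ∀ S : Finset ι', coef (fun x : ι' → Bool => f (x ∘ e)) S
      = coef f (S.map e.symm.toEmbedding) := by
    intro S
    unfold coef
    apply Fintype.sum_equiv (Equiv.arrowCongr e.symm (Equiv.refl Bool))
    intro x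
    rw [prod_map]
    congr 1
    apply prod_congr rfl
    intro i _
    simp [Equiv.arrowCongr]
  refine ⟨?_, ?_, ?_⟩
  · rw [h, map_empty]; exact hf.bal
  · intro S hS
    rw [h]
    apply hf.deg
    rw [card_map]; exact hS
  · simp_rw [h, map_singleton]
    rw [← hf.sing, ← Fintype.card_congr e]
    congr 1
    exact Fintype.sum_equiv e.symm _ _ (fun i => rfl)

theorem exists_pow {ι : Type} [Fintype ι] [DecidableEq ι] {f : (ι → Bool) → Bool} {d : ℕ} {s : ℝ}
    (hf : Good f d s) : ∀ k : ℕ, ∃ (κ : Type) (_ : Fintype κ) (_ : DecidableEq κ)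
      (g : (κ → Bool) → Bool), Good g (d ^ (k + 1)) (s ^ (k + 1)) := by
  intro k
  induction k with
  | zero => exact ⟨ι, inferInstance, inferInstance, f, by simpa using hf⟩
  | succ k ih =>
    obtain ⟨κ, h1, h2, g, hg⟩ := ih
    refine ⟨κ × ι, inferInstance, inferInstance, comp g f, ?_⟩
    have := hg.comp hf
    rwa [← pow_succ, ← pow_succ] at this

/-- **Tensor power trick** for S0085. -/
theorem main {ι : Type} [Fintype ι] [DecidableEq ι] {f : (ι → Bool) → Bool} {d : ℕ} {s : ℝ}
    (hf : Good f d s) (hs : Real.sqrt d < s) (C : ℝ) (hC : 0 < C) :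
    ∃ n : ℕ, ∃ f : (Fin n → Bool) → Bool, ∃ d : ℕ,
      (∃ x y, f x ≠ f y) ∧
      (∀ S : Finset (Fin n), d < S.card →
        ∑ x : Fin n → Bool, ((if f x then (1 : ℝ) else -1) * ∏ i ∈ S, (if x i then (1 : ℝ) else -1)) = 0) ∧
      C * Real.sqrt d <
        ∑ i : Fin n, (∑ x : Fin n → Bool, ((if f x then (1 : ℝ) else -1) * (if x i then (1 : ℝ) else -1))) / 2 ^ n := by
  have hs0 : 0 < s := lt_of_le_of_lt (Real.sqrt_nonneg _) hs
  have hk : ∃ k : ℕ, C * Real.sqrt ((d ^ (k + 1) : ℕ) : ℝ) < s ^ (k + 1) := by
    by_cases hd : d = 0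
    · refine ⟨0, ?_⟩
      subst hd
      simpa using hs0
    · have hd0 : 0 < Real.sqrt d := Real.sqrt_pos.mpr (by exact_mod_cast Nat.pos_of_ne_zero hd)
      have hr : 1 < s / Real.sqrt d := by rw [one_lt_div hd0]; exact hs
      obtain ⟨k, hk⟩ := pow_unbounded_of_one_lt C hr
      refine ⟨k, ?_⟩
      have h1 : Real.sqrt ((d ^ (k + 1) : ℕ) : ℝ) = Real.sqrt d ^ (k + 1) := by
        push_cast
        rw [Real.sqrt_eq_rpow, Real.sqrt_eq_rpow, ← Real.rpow_natCast, ← Real.rpow_natCast,
          ← Real.rpow_mul (Nat.cast_nonneg d), ← Real.rpow_mul (Nat.cast_nonneg d), mul_comm]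
      rw [h1]
      have h2 : C < (s / Real.sqrt d) ^ (k + 1) :=
        hk.trans_le (pow_le_pow_right₀ hr.le (Nat.le_succ k))
      rw [div_pow, lt_div_iff₀ (by positivity)] at h2
      exact h2
  obtain ⟨k, hk⟩ := hk
  obtain ⟨κ, h1, h2, g, hg⟩ := exists_pow hf k
  have hg' := hg.transport (Fintype.equivFin κ)
  refine ⟨Fintype.card κ, fun x => g (x ∘ Fintype.equivFin κ), d ^ (k + 1), ?_, ?_, ?_⟩
  · by_contra hno
    push Not at hno
    have h3 := hg'.bal
    unfold coef at h3
    simp only [prod_empty, mul_one] at h3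
    have h4 : ∀ x : Fin (Fintype.card κ) → Bool, sg (g (x ∘ Fintype.equivFin κ))
        = sg (g ((fun _ => true) ∘ Fintype.equivFin κ)) := fun x => by
      rw [hno x (fun _ => true)]
    rw [sum_congr rfl (fun x _ => h4 x), sum_const, nsmul_eq_mul] at h3
    rcases mul_eq_zero.mp h3 with h5 | h5
    · have : (univ : Finset (Fin (Fintype.card κ) → Bool)).card ≠ 0 := by simp
      exact this (by exact_mod_cast h5)
    · cases hb : g ((fun _ => true) ∘ Fintype.equivFin κ) <;> rw [hb] at h5 <;> simp [sg] at h5
  · intro S hS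
    exact hg'.deg S hS
  · refine lt_of_lt_of_eq hk ?_
    rw [← hg'.sing, sum_div, Fintype.card_fin]
    apply sum_congr rfl
    intro i _
    unfold coef
    simp only [prod_singleton]
    rfl

end Crest.Agent.T85
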