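import Mathlib
import Crest.Prelude.Def_TwoAdicShift

/-! Interface between the fibre part and the global part of S0150. -/

set_option autoImplicit false

open Crest.AnalysisR.TwoAdic MeasureTheory
attribute [local instance] Crest.AnalysisR.TwoAdic.borelTwoAdic Crest.AnalysisR.TwoAdic.borelSpace_twoAdic

namespace Crest.Agent.TA

/-- everything the global part needs to know about the weights -/
structure FibreData where
  β : ℤ → ℤ_[2] → ℝ
  b : ℤ → ℤ_[2] → ℝ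
  hβm : ∀ j, Measurable (β j)
  hbm : ∀ j, Measurable (b j)
  hβpos : ∀ j x, 0 < β j x
  hβle : ∀ j x, β j x ≤ Real.exp (-10)
  hβ0 : ∀ x, β 0 x = Real.exp (-10)
  hwin : ∀ (n : ℕ) (j : ℤ) (x : ℤ_[2]),
    ∏ i ∈ Finset.range n, β (j + i) x ≤ Real.exp (-10 * (((n + 1) ^ 2 / 4 : ℕ) : ℝ))
  hb : ∀ j x, 0 ≤ b j x ∧ b j x ≤ 1
  hcomm : ∀ x j, b j x * β (j - 1) (x + 1) = β j x * b (j + 1) x
  hbpos : ∀ x, x ≠ 0 → ∀ j, 0 < b j x
  huni : ∀ (x : ℤ_[2]) (T : seqHilbert →L[ℂ] seqHilbert),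
    (∀ j, T (basisVec j) = (β j x : ℂ) • basisVec (j + 1)) →
    ∀ W : Submodule ℂ seqHilbert, IsClosed (W : Set seqHilbert) →
      ((∀ v ∈ W, T v ∈ W) ↔ (W = ⊥ ∨ W = ⊤ ∨ ∃ h : ℤ, W = tailSpace h))

end Crest.Agent.TA
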