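import Mathlib
import Crest.Prelude.Def_TwoAdicShift

/-! Weighted shifts on ℓ²(ℤ) and tail spaces. -/

set_option autoImplicit false

open Crest.AnalysisR.TwoAdic

namespace Crest.Agent.TA

lemma toReal_two : ((2 : ENNReal).toReal) = 2 := by norm_num

lemma summable_sq (v : seqHilbert) : Summable (fun i => ‖v i‖ ^ 2) := by
  have h := lp.memℓp v
  rw [memℓp_gen_iff (by norm_num)] at h
  simpa [toReal_two] using h

lemma norm_sq_eq (v : seqHilbert) : ‖v‖ ^ 2 = ∑' i, ‖v i‖ ^ 2 := by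
  have h := lp.norm_rpow_eq_tsum (p := 2) (by norm_num) v
  simpa [toReal_two] using h

lemma mem_two {f : ℤ → ℂ} (hf : Summable (fun i => ‖f i‖ ^ 2)) : Memℓp f 2 := by
  rw [memℓp_gen_iff (by norm_num)]
  simpa [toReal_two] using hf

/-- underlying function -/
lemma wfun_summable (k : ℤ) (w : ℤ → ℝ) {C : ℝ} (hw : ∀ j, |w j| ≤ C) (v : seqHilbert) :
    Summable (fun j => ‖(w (j - k) : ℂ) * v (j - k)‖ ^ 2) := by
  have h1 : Summable (fun j => ‖(w j : ℂ) * v j‖ ^ 2) := by
    refine Summable.of_nonneg_of_le (fun j => by positivity) (fun j => ?_)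
      ((summable_sq v).mul_left (C ^ 2))
    rw [norm_mul, mul_pow]
    refine mul_le_mul_of_nonneg_right ?_ (by positivity)
    rw [Complex.norm_real, Real.norm_eq_abs]
    exact pow_le_pow_left₀ (abs_nonneg _) (hw j) 2
  exact (Equiv.subRight k).summable_iff.2 h1

lemma wfun_tsum_le (k : ℤ) (w : ℤ → ℝ) {C : ℝ} (hw : ∀ j, |w j| ≤ C) (v : seqHilbert) :
    ∑' j, ‖(w (j - k) : ℂ) * v (j - k)‖ ^ 2 ≤ C ^ 2 * ∑' j, ‖v j‖ ^ 2 := by
  have h := wfun_summable k w hw v
  have e : ∑' j, ‖(w (j - k) : ℂ) * v (j - k)‖ ^ 2 = ∑' j, ‖(w j : ℂ) * v j‖ ^ 2 :=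
    (Equiv.subRight k).tsum_eq (fun j => ‖(w j : ℂ) * v j‖ ^ 2)
  rw [e]
  have h' : Summable (fun j => ‖(w j : ℂ) * v j‖ ^ 2) := by
    have := (Equiv.subRight k).summable_iff (f := fun j => ‖(w j : ℂ) * v j‖ ^ 2)
    exact this.1 h
  rw [← tsum_mul_left]
  refine Summable.tsum_le_tsum (fun j => ?_) h' ((summable_sq v).mul_left _)
  rw [norm_mul, mul_pow]
  refine mul_le_mul_of_nonneg_right ?_ (by positivity)
  rw [Complex.norm_real, Real.norm_eq_abs]
  exact pow_le_pow_left₀ (abs_nonneg _) (hw j) 2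

/-- weighted shift `δ_j ↦ w_j δ_{j+k}` as a linear map -/
noncomputable def wLin (k : ℤ) (w : ℤ → ℝ) (hw : ∀ j, |w j| ≤ 1) : seqHilbert →ₗ[ℂ] seqHilbert where
  toFun := fun v => ⟨fun j => (w (j - k) : ℂ) * v (j - k), mem_two (wfun_summable k w hw v)⟩
  map_add' := by
    intro u v
    ext j
    change (w (j - k) : ℂ) * (u + v) (j - k)
      = (w (j - k) : ℂ) * u (j - k) + (w (j - k) : ℂ) * v (j - k)
    rw [lp.coeFn_add, Pi.add_apply, mul_add]
  map_smul' := by
    intro c v
    ext j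
    change (w (j - k) : ℂ) * (c • v) (j - k) = c * ((w (j - k) : ℂ) * v (j - k))
    rw [lp.coeFn_smul, Pi.smul_apply, smul_eq_mul, mul_left_comm]

lemma wLin_apply (k : ℤ) (w : ℤ → ℝ) (hw : ∀ j, |w j| ≤ 1) (v : seqHilbert) (j : ℤ) :
    (wLin k w hw v) j = (w (j - k) : ℂ) * v (j - k) := rfl

lemma wLin_norm_le (k : ℤ) (w : ℤ → ℝ) (hw : ∀ j, |w j| ≤ 1) {C : ℝ} (hC : ∀ j, |w j| ≤ C)
    (v : seqHilbert) : ‖wLin k w hw v‖ ≤ C * ‖v‖ := by
  have hC0 : 0 ≤ C := (abs_nonneg _).trans (hC 0)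
  refine le_of_sq_le_sq ?_ (by positivity)
  rw [mul_pow, norm_sq_eq, norm_sq_eq]
  exact wfun_tsum_le k w hC v

/-- weighted shift `δ_j ↦ w_j δ_{j+k}` -/
noncomputable def wOp (k : ℤ) (w : ℤ → ℝ) (hw : ∀ j, |w j| ≤ 1) : seqHilbert →L[ℂ] seqHilbert :=
  LinearMap.mkContinuous (wLin k w hw) 1 (fun v => wLin_norm_le k w hw hw v)

lemma wOp_apply (k : ℤ) (w : ℤ → ℝ) (hw : ∀ j, |w j| ≤ 1) (v : seqHilbert) (j : ℤ) :
    (wOp k w hw v) j = (w (j - k) : ℂ) * v (j - k) := rfl

lemma wOp_norm_le (k : ℤ) (w : ℤ → ℝ) (hw : ∀ j, |w j| ≤ 1) {C : ℝ} (hC : ∀ j, |w j| ≤ C)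
    (v : seqHilbert) : ‖wOp k w hw v‖ ≤ C * ‖v‖ := wLin_norm_le k w hw hC v

lemma basisVec_apply (i j : ℤ) : (basisVec i) j = if j = i then (1 : ℂ) else 0 := by
  unfold basisVec
  rw [lp.single_apply]
  by_cases h : j = i
  · subst h; simp
  · simp [h]

lemma basisVec_self (i : ℤ) : (basisVec i) i = (1 : ℂ) := by simp [basisVec_apply]

lemma basisVec_ne {i j : ℤ} (h : j ≠ i) : (basisVec i) j = (0 : ℂ) := by simp [basisVec_apply, h]

lemma wOp_basis (k : ℤ) (w : ℤ → ℝ) (hw : ∀ j, |w j| ≤ 1) (j : ℤ) :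
    wOp k w hw (basisVec j) = (w j : ℂ) • basisVec (j + k) := by
  ext i
  rw [wOp_apply, lp.coeFn_smul, Pi.smul_apply, smul_eq_mul, basisVec_apply, basisVec_apply]
  by_cases h : i = j + k
  · subst h; simp
  · have : ¬ (i - k = j) := by omega
    simp [h, this]

lemma hasSum_basis (v : seqHilbert) : HasSum (fun i : ℤ => v i • basisVec i) v := by
  have h := lp.hasSum_single (p := 2) (by norm_num) v
  refine h.congr_fun ?_ |> fun h => h
  intro i
  ext j
  rw [lp.coeFn_smul, Pi.smul_apply, smul_eq_mul, basisVec_apply, lp.single_apply]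
  by_cases h : j = i
  · subst h; simp
  · simp [h]

/-- coordinate functional -/
noncomputable def coordL (j : ℤ) : seqHilbert →L[ℂ] ℂ := lp.evalCLM ℂ (fun _ : ℤ => ℂ) 2 j

lemma coordL_apply (j : ℤ) (v : seqHilbert) : coordL j v = v j := rfl

lemma hasSum_map (T : seqHilbert →L[ℂ] seqHilbert) (v : seqHilbert) (j : ℤ) :
    HasSum (fun i : ℤ => v i * (T (basisVec i)) j) ((T v) j) := by
  have h := (hasSum_basis v).mapL (coordL j ∘L T)
  simpa [coordL_apply] using h

/-- an operator acting as a weighted shift on the basis acts coordinatewise -/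
lemma shift_apply (T : seqHilbert →L[ℂ] seqHilbert) (w : ℤ → ℝ) (k : ℤ)
    (hT : ∀ j, T (basisVec j) = (w j : ℂ) • basisVec (j + k)) (v : seqHilbert) (j : ℤ) :
    (T v) j = (w (j - k) : ℂ) * v (j - k) := by
  have h := hasSum_map T v j
  have h2 : HasSum (fun i : ℤ => v i * (T (basisVec i)) j) ((w (j - k) : ℂ) * v (j - k)) := by
    have e : (w (j - k) : ℂ) * v (j - k) = v (j - k) * (T (basisVec (j - k))) j := by
      rw [hT, lp.coeFn_smul, Pi.smul_apply, smul_eq_mul, basisVec_apply]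
      simp [mul_comm]
    rw [e]
    refine hasSum_single (j - k) ?_
    intro i hi
    rw [hT, lp.coeFn_smul, Pi.smul_apply, smul_eq_mul, basisVec_apply]
    have : ¬ (j = i + k) := by omega
    simp [this]
  exact h.unique h2

/-- vectors supported in `[h,∞)` -/
noncomputable def suppGe (h : ℤ) : Submodule ℂ seqHilbert where
  carrier := {v | ∀ j < h, v j = 0}
  add_mem' := by
    intro a b ha hb j hj
    simp [ha j hj, hb j hj]
  zero_mem' := by intro j _; simp
  smul_mem' := by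
    intro c a ha j hj
    simp [ha j hj]

lemma suppGe_closed (h : ℤ) : IsClosed (suppGe h : Set seqHilbert) := by
  have : (suppGe h : Set seqHilbert) = ⋂ j : ℤ, ⋂ _ : j < h, {v | coordL j v = 0} := by
    ext v
    simp only [Set.mem_iInter, Set.mem_ofPred_eq, coordL_apply]
    rfl
  rw [this]
  refine isClosed_iInter fun j => isClosed_iInter fun _ => ?_
  exact isClosed_eq (coordL j).continuous continuous_const

lemma mem_tailSpace_iff (h : ℤ) (v : seqHilbert) : v ∈ tailSpace h ↔ ∀ j < h, v j = 0 := by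
  constructor
  · intro hv
    have : tailSpace h ≤ suppGe h := by
      refine Submodule.topologicalClosure_minimal _ ?_ (suppGe_closed h)
      rw [Submodule.span_le]
      rintro _ ⟨j, rfl⟩ i hi
      exact basisVec_ne (by have := j.2; omega)
    exact this hv
  · intro hv
    have hc : IsClosed (tailSpace h : Set seqHilbert) := Submodule.isClosed_topologicalClosure _
    refine hc.mem_of_tendsto (hasSum_basis v) (Filter.Eventually.of_forall fun s => ?_)
    refine Submodule.sum_mem _ fun i _ => ?_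
    by_cases hi : i < h
    · rw [hv i hi, zero_smul]; exact Submodule.zero_mem _
    · refine Submodule.smul_mem _ _ (Submodule.le_topologicalClosure _ (Submodule.subset_span ?_))
      exact ⟨⟨i, not_lt.1 hi⟩, rfl⟩

lemma tailSpace_closed (h : ℤ) : IsClosed (tailSpace h : Set seqHilbert) :=
  Submodule.isClosed_topologicalClosure _

lemma basisVec_mem_tail {h j : ℤ} (hj : h ≤ j) : basisVec j ∈ tailSpace h := by
  rw [mem_tailSpace_iff]
  intro i hi
  exact basisVec_ne (by omega)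

lemma closed_top_of_basis (W : Submodule ℂ seqHilbert) (hW : IsClosed (W : Set seqHilbert))
    (h : ∀ j, basisVec j ∈ W) : W = ⊤ := by
  rw [Submodule.eq_top_iff']
  intro v
  refine hW.mem_of_tendsto (hasSum_basis v) (Filter.Eventually.of_forall fun s => ?_)
  exact Submodule.sum_mem _ fun i _ => Submodule.smul_mem _ _ (h i)

lemma tail_le_of_basis (W : Submodule ℂ seqHilbert) (hW : IsClosed (W : Set seqHilbert)) (k : ℤ)
    (h : ∀ j, k ≤ j → basisVec j ∈ W) : tailSpace k ≤ W := by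
  refine Submodule.topologicalClosure_minimal _ ?_ hW
  rw [Submodule.span_le]
  rintro _ ⟨j, rfl⟩
  exact h j j.2

lemma closure_shift_tail (T : seqHilbert →L[ℂ] seqHilbert) (w : ℤ → ℝ)
    (hT : ∀ j, T (basisVec j) = (w j : ℂ) • basisVec (j - 1)) (hw : ∀ j, 0 < w j) (h : ℤ) :
    closure (T '' (tailSpace h : Set seqHilbert)) = (tailSpace (h - 1) : Set seqHilbert) := by
  apply Set.Subset.antisymm
  · refine closure_minimal ?_ (tailSpace_closed _)
    rintro _ ⟨v, hv, rfl⟩
    rw [SetLike.mem_coe, mem_tailSpace_iff] at hv ⊢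
    intro j hj
    rw [shift_apply T w (-1) (by simpa [sub_eq_add_neg] using hT)]
    rw [hv (j - -1) (by omega), mul_zero]
  · have h1 : (Submodule.map (T : seqHilbert →ₗ[ℂ] seqHilbert) (tailSpace h)).topologicalClosure
        = (Submodule.map (T : seqHilbert →ₗ[ℂ] seqHilbert) (tailSpace h)).topologicalClosure := rfl
    have h2 : tailSpace (h - 1) ≤
        (Submodule.map (T : seqHilbert →ₗ[ℂ] seqHilbert) (tailSpace h)).topologicalClosure := by
      refine tail_le_of_basis _ (Submodule.isClosed_topologicalClosure _) _ ?_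
      intro j hj
      refine Submodule.le_topologicalClosure _ ?_
      refine ⟨(w (j + 1) : ℂ)⁻¹ • basisVec (j + 1), ?_, ?_⟩
      · exact Submodule.smul_mem _ _ (basisVec_mem_tail (by omega))
      · have hne : (w (j + 1) : ℂ) ≠ 0 := by exact_mod_cast (hw (j + 1)).ne'
        change T ((w (j + 1) : ℂ)⁻¹ • basisVec (j + 1)) = basisVec j
        rw [map_smul, hT, smul_smul, inv_mul_cancel₀ hne, one_smul]
        simp
    intro v hv
    exact h2 hv

lemma closure_shift_range (T : seqHilbert →L[ℂ] seqHilbert) (w : ℤ → ℝ)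
    (hT : ∀ j, T (basisVec j) = (w j : ℂ) • basisVec (j - 1)) (hw : ∀ j, 0 < w j) :
    closure (Set.range T) = Set.univ := by
  have h2 : (LinearMap.range (T : seqHilbert →ₗ[ℂ] seqHilbert)).topologicalClosure = ⊤ := by
    refine closed_top_of_basis _ (Submodule.isClosed_topologicalClosure _) ?_
    intro j
    refine Submodule.le_topologicalClosure _ ?_
    refine ⟨(w (j + 1) : ℂ)⁻¹ • basisVec (j + 1), ?_⟩
    have hne : (w (j + 1) : ℂ) ≠ 0 := by exact_mod_cast (hw (j + 1)).ne'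
    change T ((w (j + 1) : ℂ)⁻¹ • basisVec (j + 1)) = basisVec j
    rw [map_smul, hT, smul_smul, inv_mul_cancel₀ hne, one_smul]
    simp
  have := congrArg (fun W : Submodule ℂ seqHilbert => (W : Set seqHilbert)) h2
  rw [Submodule.top_coe, Submodule.topologicalClosure_coe] at this
  exact this

end Crest.Agent.TA
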