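import Crest.Agent.ThA8
import Crest.Agent.ThA0

/-! Part (a), final form. -/

set_option autoImplicit false

namespace Crest.Agent.ThS

open Finset Filter Topology

theorem partA (D q : ℕ) (hq : (q : ℝ) ≤ 5 / 8 * 2 ^ D) :
    ∑ y : Fin q ↪ (Fin D → Bool), tvPos (cvPow (passLaw D) 12) y
      ≤ epsA D * (Fintype.card (Fin q ↪ (Fin D → Bool)) : ℝ) := by
  have h := partA_fin D q (lawOf_pm (D := D)) hq
  have hle : q ≤ Fintype.card (Fin D → Bool) := by
    have h1 : (q : ℝ) ≤ (Fintype.card (Fin D → Bool) : ℝ) := by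
      rw [card_cubeR]
      have : (0 : ℝ) < 2 ^ D := by positivity
      linarith
    exact_mod_cast h1
  have hN : (0 : ℝ) < (Fintype.card (Fin q ↪ (Fin D → Bool)) : ℝ) := by
    have : 0 < Fintype.card (Fin q ↪ (Fin D → Bool)) := by
      rw [Fintype.card_embedding_eq, Fintype.card_fin]
      exact Nat.descFactorial_pos.mpr hle
    exact_mod_cast this
  rwa [div_le_iff₀ hN] at h

end Crest.Agent.ThS
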